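import Vale.Agent.P154.Ferro4.Maj.A
import Vale.Agent.P154.Ferro4.Maj.B
import Vale.Agent.P154.Ferro4.Maj.C
import Vale.Agent.P154.Ferro4.Maj.D
import Vale.Agent.P154.Ferro4.Maj.E
import Vale.Agent.P154.Ferro4.Maj.F
import Vale.Agent.P154.Ferro4.Maj.G

/-!
P154, four states: on each interval of `s` the class function lies below its majorant.
-/

namespace Vale.Agent.P154.Ferro4

open Channel PolyCheck Maj

/-- The ends of the intervals, over `30000`. -/
def xEdgeNum : Fin 20 → ℤ := ![0, 18, 75, 240, 480, 900, 1800, 3000, 4200, 5700, 7500, 10000, 12000, 15000, 18000, 21000, 24000, 26400, 28500, 30000]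

theorem xEdgeNum_eq : ∀ n : Fin 20, (xEdgeNum n : ℚ) / 30000 = xEdge n := by
  decide +kernel

/-- The pair inequality on interval `I`. -/
theorem xPairBound (I : Fin 19) (x y : ℝ)
    (hd : PairDom ((xEdgeNum I.castSucc : ℝ) / (30000 : ℕ)) ((xEdgeNum I.succ : ℝ) / (30000 : ℕ)) x y) :
    √(1 + x) * √(1 + y) ≤ pairPoly (fun i => (xKnum I i : ℝ) / (16000000 : ℕ)) x y := by
  have hD : 0 < 16000000 := by norm_num
  have hN : 0 < 30000 := by norm_num
  fin_cases I
  · exact pairBound_of_checkZero (xKnum 0) _ _ 0 18 tree0 hD hN (by decide +kernel) check0 x y hd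
  · exact pairBound_of_checkZero (xKnum 1) _ _ 18 75 tree1 hD hN (by decide +kernel) check1 x y hd
  · exact pairBound_of_checkZero (xKnum 2) _ _ 75 240 tree2 hD hN (by decide +kernel) check2 x y hd
  · exact pairBound_of_checkZero (xKnum 3) _ _ 240 480 tree3 hD hN (by decide +kernel) check3 x y hd
  · exact pairBound_of_checkZero (xKnum 4) _ _ 480 900 tree4 hD hN (by decide +kernel) check4 x y hd
  · exact pairBound_of_checkMul (xKnum 5) _ _ 900 1800 mus5 tree5 hD hN check5 x y hd
  · exact pairBound_of_checkMul (xKnum 6) _ _ 1800 3000 mus6 tree6 hD hN check6 x y hd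
  · exact pairBound_of_checkMul (xKnum 7) _ _ 3000 4200 mus7 tree7 hD hN check7 x y hd
  · exact pairBound_of_checkMul (xKnum 8) _ _ 4200 5700 mus8 tree8 hD hN check8 x y hd
  · exact pairBound_of_checkMul (xKnum 9) _ _ 5700 7500 mus9 tree9 hD hN check9 x y hd
  · exact pairBound_of_checkMul (xKnum 10) _ _ 7500 10000 mus10 tree10 hD hN check10 x y hd
  · exact pairBound_of_checkMul (xKnum 11) _ _ 10000 12000 mus11 tree11 hD hN check11 x y hd
  · exact pairBound_of_checkMul (xKnum 12) _ _ 12000 15000 mus12 tree12 hD hN check12 x y hd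
  · exact pairBound_of_checkMul (xKnum 13) _ _ 15000 18000 mus13 tree13 hD hN check13 x y hd
  · exact pairBound_of_checkMul (xKnum 14) _ _ 18000 21000 mus14 tree14 hD hN check14 x y hd
  · exact pairBound_of_checkMul (xKnum 15) _ _ 21000 24000 mus15 tree15 hD hN check15 x y hd
  · exact pairBound_of_checkMul (xKnum 16) _ _ 24000 26400 mus16 tree16 hD hN check16 x y hd
  · exact pairBound_of_checkMul (xKnum 17) _ _ 26400 28500 mus17 tree17 hD hN check17 x y hd
  · exact pairBound_of_checkMul (xKnum 18) _ _ 28500 30000 mus18 tree18 hD hN check18 x y hd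

/-- The majorant of the class function on interval `I`. -/
theorem xMajorant (I : Fin 19) {r : Fin 4 → ℝ} (hr : IsPost4 r) (hl : (xLo I : ℝ) ≤ sq4 r)
    (hh : sq4 r ≤ (xHi I : ℝ)) :
    classFn (xG : ℝ) r ≤
      classMajorant (xG : ℝ) (fun n => (xKQ I n : ℝ)) (sq4 r) (cube4 r) (quart4 r) := by
  have he : ∀ n : Fin 20, ((xEdge n : ℚ) : ℝ) = (xEdgeNum n : ℝ) / (30000 : ℕ) := fun n => by
    rw [← xEdgeNum_eq n]; push_cast; ring
  have hk : (fun n => (xKQ I n : ℝ)) = fun n => (xKnum I n : ℝ) / (16000000 : ℕ) := by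
    funext n; simp [xKQ]
  rw [xLo, he] at hl
  rw [xHi, he] at hh
  rw [hk]
  exact classFn_le_majorant (by norm_num [xG]) (xPairBound I) hr hl hh

end Vale.Agent.P154.Ferro4
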