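import Vale.Agent.P154.Ferro4.XCover
import Vale.Agent.P154.Ferro4.MajorantCerts

/-!
P154, four states: the strict subadditivity inequality, with no hypothesis left.
-/

namespace Vale.Agent.P154.Ferro4

open Channel

/-- The subadditivity inequality on pairs of posteriors. -/
theorem hX_four (r r' : Fin 4 → ℝ) (hr : IsPost4 r) (hr' : IsPost4 r') :
    avg24 sq4 r r' ≤ sq4 r + sq4 r' -
      psiFn (fun n => (xPsiQ n : ℝ)) r' * classFn (xG : ℝ) r -
      psiFn (fun n => (xPsiQ n : ℝ)) r * classFn (xG : ℝ) r' -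
      0 * (classFn (xG : ℝ) r * classFn (xG : ℝ) r') -
      (xEpsQ : ℝ) * sq4 r ^ 2 * sq4 r' :=
  hX_of_majorants (fun I _ h hl hh => xMajorant I h hl hh) r r' hr hr'

end Vale.Agent.P154.Ferro4
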