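import Vale.Agent.P154.Ferro4.KCover
import Vale.Agent.P154.Ferro4.XBound

/-!
P154, four states: the ferromagnetic certificate from the two pointwise inequalities.
-/

namespace Vale.Agent.P154.Ferro4

open Channel PolyCheck XCheck KCheck

/-- The multiplier is above `L (1 - g - t)`. -/
theorem kPhiQ_bound (t : ℝ) (h0 : 0 ≤ t) (h1 : t ≤ 1) :
    (kSlopeQ : ℝ) * (1 - (xG : ℝ) - t) ≤ kPhi kPhiQ t := by
  have h := nonneg₁
    (RE.ex (rPhi kPhiQ (.v 0) - cq kSlopeQ * (cq (1 - xG) - .v 0))) ⟨0, 1, 1⟩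
    (.cut 0 (.cut 0 .leaf (.cut 0 .leaf (.cut 0 .leaf (.cut 0 .leaf .leaf)))) .leaf)
    (by decide +kernel) (x := t) (by simp [Iv.Mem, h0, h1])
  have h' := ex_sound h
  simp [eval_phi] at h'
  linarith

/-- The certificate for four states. -/
theorem ferroCert_four : FerroCert 4 (by norm_num) :=
  ferroCert_four_of_point' (L := (kSlopeQ : ℝ)) (φ := kPhi kPhiQ) (m := 2) (ν' := 0)
    (ψ := psiFn fun n => (xPsiQ n : ℝ)) (g := (xG : ℝ)) (ε := (xEpsQ : ℝ))
    (by norm_num [xG]) (by norm_num [xG]) (by norm_num [xEpsQ]) (by norm_num [xEpsQ])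
    (by norm_num) (by norm_num [kSlopeQ]) (ν := (kNuQ : ℝ)) (by norm_num [kNuQ]) le_rfl
    kPhiQ_bound (fun r hr => xPsiQ_nonneg r hr) hK_four hX_four

end Vale.Agent.P154.Ferro4
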