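import Vale.Agent.P154.Ferro4.Reduce

/-!
P154, four states: the class function passes through an edge with eigenvalue in `[0, 1]`.
-/

namespace Vale.Agent.P154.Ferro4

open Real Finset

namespace Channel

/-- The pair part of `T - 1 + s`. -/
noncomputable def pairPart (a b : ℝ) : ℝ :=
  √(1 + a) * √(1 + b) - 1 - (a + b) / 2 + (a - b) ^ 2 / 8

lemma geom_line {a b t : ℝ} (ha : 0 ≤ 1 + a) (hb : 0 ≤ 1 + b) (h0 : 0 ≤ t) (h1 : t ≤ 1) :
    (1 - t) + t * (√(1 + a) * √(1 + b)) ≤ √(1 + t * a) * √(1 + t * b) := by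
  set x := √(1 + a)
  set y := √(1 + b)
  have hx : x ^ 2 = 1 + a := sq_sqrt ha
  have hy : y ^ 2 = 1 + b := sq_sqrt hb
  have h1t : 0 ≤ 1 - t := by linarith
  have e1 : 1 + t * a = (1 - t) + t * x ^ 2 := by rw [hx]; ring
  have e2 : 1 + t * b = (1 - t) + t * y ^ 2 := by rw [hy]; ring
  rw [e1, e2, ← sqrt_mul (by positivity : (0 : ℝ) ≤ (1 - t) + t * x ^ 2)]
  refine le_sqrt_of_sq_le ?_
  nlinarith [mul_nonneg (mul_nonneg h1t h0) (sq_nonneg (x - y))]

lemma pairPart_scale {a b t : ℝ} (ha : 0 ≤ 1 + a) (hb : 0 ≤ 1 + b) (h0 : 0 ≤ t) (h1 : t ≤ 1) :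
    t ^ 3 * pairPart a b ≤ pairPart (t * a) (t * b) := by
  have key : ∀ a b : ℝ, 0 ≤ 1 + a → 0 ≤ 1 + b →
      ∀ Y, Y = √(1 + a) * √(1 + b) + 1 + (a + b) / 2 → Y ≠ 0 →
      pairPart a b = (a - b) ^ 2 / 4 * (1 / 2 - 1 / Y) := by
    intro a b ha hb Y hY h
    have hp : (√(1 + a) * √(1 + b)) ^ 2 = (1 + a) * (1 + b) := by
      rw [mul_pow, sq_sqrt ha, sq_sqrt hb]
    have hd : √(1 + a) * √(1 + b) - 1 - (a + b) / 2 = -((a - b) ^ 2 / 4) / Y := by
      rw [eq_div_iff h, hY]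
      linear_combination hp
    rw [pairPart, hd]
    ring
  set Y := √(1 + a) * √(1 + b) + 1 + (a + b) / 2 with hY
  have hY0 : 0 ≤ Y := by
    have := mul_nonneg (sqrt_nonneg (1 + a)) (sqrt_nonneg (1 + b))
    rw [hY]; linarith
  have hta : 0 ≤ 1 + t * a := by
    have : 1 + t * a = (1 - t) + t * (1 + a) := by ring
    rw [this]; exact add_nonneg (by linarith) (mul_nonneg h0 ha)
  have htb : 0 ≤ 1 + t * b := by
    have : 1 + t * b = (1 - t) + t * (1 + b) := by ring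
    rw [this]; exact add_nonneg (by linarith) (mul_nonneg h0 hb)
  rcases hY0.eq_or_lt with h | hpos
  · have hab : a = -1 ∧ b = -1 := by
      have := mul_nonneg (sqrt_nonneg (1 + a)) (sqrt_nonneg (1 + b))
      constructor <;> linarith
    obtain ⟨rfl, rfl⟩ := hab
    simp only [pairPart]
    rw [← sq (√(1 + t * -1)), sq_sqrt hta]
    norm_num
  set Y' := √(1 + t * a) * √(1 + t * b) + 1 + (t * a + t * b) / 2 with hY'
  have hge : (1 - t) * 2 + t * Y ≤ Y' := by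
    rw [hY, hY']
    linarith [geom_line ha hb h0 h1]
  have hmid : 0 < (1 - t) * 2 + t * Y := by
    rcases h1.eq_or_lt with rfl | h
    · linarith
    · linarith [mul_nonneg h0 hY0]
  have hY'0 : 0 < Y' := hmid.trans_le hge
  rw [key a b ha hb Y hY hpos.ne', key _ _ hta htb Y' hY' hY'0.ne']
  have hin : 1 / Y' ≤ (1 - t) / 2 + t / Y := by
    refine (one_div_le_one_div_of_le hmid hge).trans ?_
    rw [div_add_div _ _ two_ne_zero hpos.ne', div_le_div_iff₀ hmid (by positivity)]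
    nlinarith [mul_nonneg (mul_nonneg h0 (sub_nonneg.2 h1)) (sq_nonneg (Y - 2))]
  have hg : t * (1 / 2 - 1 / Y) ≤ 1 / 2 - 1 / Y' := by
    rw [mul_sub, show t * (1 / Y) = t / Y by ring]
    linarith
  have := mul_le_mul_of_nonneg_left hg
    (show (0 : ℝ) ≤ t ^ 2 * (a - b) ^ 2 / 4 by positivity)
  calc t ^ 3 * ((a - b) ^ 2 / 4 * (1 / 2 - 1 / Y))
      = t ^ 2 * (a - b) ^ 2 / 4 * (t * (1 / 2 - 1 / Y)) := by ring
    _ ≤ t ^ 2 * (a - b) ^ 2 / 4 * (1 / 2 - 1 / Y') := this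
    _ = _ := by ring

/-- Second order deviation `s`. -/
noncomputable def sq4 (r : Fin 4 → ℝ) : ℝ := (∑ i, (r i - 1) ^ 2) / 12

/-- Third order deviation `c`. -/
noncomputable def cube4 (r : Fin 4 → ℝ) : ℝ := (∑ i, (r i - 1) ^ 3) / 24

lemma sq4_nonneg (r : Fin 4 → ℝ) : 0 ≤ sq4 r := by unfold sq4; positivity

lemma pairMean_eq (r : Fin 4 → ℝ) (h : ∑ i, r i = 4) :
    pairMean r - 1 + sq4 r =
      (pairPart (r 0 - 1) (r 1 - 1) + pairPart (r 0 - 1) (r 2 - 1) + pairPart (r 0 - 1) (r 3 - 1) +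
        pairPart (r 1 - 1) (r 2 - 1) + pairPart (r 1 - 1) (r 3 - 1) +
        pairPart (r 2 - 1) (r 3 - 1)) / 6 := by
  simp only [Fin.sum_univ_four] at h
  simp only [pairMean, sq4, pairPart, Fin.sum_univ_four, add_sub_cancel]
  linear_combination ((1 / 48 : ℝ) * (r 0 + r 1 + r 2 + r 3 + 4) + 1 / 12) * h

lemma cube4_le (r : Fin 4 → ℝ) (h : ∑ i, r i = 4) : cube4 r ≤ sq4 r * √(sq4 r) := by
  have ha := sq_sqrt (sq4_nonneg r)
  set a := √(sq4 r) with hadef
  have hsum : ∑ i, (r i - 1) = 0 := by simp [Finset.sum_sub_distrib, h]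
  have hle : ∀ i, (r i - 1) ≤ 3 * a := by
    intro i
    have h3 : (r i - 1) ^ 2 * 4 ≤ 3 * (12 * sq4 r) := by
      have : 12 * sq4 r = ∑ j, (r j - 1) ^ 2 := by rw [sq4]; ring
      rw [this]
      have key : ∀ a b c d : ℝ, a + b + c + d = 0 →
          a ^ 2 * 4 ≤ 3 * (a ^ 2 + b ^ 2 + c ^ 2 + d ^ 2) := fun a b c d he => by
        obtain rfl : a = -(b + c + d) := by linarith
        nlinarith [sq_nonneg (b - c), sq_nonneg (b - d), sq_nonneg (c - d)]
      simp only [Fin.sum_univ_four] at hsum ⊢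
      fin_cases i <;> simp
      · exact key _ _ _ _ hsum
      · linarith [key (r 1 - 1) (r 0 - 1) (r 2 - 1) (r 3 - 1) (by linarith)]
      · linarith [key (r 2 - 1) (r 0 - 1) (r 1 - 1) (r 3 - 1) (by linarith)]
      · linarith [key (r 3 - 1) (r 0 - 1) (r 1 - 1) (r 2 - 1) (by linarith)]
    have : (r i - 1) ^ 2 ≤ (3 * a) ^ 2 := by rw [mul_pow, ha]; linarith
    exact (le_abs_self _).trans (abs_le_of_sq_le_sq this (by positivity))
  have hs : ∑ i, ((r i - 1) - 3 * a) * ((r i - 1) + a) ^ 2 ≤ 0 :=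
    Finset.sum_nonpos fun i _ => mul_nonpos_of_nonpos_of_nonneg (sub_nonpos.2 (hle i)) (sq_nonneg _)
  simp only [cube4, sq4, Fin.sum_univ_four] at hsum ha hs ⊢
  linear_combination (1 / 24 : ℝ) * hs + (5 * a ^ 2 / 24) * hsum + (1 / 2 : ℝ) * a * ha

lemma esym3_eq (r : Fin 4 → ℝ) (h : ∑ i, r i = 4) :
    esym3 r / 4 = 1 - 3 * sq4 r + 2 * cube4 r := by
  simp only [Fin.sum_univ_four] at h
  obtain rfl' : r 3 = 4 - r 0 - r 1 - r 2 := by linarith
  simp only [esym3, sq4, cube4, Fin.sum_univ_four, rfl']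
  ring

lemma sq4_le_one (r : Fin 4 → ℝ) (h0 : ∀ i, 0 ≤ r i) (h : ∑ i, r i = 4) : sq4 r ≤ 1 := by
  simp only [sq4, Fin.sum_univ_four] at h ⊢
  obtain e : r 3 = 4 - r 0 - r 1 - r 2 := by linarith
  rw [div_le_one (by norm_num)]
  have := h0 0; have := h0 1; have := h0 2; have := h0 3
  nlinarith [mul_nonneg (h0 0) (h0 1), mul_nonneg (h0 0) (h0 2), mul_nonneg (h0 0) (h0 3),
    mul_nonneg (h0 1) (h0 2), mul_nonneg (h0 1) (h0 3), mul_nonneg (h0 2) (h0 3)]

/-- The `R / A` part passes through an edge. -/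
lemma ratio_scale {s c t : ℝ} (hs1 : s < 1) (hs : 0 ≤ s) (hc : c ≤ s * √s)
    (h0 : 0 ≤ t) (h1 : t ≤ 1) :
    t ^ 3 * ((c - s ^ 2) / (1 - s)) ≤ (t ^ 3 * c - t ^ 4 * s ^ 2) / (1 - t ^ 2 * s) := by
  have ht : t ^ 2 * s < 1 :=
    (mul_le_of_le_one_left hs (pow_le_one₀ h0 h1)).trans_lt hs1
  rw [← mul_div_assoc, div_le_div_iff₀ (by linarith) (by linarith)]
  have ha := sq_sqrt hs
  set a := √s with hadef
  have ha0 : 0 ≤ a := sqrt_nonneg _
  have ha1 : a ≤ 1 := by rw [hadef]; exact sqrt_le_one.2 hs1.le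
  have key : c * (1 + t) ≤ s * (1 + t * s) := by
    refine (mul_le_mul_of_nonneg_right hc (by linarith)).trans ?_
    have h2 : 0 ≤ s * ((1 - a) * (1 - t * a)) :=
      mul_nonneg hs (mul_nonneg (by linarith) (by linarith [mul_le_one₀ h1 ha0 ha1]))
    linear_combination h2 + s * t * ha
  have h3 := mul_nonneg (mul_nonneg (mul_nonneg (pow_nonneg h0 3) hs) (sub_nonneg.2 h1))
    (sub_nonneg.2 key)
  linear_combination h3

end Channel

open Channel in
/-- The class function passes through an edge: `f (1 + t u) ≥ t ^ 3 f (1 + u)`. -/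
theorem classFn_scale {g t : ℝ} (hg : 0 ≤ g) (hg1 : 2 * g ≤ 1) (h0 : 0 ≤ t) (h1 : t ≤ 1)
    (r : Fin 4 → ℝ) (hr : ∀ i, 0 ≤ r i) (hsum : ∑ i, r i = 4) :
    let r' : Fin 4 → ℝ := fun i => 1 + t * (r i - 1)
    t ^ 3 * (sq4 r - (1 - g) + g * (esym3 r / 4) / (1 - sq4 r) + (1 - 2 * g) * pairMean r) ≤
      sq4 r' - (1 - g) + g * (esym3 r' / 4) / (1 - sq4 r') + (1 - 2 * g) * pairMean r' := by
  intro r'
  have hsum' : ∑ i, r' i = 4 := by
    simp only [r', Fin.sum_univ_four] at hsum ⊢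
    linear_combination t * hsum
  have hs' : sq4 r' = t ^ 2 * sq4 r := by
    simp only [r', sq4, Fin.sum_univ_four]; ring
  have hc' : cube4 r' = t ^ 3 * cube4 r := by
    simp only [r', cube4, Fin.sum_univ_four]; ring
  have hk : t ^ 3 * (pairMean r - 1 + sq4 r) ≤ pairMean r' - 1 + sq4 r' := by
    rw [pairMean_eq r hsum, pairMean_eq r' hsum']
    have hn : ∀ i, 0 ≤ 1 + (r i - 1) := fun i => by linarith [hr i]
    simp only [r', add_sub_cancel_left]
    linarith [pairPart_scale (hn 0) (hn 1) h0 h1, pairPart_scale (hn 0) (hn 2) h0 h1,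
      pairPart_scale (hn 0) (hn 3) h0 h1, pairPart_scale (hn 1) (hn 2) h0 h1,
      pairPart_scale (hn 1) (hn 3) h0 h1, pairPart_scale (hn 2) (hn 3) h0 h1]
  have hs0 := sq4_nonneg r
  have hs1 := sq4_le_one r hr hsum
  have hk2 := mul_le_mul_of_nonneg_left hk (show (0 : ℝ) ≤ 1 - 2 * g by linarith)
  rw [esym3_eq r hsum, esym3_eq r' hsum', hs', hc'] at *
  set s := sq4 r
  set c := cube4 r
  suffices hrat : t ^ 3 * (g * (2 * s - 1) + g * (1 - 3 * s + 2 * c) / (1 - s)) ≤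
      g * (2 * (t ^ 2 * s) - 1) + g * (1 - 3 * (t ^ 2 * s) + 2 * (t ^ 3 * c)) / (1 - t ^ 2 * s) by
    linarith
  rcases h1.eq_or_lt with rfl | hlt
  · simp
  have ht2 : t ^ 2 * s < 1 :=
    (mul_le_of_le_one_right (sq_nonneg t) hs1).trans_lt (pow_lt_one₀ h0 hlt two_ne_zero)
  have hc := cube4_le r hsum
  have e : ∀ s c : ℝ, s ≠ 1 → g * (2 * s - 1) + g * (1 - 3 * s + 2 * c) / (1 - s) =
      2 * g * ((c - s ^ 2) / (1 - s)) := fun s c h => by
    have : (1 : ℝ) - s ≠ 0 := sub_ne_zero.2 (Ne.symm h)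
    field_simp
    ring
  rw [e _ _ ht2.ne]
  rcases hs1.eq_or_lt with hse | hs1'
  · have hc1 : c = 1 := by
      have hR : 0 ≤ esym3 r / 4 := by
        have := hr 0; have := hr 1; have := hr 2; have := hr 3
        simp only [esym3]; positivity
      rw [esym3_eq r hsum] at hR
      have : c ≤ 1 := by
        have h' := cube4_le r hsum
        change c ≤ s * √s at h'
        rw [hse, sqrt_one] at h'; linarith
      change 0 ≤ 1 - 3 * s + 2 * c at hR
      linarith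
    rw [hse, hc1]
    have ht : 0 < 1 - t ^ 2 := by rw [hse] at ht2; linarith
    have h3 := mul_nonneg (mul_nonneg hg (pow_nonneg h0 3)) (sq_nonneg (1 - t))
    calc t ^ 3 * (g * (2 * 1 - 1) + g * (1 - 3 * 1 + 2 * 1) / (1 - 1)) = t ^ 3 * g := by
          norm_num
      _ ≤ 2 * g * ((t ^ 3 - (t ^ 2) ^ 2) / (1 - t ^ 2)) := by
          rw [← mul_div_assoc, le_div_iff₀ ht]
          linear_combination h3
      _ = _ := by simp
  · rw [e _ _ hs1'.ne]
    have h := mul_le_mul_of_nonneg_left (ratio_scale hs1' hs0 hc h0 h1)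
      (show (0 : ℝ) ≤ 2 * g by linarith)
    calc t ^ 3 * (2 * g * ((c - s ^ 2) / (1 - s)))
        = 2 * g * (t ^ 3 * ((c - s ^ 2) / (1 - s))) := by ring
      _ ≤ _ := h
      _ = _ := by ring

end Vale.Agent.P154.Ferro4
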