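import Vale.Agent.P154.Ferro4.Channel
import Vale.Agent.P154.Api

/-!
P154, four states: pointwise inequalities for the class function give the ferromagnetic
certificate. Laws of deviations `u` are read as normalised posteriors `r = 1 + u`; an average
over the relative permutation turns the weighted combination into `avg24`.
-/

namespace Vale.Agent.P154.Ferro4

open Channel

noncomputable section

/-- A normalised posterior on four states. -/
structure IsPost4 (r : Fin 4 → ℝ) : Prop where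
  nonneg : ∀ i, 0 ≤ r i
  sum_eq : ∑ i, r i = 4

/-- The class function. -/
def classFn (g : ℝ) (r : Fin 4 → ℝ) : ℝ :=
  sq4 r - (1 - g) + g * (esym3 r / 4) / (1 - sq4 r) + (1 - 2 * g) * pairMean r

/-- The weight of an unnormalised posterior. -/
def mass4 (a : Fin 4 → ℝ) : ℝ := (∑ i, a i) / 4

/-- Degree one homogeneous extension of a function of normalised posteriors. -/
def homExt (F : (Fin 4 → ℝ) → ℝ) (a : Fin 4 → ℝ) : ℝ :=
  if mass4 a = 0 then 0 else mass4 a * F fun i => a i / mass4 a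

/-- Weighted average of `F` over the combinations of `r` with the permuted `r'`. -/
def avg24 (F : (Fin 4 → ℝ) → ℝ) (r r' : Fin 4 → ℝ) : ℝ :=
  (∑ σ : Equiv.Perm (Fin 4), homExt F fun i => r i * r' (σ i)) / 24

/-- Normalised likelihood ratios of a deviation. -/
def rat4 (u : Fin 4 → ℝ) : Fin 4 → ℝ := fun i => 1 + u i

theorem isPost4_rat {u : Fin 4 → ℝ} (h : Dev u) : IsPost4 (rat4 u) :=
  ⟨fun i => by simp only [rat4]; linarith [h.2 i], by
    simp [rat4, Finset.sum_add_distrib, h.1]⟩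

theorem ss_eq4 (u : Fin 4 → ℝ) : ss u = sq4 (rat4 u) := by
  simp only [ss, sq4, rat4, add_sub_cancel_left]
  norm_num

theorem mass4_mul (u v : Fin 4 → ℝ) :
    mass4 (fun i => rat4 u i * rat4 v i) = mz u v := by
  simp [mass4, mz, rat4]

theorem mz_mul_merged4 (F : (Fin 4 → ℝ) → ℝ) (u v : Fin 4 → ℝ) :
    mz u v * F (rat4 (merged u v)) = homExt F fun i => rat4 u i * rat4 v i := by
  rw [homExt, mass4_mul]
  split_ifs with h
  · rw [h, zero_mul]
  · congr 2
    funext i
    simp [rat4, merged]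

/-- Averages at a vertex are averages of permuted combinations. -/
theorem merge_eq4 (F : (Fin 4 → ℝ) → ℝ) (A B : Law 4) :
    (A.merge (by norm_num) B).E (fun u => F (rat4 u)) =
      A.E (fun u => B.E (fun v => avg24 F (rat4 u) (rat4 v))) := by
  rw [Law.merge_E]
  refine A.congr fun u _ => ?_
  rw [B.congr (h := fun v => homExt F fun i => rat4 u i * rat4 v i)
    fun v _ => mz_mul_merged4 F u v, ← B.avg]
  refine B.congr fun v _ => ?_
  rw [avg24, Fintype.card_perm, Fintype.card_fin]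
  rfl

theorem mono₂_four (A B : Law 4) {p p' : (Fin 4 → ℝ) → (Fin 4 → ℝ) → ℝ}
    (h : ∀ r r', IsPost4 r → IsPost4 r' → p r r' ≤ p' r r') :
    A.E (fun u => B.E (fun v => p (rat4 u) (rat4 v))) ≤
      A.E (fun u => B.E (fun v => p' (rat4 u) (rat4 v))) :=
  A.mono _ _ fun _ hu => B.mono _ _ fun _ hv => h _ _ (isPost4_rat hu) (isPost4_rat hv)

theorem prod_E (A B : Law 4) (a b : (Fin 4 → ℝ) → ℝ) :
    A.E (fun u => B.E (fun v => a u * b v)) = A.E a * B.E b := by
  simp only [B.smul_fun]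
  rw [mul_comm (A.E a), ← A.smul_fun]
  simp only [mul_comm]

/-- The expectation of a function of the posterior. -/
def EP (A : Law 4) (F : (Fin 4 → ℝ) → ℝ) : ℝ := A.E fun u => F (rat4 u)

theorem S_eq4 (A : Law 4) : A.S = EP A sq4 := A.congr fun u _ => ss_eq4 u

theorem EP_nonneg_of_ge {A : Law 4} {φ F : (Fin 4 → ℝ) → ℝ} {μ : ℝ} (hμ : 0 ≤ μ)
    (hA : 0 ≤ EP A F) (h : ∀ r, IsPost4 r → μ * F r ≤ φ r) : 0 ≤ EP A φ := by
  refine (mul_nonneg hμ hA).trans ?_
  rw [EP, ← A.smul_fun]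
  exact A.mono _ _ fun u hu => h _ (isPost4_rat hu)

/-- A tangent of a power. -/
theorem pow_tangent {x b : ℝ} (hx : 0 ≤ x) (hb : 0 ≤ b) :
    ∀ m : ℕ, b ^ (m + 1) + (m + 1 : ℕ) * b ^ m * (x - b) ≤ x ^ (m + 1) := by
  intro m
  induction m with
  | zero => simp
  | succ m ih =>
    have h1 := mul_le_mul_of_nonneg_left ih hx
    have h2 : 0 ≤ ((m + 1 : ℕ) : ℝ) * b ^ m * (x - b) ^ 2 := by positivity
    push_cast at h1 h2 ⊢
    rw [pow_succ x (m + 1), pow_succ b (m + 1), pow_succ b m] at *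
    nlinarith

theorem sq4_moment (A : Law 4) {m : ℕ} (hm : 1 ≤ m) :
    A.S ^ m ≤ EP A fun r => sq4 r ^ m := by
  obtain ⟨k, rfl⟩ := Nat.exists_eq_add_of_le' hm
  have hS : 0 ≤ A.S :=
    (A.const 0).symm.trans_le (A.mono _ _ fun u _ => by rw [ss_eq4]; exact sq4_nonneg _)
  have h : A.E (fun u => A.S ^ (k + 1) + (k + 1 : ℕ) * A.S ^ k * (sq4 (rat4 u) - A.S)) ≤
      EP A fun r => sq4 r ^ (k + 1) :=
    A.mono _ _ fun u _ => pow_tangent (sq4_nonneg _) hS k
  rw [A.add_fun, A.const, A.smul_fun, A.sub_fun, A.const] at h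
  have e : A.E (fun u => sq4 (rat4 u)) = A.S := (S_eq4 A).symm
  rwa [e, sub_self, mul_zero, add_zero] at h

variable {g ε μ ν ν' : ℝ} {m : ℕ} {φ ψ : (Fin 4 → ℝ) → ℝ}

/-- Closure of the class under combination. -/
theorem closure_four (hμ : 0 ≤ μ) (hν : 0 ≤ ν)
    (hφ : ∀ r, IsPost4 r → μ * classFn g r ≤ φ r)
    (hK : ∀ r r', IsPost4 r → IsPost4 r' →
      φ r' * classFn g r + φ r * classFn g r' + ν * (classFn g r * classFn g r') ≤
        avg24 (classFn g) r r')
    (A B : Law 4) (hA : 0 ≤ EP A (classFn g)) (hB : 0 ≤ EP B (classFn g)) :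
    0 ≤ EP (A.merge (by norm_num) B) (classFn g) := by
  rw [EP, merge_eq4]
  refine le_trans ?_ (mono₂_four A B hK)
  simp only [B.add_fun, A.add_fun, B.smul_fun, A.smul_fun, mul_assoc]
  rw [show (fun u => B.E (fun v => φ (rat4 v) * classFn g (rat4 u))) =
      fun u => classFn g (rat4 u) * EP B φ from funext fun u => by
        rw [EP, ← B.smul_fun]; simp only [mul_comm]]
  have h1 := EP_nonneg_of_ge hμ hA hφ
  have h2 := EP_nonneg_of_ge hμ hB hφ
  unfold EP at hA hB h1 h2 ⊢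
  have e : ∀ (f : (Fin 4 → ℝ) → ℝ) (c : ℝ),
      A.E (fun u => f u * c) = A.E f * c := fun f c => by
    rw [mul_comm (A.E f), ← A.smul_fun]; simp only [mul_comm]
  rw [e, e, e]
  positivity

/-- Strict subadditivity of the second moment on the class. -/
theorem subadd_four (hμ : 0 ≤ μ) (hν' : 0 ≤ ν') (hε : 0 ≤ ε) (hm : 1 ≤ m)
    (hψ : ∀ r, IsPost4 r → μ * classFn g r ≤ ψ r)
    (hX : ∀ r r', IsPost4 r → IsPost4 r' →
      avg24 sq4 r r' ≤ sq4 r + sq4 r' - ψ r' * classFn g r - ψ r * classFn g r' -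
        ν' * (classFn g r * classFn g r') - ε * sq4 r ^ m * sq4 r')
    (A B : Law 4) (hA : 0 ≤ EP A (classFn g)) (hB : 0 ≤ EP B (classFn g)) :
    (A.merge (by norm_num) B).S ≤ A.S + B.S - ε * A.S ^ m * B.S := by
  rw [S_eq4, EP, merge_eq4]
  refine (mono₂_four A B hX).trans ?_
  have p1 := prod_E A B (fun u => classFn g (rat4 u)) (fun v => ψ (rat4 v))
  have p2 := prod_E A B (fun u => ψ (rat4 u)) (fun v => classFn g (rat4 v))
  have p3 := prod_E A B (fun u => classFn g (rat4 u)) (fun v => classFn g (rat4 v))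
  have p4 := prod_E A B (fun u => sq4 (rat4 u) ^ m) (fun v => sq4 (rat4 v))
  have e1 : A.E (fun u => B.E (fun v => ψ (rat4 v) * classFn g (rat4 u))) =
      A.E (fun u => B.E (fun v => classFn g (rat4 u) * ψ (rat4 v))) := by simp only [mul_comm]
  simp only [B.add_fun, B.sub_fun, A.add_fun, A.sub_fun, B.const, A.const]
  rw [e1, p1, p2]
  simp only [B.smul_fun, A.smul_fun, mul_assoc] at p3 p4 ⊢
  rw [p3, p4]
  have eS : A.E (fun u => sq4 (rat4 u)) = A.S := (S_eq4 A).symm
  have eT : B.E (fun v => sq4 (rat4 v)) = B.S := (S_eq4 B).symm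
  rw [eS, eT]
  have hT : 0 ≤ B.S :=
    (B.const 0).symm.trans_le (B.mono _ _ fun u _ => by rw [ss_eq4]; exact sq4_nonneg _)
  have h4 := mul_le_mul_of_nonneg_left
    (mul_le_mul_of_nonneg_right (sq4_moment A hm) hT) hε
  have h1 := EP_nonneg_of_ge hμ hA hψ
  have h2 := EP_nonneg_of_ge hμ hB hψ
  unfold EP at hA hB h1 h2 h4
  linarith [mul_nonneg hA h2, mul_nonneg h1 hB, mul_nonneg hν' (mul_nonneg hA hB)]

theorem classFn_one (g : ℝ) : classFn g (rat4 0) = 0 := by
  have hp : pairMean (rat4 0) = 1 := by simp [pairMean, rat4]; norm_num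
  have hs : sq4 (rat4 0) = 0 := by simp [sq4, rat4]
  have he : esym3 (rat4 0) = 4 := by simp [esym3, rat4]; norm_num
  rw [classFn, hp, hs, he]
  ring

theorem classFn_vertex (g : ℝ) (k : Fin 4) : classFn g (rat4 (vertex k)) = g := by
  fin_cases k <;>
    simp [classFn, rat4, vertex, sq4, esym3, pairMean, Fin.sum_univ_four] <;> norm_num

/-- Pointwise inequalities give the certificate for four states. -/
theorem ferroCert_four_of_point (hg : 0 ≤ g) (hg1 : 2 * g ≤ 1) (hε : 0 < ε) (hε1 : ε ≤ 1)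
    (hm : 1 ≤ m) (hμ : 0 ≤ μ) (hν : 0 ≤ ν) (hν' : 0 ≤ ν')
    (hφ : ∀ r, IsPost4 r → μ * classFn g r ≤ φ r)
    (hψ : ∀ r, IsPost4 r → μ * classFn g r ≤ ψ r)
    (hK : ∀ r r', IsPost4 r → IsPost4 r' →
      φ r' * classFn g r + φ r * classFn g r' + ν * (classFn g r * classFn g r') ≤
        avg24 (classFn g) r r')
    (hX : ∀ r r', IsPost4 r → IsPost4 r' →
      avg24 sq4 r r' ≤ sq4 r + sq4 r' - ψ r' * classFn g r - ψ r * classFn g r' -
        ν' * (classFn g r * classFn g r') - ε * sq4 r ^ m * sq4 r') :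
    FerroCert 4 (by norm_num) := by
  refine ⟨fun A => 0 ≤ EP A (classFn g), ε, m, hε, hε1, hm, ?_, ?_, fun A lam h0 h1 hA => ?_,
    fun A B hA hB => ⟨closure_four hμ hν hφ hK A B hA hB,
      subadd_four hμ hν' hε.le hm hψ hX A B hA hB⟩⟩
  · simp only [EP, Law.leaf_E, classFn_vertex]
    simp only [Finset.sum_const, Finset.card_univ, Fintype.card_fin, nsmul_eq_mul]
    positivity
  · show 0 ≤ classFn g (rat4 0)
    rw [classFn_one]
  · show 0 ≤ A.E fun u => classFn g (rat4 fun i => lam * u i)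
    refine le_trans (mul_nonneg (pow_nonneg h0 3) hA) ?_
    rw [EP, ← A.smul_fun]
    refine A.mono _ _ fun u hu => ?_
    have hr := isPost4_rat hu
    have h := classFn_scale hg hg1 h0 h1 (rat4 u) hr.nonneg hr.sum_eq
    simp only [rat4, add_sub_cancel_left] at h
    exact h

end

end Vale.Agent.P154.Ferro4
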