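import Vale.Agent.P154.Ferro4.XCheck

/-!
P154, four states: constants of the closure certificate. The range of `s` is cut into 14 intervals.
Per interval: affine bounds `C ≥ c`, `E ≥ e₄`, a penalty weight `K`; per interval and family branch
a box and a quadratic minorant of the square root in `pairMean`. Per cell `I ≤ J`: eight parameters.
-/

namespace Vale.Agent.P154.Ferro4

open PolyCheck

/-- The multiplier `φ`, by coefficients. -/
def kPhiQ : Fin 5 → ℚ := ![1, (-2039 / 1000), (123 / 500), (3001 / 1000), (-23347 / 10000)]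

/-- The cross multiplier. -/
def kNuQ : ℚ := (353 / 500)

/-- The slope in `L (1 - g - t) ≤ φ t`. -/
def kSlopeQ : ℚ := (793 / 1000)

/-- The ends of the intervals. -/
def kEdge : Fin 15 → ℚ := ![0, (1 / 100), (1 / 20), (1 / 10), (1 / 9), (7 / 50), (19 / 100), (1 / 4), (1 / 3), (2 / 5), (1 / 2), (7 / 10), (22 / 25), (19 / 20), 1]

/-- Lower end. -/
def kLo (I : Fin 14) : ℚ := kEdge I.castSucc

/-- Upper end. -/
def kHi (I : Fin 14) : ℚ := kEdge I.succ

/-- The six monotone branches of the four families: family and range. -/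
def kBranch : Fin 6 → Fin 4 × Iv :=
  ![(0, ⟨-1, 0, 1⟩), (0, ⟨0, 1, 3⟩), (1, ⟨0, 1, 1⟩), (2, ⟨-3, 1, 3⟩), (2, ⟨1, 3, 3⟩), (3, ⟨0, 2, 1⟩)]

/-- The bound of `c`. -/
def kC : Fin 14 → Fin 2 → ℚ :=
  ![
    ![0, (1051 / 10000)],
    ![(-3 / 2500), (2549 / 10000)],
    ![(-11 / 1250), (4079 / 10000)],
    ![(-79 / 5000), (957 / 2000)],
    ![(-41 / 2000), (327 / 625)],
    ![(-79 / 2500), (6043 / 10000)],
    ![(-49 / 1000), (6973 / 10000)],
    ![(-749 / 10000), (8031 / 10000)],
    ![(-127 / 1250), (8873 / 10000)],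
    ![(-1411 / 10000), (9901 / 10000)],
    ![(-1073 / 5000), (5719 / 5000)],
    ![(-821 / 2500), (13117 / 10000)],
    ![(-4131 / 10000), (14099 / 10000)],
    ![(-1109 / 2500), (14439 / 10000)]]

/-- The bound of `e₄`. -/
def kE : Fin 14 → Fin 2 → ℚ :=
  ![
    ![1, (-52247 / 10000)],
    ![(4947 / 5000), (-8273 / 2000)],
    ![(4707 / 5000), (-31809 / 10000)],
    ![(556 / 625), (-213 / 80)],
    ![(8697 / 10000), (-1557 / 625)],
    ![(4081 / 5000), (-2639 / 1250)],
    ![(1839 / 2500), (-3379 / 2000)],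
    ![(6309 / 10000), (-159 / 125)],
    ![(259 / 500), (-9341 / 10000)],
    ![(4059 / 10000), (-6543 / 10000)],
    ![(148 / 625), (-79 / 250)],
    ![(359 / 5000), (-401 / 5000)],
    ![(117 / 10000), (-119 / 10000)],
    ![(1 / 625), (-13 / 10000)]]

/-- The penalty weight. -/
def kK : Fin 14 → Fin 2 → ℚ :=
  ![
    ![0, (597 / 100)],
    ![(113 / 10000), (16591 / 2500)],
    ![(193 / 1000), (33671 / 10000)],
    ![(367 / 1000), (3617 / 2500)],
    ![(4809 / 10000), (4629 / 10000)],
    ![(843 / 1250), (-4467 / 5000)],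
    ![(8637 / 10000), (-9617 / 5000)],
    ![(-42351 / 10000), (184507 / 10000)],
    ![(3131 / 500), (-129981 / 10000)],
    ![(1517 / 400), (-4249 / 625)],
    ![(13533 / 10000), (-9471 / 5000)],
    ![(291 / 2000), (-329 / 2000)],
    ![(61 / 10000), (-3 / 500)],
    ![(7 / 5000), (-1 / 1000)]]

/-- The boxes; `none` where a branch does not meet the interval. -/
def kBox : Fin 14 → Fin 6 → Option Iv :=
  ![
    ![some ⟨-1639, 0, 16384⟩, some ⟨0, 1639, 16384⟩, some ⟨0, 1419, 8192⟩, none, none, none],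
    ![some ⟨-1832, -819, 8192⟩, some ⟨819, 1832, 8192⟩, some ⟨2837, 6346, 16384⟩, none, none, none],
    ![some ⟨-5182, -3663, 16384⟩, some ⟨3663, 5182, 16384⟩, some ⟨6345, 8974, 16384⟩, none, none, none],
    ![some ⟨-5462, -5181, 16384⟩, some ⟨15543, 16384, 49152⟩, some ⟨8973, 9460, 16384⟩, none, none, none],
    ![some ⟨-6131, -5461, 16384⟩, none, some ⟨9459, 10619, 16384⟩, some ⟨4569, 16384, 49152⟩, some ⟨2048, 3525, 6144⟩, none],
    ![some ⟨-3571, -3065, 8192⟩, none, some ⟨5309, 6185, 8192⟩, some ⟨-1047, 1524, 16384⟩, some ⟨9399, 11970, 16384⟩, none],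
    ![some ⟨-8192, -7141, 16384⟩, none, some ⟨12369, 14189, 16384⟩, some ⟨-1587, -523, 8192⟩, some ⟨11969, 14097, 16384⟩, none],
    ![some ⟨-9460, -8191, 16384⟩, none, some ⟨3547, 4096, 4096⟩, some ⟨-5462, -3173, 16384⟩, some ⟨881, 1024, 1024⟩, none],
    ![some ⟨-10363, -9459, 16384⟩, none, none, some ⟨-6993, -5461, 16384⟩, none, some ⟨0, 10363, 16384⟩],
    ![some ⟨-5793, -5181, 8192⟩, none, none, some ⟨-2247, -1748, 4096⟩, none, some ⟨5181, 8192, 8192⟩],
    ![some ⟨-13708, -11585, 16384⟩, none, none, some ⟨-12320, -8987, 16384⟩, none, some ⟨16383, 24302, 16384⟩],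
    ![some ⟨-15370, -13707, 16384⟩, none, none, some ⟨-14857, -12319, 16384⟩, none, some ⟨24301, 29673, 16384⟩],
    ![some ⟨-15970, -15369, 16384⟩, none, none, some ⟨-15761, -14856, 16384⟩, none, some ⟨7418, 7879, 4096⟩],
    ![some ⟨-16384, -15969, 16384⟩, none, none, some ⟨-1024, -985, 1024⟩, none, some ⟨31515, 32768, 16384⟩]]

/-- The minorant of the square root, by coefficients. -/
def kSig : Fin 14 → Fin 6 → Fin 3 → ℚ :=
  ![
    ![![1, -1, (-65537 / 32768)],
      ![1, -1, (-147487 / 65536)],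
      ![1, 0, (-16509 / 32768)],
      ![0, 0, 0],
      ![0, 0, 0],
      ![0, 0, 0]],
    ![![(16429 / 16384), (-61299 / 65536), (-95817 / 65536)],
      ![(4003 / 4096), (-37697 / 65536), (-35067 / 8192)],
      ![(32703 / 32768), (1391 / 65536), (-9207 / 16384)],
      ![0, 0, 0],
      ![0, 0, 0],
      ![0, 0, 0]],
    ![![(66093 / 65536), (-57585 / 65536), (-86547 / 65536)],
      ![(327 / 4096), (7171 / 1024), (-333343 / 16384)],
      ![(63853 / 65536), (1183 / 8192), (-23677 / 32768)],
      ![0, 0, 0],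
      ![0, 0, 0],
      ![0, 0, 0]],
    ![![(16553 / 16384), (-56773 / 65536), (-85159 / 65536)],
      ![(-4723825 / 294912), (11277425 / 98304), -200],
      ![(60923 / 65536), (20635 / 65536), (-28991 / 32768)],
      ![0, 0, 0],
      ![0, 0, 0],
      ![0, 0, 0]],
    ![![(33099 / 32768), (-14213 / 16384), (-42637 / 32768)],
      ![0, 0, 0],
      ![(29013 / 32768), (7631 / 16384), (-66423 / 65536)],
      ![(92607 / 65536), (1015 / 65536), (-50081 / 65536)],
      ![(45283 / 32768), (12395 / 65536), (-66131 / 65536)],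
      ![0, 0, 0]],
    ![![(16499 / 16384), (-7239 / 8192), (-43331 / 32768)],
      ![0, 0, 0],
      ![(11845 / 16384), (31427 / 32768), (-45491 / 32768)],
      ![(92681 / 65536), 0, (-46447 / 65536)],
      ![(76961 / 65536), (29865 / 32768), (-107381 / 65536)],
      ![0, 0, 0]],
    ![![(65229 / 65536), (-30701 / 32768), (-45319 / 32768)],
      ![0, 0, 0],
      ![(3197 / 65536), (178441 / 65536), (-166619 / 65536)],
      ![(92673 / 65536), (-193 / 65536), (-47561 / 65536)],
      ![(18857 / 65536), (216937 / 65536), (-213805 / 65536)],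
      ![0, 0, 0]],
    ![![(63125 / 65536), (-17435 / 16384), (-24725 / 16384)],
      ![0, 0, 0],
      ![(-358811 / 16384), (3343781 / 65536), (-1908537 / 65536)],
      ![(92503 / 65536), (-1857 / 65536), (-51669 / 65536)],
      ![(-471315 / 16384), (4426121 / 65536), (-2540861 / 65536)],
      ![0, 0, 0]],
    ![![(29427 / 32768), (-84589 / 65536), (-55905 / 32768)],
      ![0, 0, 0],
      ![0, 0, 0],
      ![(91753 / 65536), (-3205 / 32768), (-58591 / 65536)],
      ![0, 0, 0],
      ![2, 0, (-1051 / 4096)]],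
    ![![(50423 / 65536), (-27753 / 16384), (-132517 / 65536)],
      ![0, 0, 0],
      ![0, 0, 0],
      ![(89629 / 65536), (-8073 / 32768), (-69767 / 65536)],
      ![0, 0, 0],
      ![(258549 / 131072), (183 / 2048), (-21619 / 65536)]],
    ![![(6867 / 32768), (-106181 / 32768), (-202553 / 65536)],
      ![0, 0, 0],
      ![0, 0, 0],
      ![(38575 / 32768), (-59513 / 65536), (-107535 / 65536)],
      ![0, 0, 0],
      ![(114573 / 65536), (8397 / 16384), (-17379 / 32768)]],
    ![![(-219497 / 65536), (-763399 / 65536), (-528167 / 65536)],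
      ![0, 0, 0],
      ![0, 0, 0],
      ![(-13257 / 32768), (-329797 / 65536), (-283935 / 65536)],
      ![0, 0, 0],
      ![(-25993 / 65536), (109739 / 32768), (-24077 / 16384)]],
    ![![(-6130377 / 262144), (-1782577 / 32768), (-1011385 / 32768)],
      ![0, 0, 0],
      ![0, 0, 0],
      ![(-692009 / 65536), (-449895 / 16384), (-1095561 / 65536)],
      ![0, 0, 0],
      ![(-479687 / 32768), (1251963 / 65536), (-381873 / 65536)]],
    ![![(-2989875 / 16384), (-6266675 / 16384), -200],
      ![0, 0, 0],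
      ![0, 0, 0],
      ![(-3136044686675 / 17179869184), (-6572018523475 / 17179869184), -200],
      ![0, 0, 0],
      ![(-1524041 / 4096), (12646773 / 32768), (-6550609 / 65536)]]]

/-- Thousandths of the parameters of the cells; row `I` starts at `J = I`. -/
def kThNum : List (List (List ℤ)) :=
  [
    [[-51, -974, -51, -974, 995, -613, 811, -371],
     [-98, -926, -137, -943, 982, -403, 530, -346],
     [-129, -874, -202, -917, 967, -286, 404, -339],
     [-135, -867, -216, -914, 964, -257, 386, -339],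
     [-148, -842, -245, -904, 956, -205, 347, -340],
     [-167, -804, -284, -889, 943, -133, 300, -347],
     [-196, -830, -386, -890, 936, 71, 261, -360],
     [87, -440, 326, -978, 997, -907, 526, -520],
     [85, -315, 373, -974, 992, -877, 831, -700],
     [84, -129, 350, -970, 982, -838, 1083, -898],
     [52, -128, 291, -974, 982, -665, 2249, -1337],
     [26, -26, 210, -973, 978, -399, 1788, -2334],
     [23, -53, 551, -960, 987, -370, 889, -18],
     [-13, 66, 97, -966, 967, -126, 360, -3964]],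
    [[-262, -879, -262, -879, 950, -104, 341, -322],
     [-327, -824, -375, -836, 918, 26, 261, -316],
     [-93, -820, -28, -831, 954, -497, 251, -316],
     [-138, -774, -119, -835, 939, -357, 228, -318],
     [-146, -593, -363, -883, 911, -190, 200, -324],
     [206, -372, 106, -947, 971, -818, 288, -399],
     [199, 43, -148, -948, 898, -835, 793, -645],
     [181, 28, 52, -945, 926, -777, 1189, -875],
     [132, 0, 108, -947, 939, -672, 1586, -1087],
     [142, -124, 319, -947, 979, -633, 2242, -1512],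
     [45, -30, 159, -938, 953, -334, 1702, -2587],
     [28, -86, 414, -922, 977, -267, -35, -19],
     [-24, -41, 197, -928, 954, -119, -205, -1813]],
    [[256, -855, 256, -855, 1025, -854, 228, -344],
     [231, -875, 308, -826, 1028, -850, 342, -489],
     [167, -913, 404, -770, 1030, -811, 401, -487],
     [144, -885, 432, -778, 1032, -735, 230, -382],
     [317, -162, -132, -934, 898, -830, 424, -482],
     [254, -42, -47, -928, 900, -771, 790, -699],
     [216, -35, 74, -929, 924, -684, 1072, -908],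
     [194, -74, 154, -924, 941, -639, 1683, -1187],
     [163, -82, 208, -937, 962, -559, 2222, -1637],
     [52, -183, 447, -876, 975, -380, 1638, -2318],
     [34, -94, 364, -897, 972, -233, -633, -2],
     [-30, -58, 202, -902, 945, -111, -1485, -3582]],
    [[281, -845, 281, -845, 1031, -846, -835, -612],
     [244, -870, 340, -799, 1034, -813, -127, -622],
     [190, -886, 428, -778, 1041, -766, 298, -484],
     [331, -762, 469, -931, 1092, -824, 445, -497],
     [284, -749, 590, -918, 1124, -762, 989, -741],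
     [254, -694, 493, -897, 1143, -696, 2102, -1054],
     [216, -655, 533, -880, 1131, -627, 2414, -1305],
     [258, -592, 739, -916, 1145, -639, 2453, -1726],
     [83, -271, 575, -871, 1014, -411, 1401, -2429],
     [38, -130, 398, -893, 984, -232, -760, -15],
     [-40, -55, 167, -897, 937, -96, -4238, -1252]],
    [[298, -826, 298, -826, 1037, -791, 100, -625],
     [173, -870, 344, -756, 1028, -692, 319, -486],
     [332, -729, 425, -920, 1089, -784, 472, -524],
     [294, -714, 521, -905, 1125, -726, 993, -756],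
     [265, -662, 428, -882, 1150, -664, 2072, -1060],
     [211, -630, 474, -861, 1125, -586, 2149, -1258],
     [178, -571, 593, -869, 1102, -526, 2140, -1652],
     [89, -250, 527, -858, 1010, -391, 1641, -2634],
     [42, -121, 371, -883, 980, -222, -752, -42],
     [-34, -6, 122, -891, 920, -101, -3766, -1406]],
    [[346, -852, 346, -852, 1092, -715, 296, -442],
     [368, -792, 441, -891, 1122, -734, 533, -567],
     [355, -714, 517, -889, 1143, -703, 920, -782],
     [273, -641, 364, -864, 1142, -593, 2023, -1142],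
     [204, -593, 387, -839, 1108, -508, 1969, -1329],
     [104, -515, 412, -817, 1048, -401, 1904, -1708],
     [101, -248, 491, -839, 1015, -370, 1778, -2923],
     [52, -118, 349, -868, 980, -213, -874, -137],
     [-33, -67, 196, -873, 936, -104, -2221, -2054]],
    [[431, -837, 431, -837, 1151, -698, 800, -697],
     [432, -744, 514, -863, 1177, -691, 1071, -886],
     [333, -639, 428, -844, 1154, -588, 1906, -1271],
     [218, -543, 342, -823, 1092, -454, 1952, -1555],
     [105, -460, 352, -788, 1027, -353, 1595, -1842],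
     [124, -287, 480, -818, 1040, -356, 863, -2692],
     [68, -124, 340, -853, 985, -208, -1409, -467],
     [-31, -73, 196, -859, 934, -103, -1419, -2574]],
    [[403, -765, 403, -765, 1156, -577, 1369, -1083],
     [364, -645, 398, -794, 1147, -538, 1657, -1354],
     [251, -515, 296, -789, 1087, -421, 1594, -1635],
     [92, -460, 306, -724, 1010, -308, 1167, -1862],
     [142, -235, 298, -802, 998, -287, 1492, -4528],
     [87, -158, 344, -832, 1005, -201, -1740, -13],
     [-30, -77, 186, -841, 929, -99, -1052, -923]],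
    [[435, -708, 435, -708, 1177, -531, 1306, -1479],
     [348, -546, 326, -746, 1123, -434, 1385, -1842],
     [131, -475, 312, -672, 1021, -306, 798, -1930],
     [194, -270, 310, -768, 1020, -286, 1825, -6229],
     [105, -149, 321, -818, 1003, -198, 43, -86],
     [-2, -92, 221, -833, 949, -113, -676, -3162]],
    [[359, -634, 359, -634, 1121, -400, 1048, -1824],
     [114, -502, 267, -590, 1004, -269, 309, -1844],
     [230, -211, 255, -696, 955, -289, 1715, -7084],
     [204, -179, 394, -810, 1067, -234, -152, -1547],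
     [73, -130, 308, -830, 1011, -146, -492, -6357]],
    [[-5, -459, -5, -459, 856, -152, -262, -1717],
     [-70, -255, -153, -521, 735, -81, 479, -4910],
     [391, -126, 280, -793, 1061, -249, 1504, -37943],
     [256, -139, 384, -829, 1100, -203, -412, -8675]],
    [[-139, -345, -139, -345, 674, -71, -24, -5276],
     [108, -153, -40, -613, 821, -113, 35, -13154],
     [132, -178, 156, -693, 960, -125, -471, -2266]],
    [[539, -515, 539, -515, 1244, -301, -105, -5985],
     [747, -381, 713, -834, 1492, -338, -344, -576]],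
    [[962, -637, 962, -637, 1664, -433, -382, -44]]]

/-- Parameters of the cell `(I, J)`, `I ≤ J`. -/
def kThQ (I J : Fin 14) (n : Fin 8) : ℚ :=
  ((((kThNum.getD I.val []).getD (J.val - I.val) []).getD n.val 0 : ℤ) : ℚ) / 1000

theorem exists_kInterval {x : ℝ} (h0 : 0 ≤ x) (h1 : x ≤ 1) :
    ∃ I : Fin 14, (kLo I : ℝ) ≤ x ∧ x ≤ (kHi I : ℝ) := by
  by_contra hcon
  push Not at hcon
  have e0 : (kLo 0 : ℝ) = 0 ∧ (kHi 0 : ℝ) = 1 / 100 := by
    constructor <;> simp [kLo, kHi, kEdge]
  have e1 : (kLo 1 : ℝ) = 1 / 100 ∧ (kHi 1 : ℝ) = 1 / 20 := by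
    constructor <;> simp [kLo, kHi, kEdge]
  have e2 : (kLo 2 : ℝ) = 1 / 20 ∧ (kHi 2 : ℝ) = 1 / 10 := by
    constructor <;> simp [kLo, kHi, kEdge]
  have e3 : (kLo 3 : ℝ) = 1 / 10 ∧ (kHi 3 : ℝ) = 1 / 9 := by
    constructor <;> simp [kLo, kHi, kEdge]
  have e4 : (kLo 4 : ℝ) = 1 / 9 ∧ (kHi 4 : ℝ) = 7 / 50 := by
    constructor <;> simp [kLo, kHi, kEdge]
  have e5 : (kLo 5 : ℝ) = 7 / 50 ∧ (kHi 5 : ℝ) = 19 / 100 := by
    constructor <;> simp [kLo, kHi, kEdge]
  have e6 : (kLo 6 : ℝ) = 19 / 100 ∧ (kHi 6 : ℝ) = 1 / 4 := by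
    constructor <;> simp [kLo, kHi, kEdge]
  have e7 : (kLo 7 : ℝ) = 1 / 4 ∧ (kHi 7 : ℝ) = 1 / 3 := by
    constructor <;> simp [kLo, kHi, kEdge]
  have e8 : (kLo 8 : ℝ) = 1 / 3 ∧ (kHi 8 : ℝ) = 2 / 5 := by
    constructor <;> simp [kLo, kHi, kEdge]
  have e9 : (kLo 9 : ℝ) = 2 / 5 ∧ (kHi 9 : ℝ) = 1 / 2 := by
    constructor <;> simp [kLo, kHi, kEdge]
  have e10 : (kLo 10 : ℝ) = 1 / 2 ∧ (kHi 10 : ℝ) = 7 / 10 := by
    constructor <;> simp [kLo, kHi, kEdge]
  have e11 : (kLo 11 : ℝ) = 7 / 10 ∧ (kHi 11 : ℝ) = 22 / 25 := by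
    constructor <;> simp [kLo, kHi, kEdge]
  have e12 : (kLo 12 : ℝ) = 22 / 25 ∧ (kHi 12 : ℝ) = 19 / 20 := by
    constructor <;> simp [kLo, kHi, kEdge]
  have e13 : (kLo 13 : ℝ) = 19 / 20 ∧ (kHi 13 : ℝ) = 1 := by
    constructor <;> simp [kLo, kHi, kEdge]
  have g0 := hcon 0 (e0.1.le.trans h0)
  rw [e0.2] at g0
  have g1 := hcon 1 (e1.1.le.trans g0.le)
  rw [e1.2] at g1
  have g2 := hcon 2 (e2.1.le.trans g1.le)
  rw [e2.2] at g2
  have g3 := hcon 3 (e3.1.le.trans g2.le)
  rw [e3.2] at g3
  have g4 := hcon 4 (e4.1.le.trans g3.le)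
  rw [e4.2] at g4
  have g5 := hcon 5 (e5.1.le.trans g4.le)
  rw [e5.2] at g5
  have g6 := hcon 6 (e6.1.le.trans g5.le)
  rw [e6.2] at g6
  have g7 := hcon 7 (e7.1.le.trans g6.le)
  rw [e7.2] at g7
  have g8 := hcon 8 (e8.1.le.trans g7.le)
  rw [e8.2] at g8
  have g9 := hcon 9 (e9.1.le.trans g8.le)
  rw [e9.2] at g9
  have g10 := hcon 10 (e10.1.le.trans g9.le)
  rw [e10.2] at g10
  have g11 := hcon 11 (e11.1.le.trans g10.le)
  rw [e11.2] at g11
  have g12 := hcon 12 (e12.1.le.trans g11.le)
  rw [e12.2] at g12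
  have g13 := hcon 13 (e13.1.le.trans g12.le)
  rw [e13.2] at g13
  linarith

end Vale.Agent.P154.Ferro4
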