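import Vale.Agent.P154.Ferro4.KCheck
import Vale.Agent.P154.Ferro4.KData
import Vale.Agent.P154.Ferro4.XData

/-!
P154, four states: the checks of the closure certificate on one interval of `s`. The boxes cover
the preimages of the interval on the six monotone branches; on each box the minorant of `T` is
checked, and with it the sign conditions needed for the reduction to two-level points.
-/

namespace Vale.Agent.P154.Ferro4

open Channel PolyCheck XReduce XCheck KFam KCheck

namespace KInterval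

/-- The family of a branch. -/
def bFam (a : Fin 6) : Fin 4 := (kBranch a).1

/-- Whether `famS` increases on a branch. -/
def bInc : Fin 6 → Bool := ![false, true, true, false, true, true]

/-- `famS` over the rationals. -/
def qS (i : Fin 4) (x : ℚ) : ℚ :=
  ![x ^ 2, x ^ 2 / 3, (3 * x ^ 2 - 2 * x + 1) / 6, (x ^ 2 + 2) / 6] i

theorem qS_cast (i : Fin 4) (x : ℚ) : ((qS i x : ℚ) : ℝ) = famS i (x : ℝ) := by
  fin_cases i <;> simp [qS, famS]

/-- Ends of the range of a branch. -/
def bLo : Fin 6 → ℚ := ![-1, 0, 0, -1, 1 / 3, 0]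

/-- Ends of the range of a branch. -/
def bHi : Fin 6 → ℚ := ![0, 1 / 3, 1, 1 / 3, 1, 2]

theorem exists_branch {i : Fin 4} {x : ℝ} (hx : (famBox i).Mem x) :
    ∃ a, bFam a = i ∧ (bLo a : ℝ) ≤ x ∧ x ≤ (bHi a : ℝ) := by
  obtain ⟨h1, h2⟩ := hx
  fin_cases i <;> simp [famBox] at h1 h2
  · rcases le_total x 0 with h | h
    · exact ⟨0, rfl, by simp [bLo]; linarith, by simp [bHi]; linarith⟩
    · exact ⟨1, rfl, by simp [bLo]; linarith, by simp [bHi]; linarith⟩
  · exact ⟨2, rfl, by simp [bLo]; linarith, by simp [bHi]; linarith⟩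
  · rcases le_total x (1 / 3) with h | h
    · exact ⟨3, rfl, by simp [bLo]; linarith, by simp [bHi] at h ⊢; linarith⟩
    · exact ⟨4, rfl, by simp [bLo] at h ⊢; linarith, by simp [bHi]; linarith⟩
  · exact ⟨5, rfl, by simp [bLo]; linarith, by simp [bHi]; linarith⟩

theorem famS_strictMono {a : Fin 6} (h : bInc a = true) {u v : ℝ} (hu : (bLo a : ℝ) ≤ u)
    (huv : u < v) : famS (bFam a) u < famS (bFam a) v := by
  fin_cases a <;> simp [bInc, bLo] at h hu <;> simp [bFam, kBranch, famS] <;>
    nlinarith [mul_pos (show 0 < v - u by linarith) (show 0 < v - u by linarith)]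

theorem famS_strictAnti {a : Fin 6} (h : bInc a = false) {u v : ℝ} (hv : v ≤ (bHi a : ℝ))
    (huv : u < v) : famS (bFam a) v < famS (bFam a) u := by
  fin_cases a <;> simp [bInc, bHi] at h hv <;> simp [bFam, kBranch, famS] <;>
    nlinarith [mul_pos (show 0 < v - u by linarith) (show 0 < v - u by linarith)]

/-- The end of a branch that is also on another branch: branch, point there. -/
def bDup : Fin 6 → Bool → Option (Fin 6 × ℚ)
  | 1, true => some (3, 1 / 3)
  | 2, true => some (5, 0)
  | 3, true => some (1, 1 / 3)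
  | 4, false => some (1, 1 / 3)
  | 4, true => some (5, 0)
  | 5, false => some (2, 1)
  | _, _ => none

/-- The invariants and `T` of a point of a family. -/
def SamePt (i : Fin 4) (x : ℝ) (j : Fin 4) (y : ℝ) : Prop :=
  famS j y = famS i x ∧ famC j y = famC i x ∧ famE j y = famE i x ∧
    famRat j y + famCoe j * √(famRad j y) = famRat i x + famCoe i * √(famRad i x)

theorem samePt_dup {a a' : Fin 6} {up : Bool} {y : ℚ} (h : bDup a up = some (a', y)) :
    SamePt (bFam a) ((if up then bHi a else bLo a : ℚ) : ℝ) (bFam a') (y : ℝ) := by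
  have e : √((1 + 1 / 3 : ℝ) * (1 - 3 * (1 / 3))) = 0 := by norm_num
  have e4 : √(4 : ℝ) = 2 := by
    rw [show (4 : ℝ) = 2 ^ 2 by norm_num, Real.sqrt_sq (by norm_num)]
  have e16 : √(2 * (1 - (1 / 3) ^ 2) : ℝ) = 4 / 3 := by
    rw [show (2 * (1 - (1 / 3) ^ 2) : ℝ) = (4 / 3) ^ 2 by norm_num, Real.sqrt_sq (by norm_num)]
  fin_cases a <;> cases up <;> simp [bDup] at h <;> obtain ⟨rfl, rfl⟩ := h <;>
    simp only [SamePt, bFam, kBranch, bHi, bLo, famS, famC, famE, famRat, famCoe, famRad] <;>
    norm_num at e4 e16 ⊢ <;> simp <;> norm_num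

/-- Membership in an interval, over the rationals. -/
def inIv (B : Iv) (x : ℚ) : Bool :=
  decide ((B.lo : ℚ) ≤ B.den * x) && decide ((B.den : ℚ) * x ≤ B.hi)

/-- The branch end `up` is covered by another branch. -/
def dupOK (I : Fin 14) (a : Fin 6) (up : Bool) : Bool :=
  match bDup a up with
  | none => false
  | some (a', y) =>
    match kBox I a' with
    | none => false
    | some B => inIv B y

/-- The boxes cover the preimage of the interval on a branch. -/
def covOK (I : Fin 14) (a : Fin 6) : Bool :=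
  let S := fun x => qS (bFam a) x
  match kBox I a with
  | some B =>
    let u : ℚ := (B.lo : ℚ) / B.den
    let v : ℚ := (B.hi : ℚ) / B.den
    decide (0 < B.den) && decide (bLo a ≤ u) && decide (u ≤ v) && decide (v ≤ bHi a) &&
      (if bInc a then
        (decide (u = bLo a) || decide (S u ≤ kLo I)) &&
          (decide (v = bHi a) || decide (kHi I ≤ S v))
      else
        (decide (u = bLo a) || decide (kHi I ≤ S u)) &&
          (decide (v = bHi a) || decide (S v ≤ kLo I)))
  | none =>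
    if bInc a then
      decide (S (bHi a) < kLo I) || (decide (S (bHi a) = kLo I) && dupOK I a true) ||
        decide (kHi I < S (bLo a)) || (decide (S (bLo a) = kHi I) && dupOK I a false)
    else
      decide (S (bLo a) < kLo I) || decide (kHi I < S (bHi a)) ||
        (decide (S (bHi a) = kHi I) && dupOK I a true)

theorem cov_ok : ∀ I a, covOK I a = true := by decide +kernel

theorem mem_of_bounds {B : Iv} (hd : (0 : ℚ) < B.den) {x : ℝ}
    (h1 : (((B.lo : ℚ) / B.den : ℚ) : ℝ) ≤ x) (h2 : x ≤ (((B.hi : ℚ) / B.den : ℚ) : ℝ)) :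
    B.Mem x := by
  have hd' : (0 : ℝ) < B.den := by exact_mod_cast hd
  push_cast at h1 h2
  rw [div_le_iff₀ hd'] at h1
  rw [le_div_iff₀ hd'] at h2
  exact ⟨by linarith, by linarith⟩

theorem dup_sound {I : Fin 14} {a : Fin 6} {up : Bool} (h : dupOK I a up = true) {x : ℝ}
    (hx : x = ((if up then bHi a else bLo a : ℚ) : ℝ)) :
    ∃ a' B y, kBox I a' = some B ∧ B.Mem y ∧ SamePt (bFam a) x (bFam a') y := by
  unfold dupOK at h
  rcases hd : bDup a up with _ | ⟨a', y⟩
  · rw [hd] at h; simp at h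
  rw [hd] at h
  simp only at h
  rcases hB : kBox I a' with _ | B
  · rw [hB] at h; simp at h
  rw [hB] at h
  simp only [inIv, Bool.and_eq_true, decide_eq_true_eq] at h
  refine ⟨a', B, y, hB, ⟨?_, ?_⟩, hx ▸ samePt_dup hd⟩
  · exact_mod_cast h.1
  · exact_mod_cast h.2

theorem cast_lt' {p q : ℚ} (h : p < q) : (p : ℝ) < (q : ℝ) := by exact_mod_cast h
theorem cast_le' {p q : ℚ} (h : p ≤ q) : (p : ℝ) ≤ (q : ℝ) := by exact_mod_cast h

theorem cover_branch {I : Fin 14} {a : Fin 6} {x : ℝ} (h1 : (bLo a : ℝ) ≤ x)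
    (h2 : x ≤ (bHi a : ℝ)) (hl : (kLo I : ℝ) ≤ famS (bFam a) x)
    (hh : famS (bFam a) x ≤ (kHi I : ℝ)) :
    ∃ a' B y, kBox I a' = some B ∧ B.Mem y ∧ SamePt (bFam a) x (bFam a') y := by
  have hc := cov_ok I a
  unfold covOK at hc
  rcases hB : kBox I a with _ | B
  · rw [hB] at hc
    simp only at hc
    by_cases hi : bInc a = true
    · simp only [hi, if_true, Bool.or_eq_true, Bool.and_eq_true, decide_eq_true_eq] at hc
      rcases hc with ((h | h) | h) | h
      · have := cast_lt' h; rw [qS_cast] at this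
        rcases h2.eq_or_lt with e | e
        · rw [e] at hl; linarith
        · linarith [famS_strictMono hi h1 e]
      · obtain ⟨h, hd⟩ := h
        refine dup_sound hd ?_
        rcases h2.eq_or_lt with e | e
        · simpa using e
        · have := famS_strictMono hi h1 e
          rw [← qS_cast, h] at this; linarith
      · have := cast_lt' h; rw [qS_cast] at this
        rcases h1.eq_or_lt with e | e
        · rw [← e] at hh; linarith
        · linarith [famS_strictMono hi le_rfl e]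
      · obtain ⟨h, hd⟩ := h
        refine dup_sound hd ?_
        rcases h1.eq_or_lt with e | e
        · simpa using e.symm
        · have := famS_strictMono hi le_rfl e
          rw [← qS_cast, h] at this; linarith
    · simp only [Bool.not_eq_true] at hi
      simp only [hi, Bool.false_eq_true, if_false, Bool.or_eq_true, Bool.and_eq_true,
        decide_eq_true_eq] at hc
      rcases hc with (h | h) | h
      · have := cast_lt' h; rw [qS_cast] at this
        rcases h1.eq_or_lt with e | e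
        · rw [← e] at hl; linarith
        · linarith [famS_strictAnti hi h2 e]
      · have := cast_lt' h; rw [qS_cast] at this
        rcases h2.eq_or_lt with e | e
        · rw [e] at hh; linarith
        · linarith [famS_strictAnti hi le_rfl e]
      · obtain ⟨h, hd⟩ := h
        refine dup_sound hd ?_
        rcases h2.eq_or_lt with e | e
        · simpa using e
        · have := famS_strictAnti hi le_rfl e
          rw [← qS_cast, h] at this; linarith
  · rw [hB] at hc
    simp only [Bool.and_eq_true, decide_eq_true_eq] at hc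
    obtain ⟨⟨⟨⟨hd, hu⟩, huv⟩, hv⟩, hc⟩ := hc
    refine ⟨a, B, x, hB, ?_, rfl, rfl, rfl, rfl⟩
    have hu' := cast_le' hu
    have hv' := cast_le' hv
    refine mem_of_bounds (by exact_mod_cast hd) (le_of_not_gt fun hx => ?_) (le_of_not_gt fun hx => ?_) <;>
      by_cases hi : bInc a = true <;>
      simp only [hi, if_true, Bool.false_eq_true, if_false, Bool.and_eq_true, Bool.or_eq_true,
        decide_eq_true_eq] at hc <;> obtain ⟨hc1, hc2⟩ := hc
    · rcases hc1 with e | e
      · rw [e] at hx; linarith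
      · have := cast_le' e; rw [qS_cast] at this
        linarith [famS_strictMono hi h1 hx]
    · rcases hc1 with e | e
      · rw [e] at hx; linarith
      · have := cast_le' e; rw [qS_cast] at this
        linarith [famS_strictAnti (Bool.not_eq_true _ ▸ hi)
          (le_trans (cast_le' huv) hv') hx]
    · rcases hc2 with e | e
      · rw [e] at hx; linarith
      · have := cast_le' e; rw [qS_cast] at this
        linarith [famS_strictMono hi (le_trans hu' (cast_le' huv)) hx]
    · rcases hc2 with e | e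
      · rw [e] at hx; linarith
      · have := cast_le' e; rw [qS_cast] at this
        linarith [famS_strictAnti (Bool.not_eq_true _ ▸ hi) h2 hx]

/-! ### The univariate checks -/

/-- The affine data of an interval, as one function. -/
def kAll (I : Fin 14) : Fin 3 → Fin 2 → ℚ := ![kK I, kC I, kE I]

/-- The five polynomials of a box. -/
def boxPolys (I : Fin 14) (a : Fin 6) : List RE :=
  let i := bFam a
  let x : RE := .v 0
  let s := rS i x; let c := rC i x; let e := rE i x
  let σ := kSig I a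
  let root : RE := cq (σ 0) + cq (σ 1) * x + cq (σ 2) * x ^ 2
  let L := rLow σ i x
  let C := rAff (kAll I) s 1; let E := rAff (kAll I) s 2; let k := rAff (kAll I) s 0
  let p := rE4 s c e
  [![(1 + x) * (1 - 3 * x), 1 - x ^ 2, 2 * (1 - x ^ 2), 4 - x ^ 2] i - root ^ 2,
   rD i x * (L - rPhi kPhiQ s) - cq kNuQ * rU xG L i x,
   C - c,
   E - p,
   24 * (1 - s) * ((1 - 3 * s + 2 * c) - p) - 72 * s * p + 48 * (C * p + E * c - C * E) + k]

/-- Leaves of the bisection of a univariate check. -/
def cutFor (e : Ex) : ℕ → List Iv → Cut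
  | 0, _ => .leaf
  | n + 1, B => if boxCheck 1 e B then .leaf
      else .cut 0 (cutFor e n (halve Iv.low 0 B)) (cutFor e n (halve Iv.high 0 B))

/-- All checks on one box. -/
def boxOK5 (I : Fin 14) (a : Fin 6) : Bool :=
  match kBox I a with
  | none => true
  | some B => (boxPolys I a).all fun e => check 1 e.ex [B] (cutFor e.ex 14 [B])

/-- The penalty weights are nonnegative. -/
def kKOK (I : Fin 14) : Bool :=
  decide (0 ≤ kK I 0 + kK I 1 * kLo I) && decide (0 ≤ kK I 0 + kK I 1 * kHi I)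

theorem kK_ok : ∀ I, kKOK I = true := by decide +kernel

theorem box_ok : ∀ I a, boxOK5 I a = true := by decide +kernel

/-- What the checks give at a point of a box. -/
theorem box_facts {I : Fin 14} {a : Fin 6} {B : Iv} (hB : kBox I a = some B) {x : ℝ}
    (hx : B.Mem x) (hf : (famBox (bFam a)).Mem x) :
    kRoot (kSig I a) x ^ 2 ≤ famRad (bFam a) x ∧
    0 ≤ kTau (xG : ℝ) (kNuQ : ℝ) (kPhi kPhiQ) (famS (bFam a) x) (famC (bFam a) x)
      (kLow (kSig I a) (bFam a) x) ∧
    famC (bFam a) x ≤ kAff (kAll I) (famS (bFam a) x) 1 ∧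
    e4Inv (famS (bFam a) x) (famC (bFam a) x) (famE (bFam a) x) ≤
      kAff (kAll I) (famS (bFam a) x) 2 ∧
    0 ≤ kMLow (kAff (kAll I) (famS (bFam a) x) 1) (kAff (kAll I) (famS (bFam a) x) 2)
      (famS (bFam a) x) (famC (bFam a) x) (famE (bFam a) x) +
      kAff (kAll I) (famS (bFam a) x) 0 := by
  have hc := box_ok I a
  simp only [boxOK5, hB, List.all_eq_true] at hc
  have hpt : pt [x] 0 = x := pt_zero _ _
  have key : ∀ e ∈ boxPolys I a, 0 ≤ e.eval (pt [x]) := fun e he =>
    ex_sound (nonneg₁ e.ex B _ (hc e he) hx)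
  obtain ⟨es, ec, ee, en, ed⟩ := eval_fam (bFam a) (.v 0) (pt [x])
  simp only [XCheck.eval_v, hpt] at es ec ee en ed
  simp only [boxPolys, List.mem_cons, List.not_mem_nil, or_false, forall_eq_or_imp, forall_eq]
    at key
  obtain ⟨k1, k2, k3, k4, k5⟩ := key
  simp only [XCheck.eval_sub, XCheck.eval_add, XCheck.eval_mul, XCheck.eval_pow, eval_cq,
    XCheck.eval_ofNat, eval_aff, eval_e4, eval_low, eval_phi, rU, XCheck.eval_v, hpt,
    es, ec, ee, en, ed] at k1 k2 k3 k4 k5
  refine ⟨?_, ?_, by linarith, by linarith, ?_⟩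
  · generalize bFam a = i at *
    fin_cases i <;> simp [famRad, kRoot] at k1 ⊢ <;> linarith
  · generalize kLow (kSig I a) (bFam a) x = L at *
    have hD := famD_pos (bFam a) x hf
    have hr := fam_ratio (bFam a) x hf
    rw [kTau, classInv, mul_div_assoc, hr]
    refine mul_nonneg (by norm_num [xG]) ?_
    refine nonneg_of_mul_nonneg_left (le_of_le_of_eq k2 ?_) hD
    push_cast
    field_simp
    ring
  · simp only [kMLow]
    push_cast at k5 ⊢
    linarith

theorem exists_box {I : Fin 14} {r : Fin 4 → ℝ} (hr : IsPost4 r) (htl : TwoLevel r)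
    (hl : (kLo I : ℝ) ≤ sq4 r) (hh : sq4 r ≤ (kHi I : ℝ)) :
    ∃ a B x, kBox I a = some B ∧ B.Mem x ∧ (famBox (bFam a)).Mem x ∧
      sq4 r = famS (bFam a) x ∧ cube4 r = famC (bFam a) x ∧ quart4 r = famE (bFam a) x ∧
      kLow (kSig I a) (bFam a) x ≤ pairMean r := by
  obtain ⟨i, x, hx, es, ec, ee, eT⟩ := exists_famT hr htl
  obtain ⟨a, rfl, h1, h2⟩ := exists_branch hx
  rw [es] at hl hh
  obtain ⟨a', B, y, hB, hy, e1, e2, e3, e4⟩ := cover_branch h1 h2 hl hh
  have hc := cov_ok I a'
  simp only [covOK, hB, Bool.and_eq_true, decide_eq_true_eq] at hc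
  obtain ⟨⟨⟨⟨hd, hu⟩, -⟩, hv⟩, -⟩ := hc
  have hf : (famBox (bFam a')).Mem y := by
    have hd' : (0 : ℝ) < B.den := by exact_mod_cast hd
    have hu' := cast_le' hu
    have hv' := cast_le' hv
    push_cast at hu' hv'
    rw [le_div_iff₀ hd'] at hu'
    rw [div_le_iff₀ hd'] at hv'
    obtain ⟨y1, y2⟩ := hy
    have g1 : (bLo a' : ℝ) ≤ y := le_of_mul_le_mul_right (by linarith) hd'
    have g2 : y ≤ (bHi a' : ℝ) := le_of_mul_le_mul_right (by linarith) hd'
    fin_cases a' <;> simp [bLo, bHi] at g1 g2 <;> simp [bFam, kBranch, famBox, Iv.Mem] <;>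
      constructor <;> linarith
  refine ⟨a', B, y, hB, hy, hf, by rw [es, e1], by rw [ec, e2], by rw [ee, e3], ?_⟩
  rw [eT, ← e4]
  exact famT_ge (box_facts hB hy hf).1

/-- The four facts on an interval, as needed by the reduction to two-level points. -/
theorem kTau_nonneg {I : Fin 14} {r : Fin 4 → ℝ} (hr : IsPost4 r)
    (hl : (kLo I : ℝ) ≤ sq4 r) (hh : sq4 r ≤ (kHi I : ℝ)) :
    0 ≤ kTau (xG : ℝ) (kNuQ : ℝ) (kPhi kPhiQ) (sq4 r) (cube4 r) (pairMean r) := by
  have hg : 2 * (xG : ℝ) ≤ 1 := by norm_num [xG]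
  have hν : (kNuQ : ℝ) * (1 - 2 * xG) ≤ 1 := by norm_num [xG, kNuQ]
  refine kTau_of_twoLevel hg hν (fun v hv htl hvs => ?_) hr rfl
  obtain ⟨a, B, x, hB, hx, hf, es, ec, -, hT⟩ :=
    exists_box hv htl (hvs ▸ hl) (hvs ▸ hh)
  rw [← hvs, es, ec]
  exact (box_facts hB hx hf).2.1.trans (kTau_mono hg hν hT)

theorem kCorner_nonneg' {I : Fin 14} {r : Fin 4 → ℝ} (hr : IsPost4 r)
    (hl : (kLo I : ℝ) ≤ sq4 r) (hh : sq4 r ≤ (kHi I : ℝ)) :
    0 ≤ kCorner (kAff (kAll I) (sq4 r) 1) (kAff (kAll I) (sq4 r) 2) (sq4 r) (cube4 r)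
      (quart4 r) := by
  refine kCorner_nonneg (fun v hv htl hvs => ?_) hr rfl
  obtain ⟨a, B, x, hB, hx, hf, es, ec, ee, -⟩ := exists_box hv htl (hvs ▸ hl) (hvs ▸ hh)
  rw [← hvs, es, ec, ee]
  exact ⟨(box_facts hB hx hf).2.2.1, (box_facts hB hx hf).2.2.2.1⟩

theorem kM_add_nonneg {I : Fin 14} {r : Fin 4 → ℝ} (hr : IsPost4 r)
    (hl : (kLo I : ℝ) ≤ sq4 r) (hh : sq4 r ≤ (kHi I : ℝ)) :
    0 ≤ kM (sq4 r) (cube4 r) (quart4 r) + kAff (kAll I) (sq4 r) 0 := by
  refine kM_nonneg_of_twoLevel (C := kAff (kAll I) (sq4 r) 1) (E := kAff (kAll I) (sq4 r) 2)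
    (fun v hv hvs => ?_) (fun v hv htl hvs => ?_) hr rfl
  · rw [← hvs]
    exact kCorner_nonneg' hv (hvs ▸ hl) (hvs ▸ hh)
  · obtain ⟨a, B, x, hB, hx, hf, es, ec, ee, -⟩ := exists_box hv htl (hvs ▸ hl) (hvs ▸ hh)
    rw [← hvs, es, ec, ee]
    exact (box_facts hB hx hf).2.2.2.2

theorem kK_nonneg {I : Fin 14} {s : ℝ} (hl : (kLo I : ℝ) ≤ s) (hh : s ≤ (kHi I : ℝ)) :
    0 ≤ kAff (kAll I) s 0 := by
  have h := kK_ok I
  simp only [kKOK, Bool.and_eq_true, decide_eq_true_eq] at h
  obtain ⟨h1, h2⟩ := h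
  have h1' := cast_le' h1
  have h2' := cast_le' h2
  push_cast at h1' h2'
  simp only [kAff, kAll, Matrix.cons_val_zero]
  rcases le_total 0 (kK I 1 : ℝ) with h | h
  · nlinarith [mul_le_mul_of_nonneg_left hl h]
  · nlinarith [mul_le_mul_of_nonpos_left hh h]

/-- A two-level point of an interval lies in a box, where `kLow` bounds `T` and keeps the
coefficient of `T` nonnegative. -/
theorem exists_box_tau {I : Fin 14} {r : Fin 4 → ℝ} (hr : IsPost4 r) (htl : TwoLevel r)
    (hl : (kLo I : ℝ) ≤ sq4 r) (hh : sq4 r ≤ (kHi I : ℝ)) :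
    ∃ a B x, kBox I a = some B ∧ B.Mem x ∧ (famBox (kBranch a).1).Mem x ∧
      sq4 r = famS (kBranch a).1 x ∧ cube4 r = famC (kBranch a).1 x ∧
      quart4 r = famE (kBranch a).1 x ∧
      kLow (kSig I a) (kBranch a).1 x ≤ pairMean r ∧
      0 ≤ kTau (xG : ℝ) (kNuQ : ℝ) (kPhi kPhiQ) (famS (kBranch a).1 x) (famC (kBranch a).1 x)
        (kLow (kSig I a) (kBranch a).1 x) := by
  obtain ⟨a, B, x, hB, hx, hf, es, ec, ee, hT⟩ := exists_box hr htl hl hh
  exact ⟨a, B, x, hB, hx, hf, es, ec, ee, hT, (box_facts hB hx hf).2.1⟩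

end KInterval

end Vale.Agent.P154.Ferro4
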