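import Vale.Agent.P154.Ferro4.KGlue
import Vale.Agent.P154.Ferro4.KInterval

/-!
P154, four states: assembly of the closure certificate. A cell `I ≤ J` is checked on every pair
of branches that meet the two intervals; the checks of the intervals reduce each pair of slices to
these branches, the slice `sq4 = 1` is settled directly, and symmetry gives the other cells.
-/

namespace Vale.Agent.P154.Ferro4

open Channel PolyCheck XReduce XCheck KFam KCheck KInterval

namespace KAssembly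

/-- The check of a pair of branches of a cell. -/
def kPairOK (I J : Fin 14) (a b : Fin 6) (T : ACut) : Bool :=
  match kBox I a, kBox J b with
  | some B, some B' =>
    kPartOK xG kNuQ kPhiQ (kThQ I J) (kAll I) (kAll J) (kSig I a) (kSig J b)
      (kLo I) (kHi I) (kLo J) (kHi J) (kBranch a).1 (kBranch b).1 B B' T
  | _, _ => true

/-- All pairs of branches of a cell. -/
def kCellOK (I J : Fin 14) (T : Fin 6 → Fin 6 → ACut) : Bool :=
  (List.finRange 6).all fun a => (List.finRange 6).all fun b => kPairOK I J a b (T a b)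

theorem kCellOK_pair {I J : Fin 14} {T : Fin 6 → Fin 6 → ACut} (h : kCellOK I J T = true)
    (a b : Fin 6) : kPairOK I J a b (T a b) = true := by
  simp only [kCellOK, List.all_eq_true, List.mem_finRange, true_implies] at h
  exact h a b

theorem kSlack2_swap (g ν : ℝ) (φ : ℝ → ℝ) (q : Fin 6 → ℝ) (l : Fin 2 → ℝ)
    (s c e T t d f T' : ℝ) :
    kSlack2 g ν φ q l s c e T t d f T' = kSlack2 g ν φ (swapQ q) l t d f T' s c e T := by
  have h := kSlackPen_swap g ν φ q l 0 0 s c e T t d f T'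
  simpa [kSlackPen] using h

theorem homExt_classFn_comp (g : ℝ) (a : Fin 4 → ℝ) (σ : Equiv.Perm (Fin 4)) :
    homExt (classFn g) (a ∘ σ) = homExt (classFn g) a := by
  have hm : mass4 (a ∘ σ) = mass4 a := by
    simp only [mass4, Function.comp_apply]; rw [Equiv.sum_comp σ a]
  simp only [homExt, hm]
  split_ifs
  · rfl
  congr 1
  rw [show (fun i => (a ∘ σ) i / mass4 a) = (fun i => a i / mass4 a) ∘ σ from rfl]
  generalize (fun i => a i / mass4 a) = v
  obtain ⟨e3, -, eT⟩ := Reduce.sym_all v σ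
  simp only [classFn, e3, eT, sq4, Function.comp_apply]
  rw [Equiv.sum_comp σ fun i => (v i - 1) ^ 2]

theorem avg24_comm (g : ℝ) (r r' : Fin 4 → ℝ) :
    avg24 (classFn g) r' r = avg24 (classFn g) r r' := by
  simp only [avg24]
  congr 1
  refine Fintype.sum_equiv (Equiv.inv (Equiv.Perm (Fin 4))) _ _ fun σ => ?_
  rw [← homExt_classFn_comp g (fun i => r i * r' ((Equiv.inv (Equiv.Perm (Fin 4))) σ i)) σ]
  congr 1
  funext i
  simp [mul_comm]

/-- The slack on a cell, away from `sq4 = 1`. -/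
theorem kSlack2_cell {I J : Fin 14} (h : ∀ a b, ∃ T, kPairOK I J a b T = true) {r r' : Fin 4 → ℝ}
    (hr : IsPost4 r) (hr' : IsPost4 r') (hl : (kLo I : ℝ) ≤ sq4 r) (hh : sq4 r ≤ (kHi I : ℝ))
    (hl' : (kLo J : ℝ) ≤ sq4 r') (hh' : sq4 r' ≤ (kHi J : ℝ)) (h1 : sq4 r < 1) (h1' : sq4 r' < 1) :
    0 ≤ kSlack2 (xG : ℝ) (kNuQ : ℝ) (kPhi kPhiQ) (kQ (kThQ I J) (sq4 r) (sq4 r'))
      ![kL0 (kThQ I J 6) (sq4 r) (sq4 r'), (kThQ I J 7 : ℝ)]
      (sq4 r) (cube4 r) (quart4 r) (pairMean r) (sq4 r') (cube4 r') (quart4 r') (pairMean r') := by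
  have hg : (0 : ℝ) ≤ xG := by norm_num [xG]
  have hg1 : 2 * (xG : ℝ) ≤ 1 := by norm_num [xG]
  have hν : (kNuQ : ℝ) * (1 - 2 * xG) ≤ 1 := by norm_num [xG, kNuQ]
  refine kSlack2_of_twoLevel_tau hg (p := kAff (kAll I) (sq4 r)) (p' := kAff (kAll J) (sq4 r'))
    (kK_nonneg hl hh) (kK_nonneg hl' hh')
    (fun v hv hvs => by rw [← hvs]; exact kCorner_nonneg' hv (hvs ▸ hl) (hvs ▸ hh))
    (fun v hv hvs => by rw [← hvs]; exact kCorner_nonneg' hv (hvs ▸ hl') (hvs ▸ hh'))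
    (fun v hv _ hvs => by rw [← hvs]; exact kM_add_nonneg hv (hvs ▸ hl) (hvs ▸ hh))
    (fun v hv hvs => by rw [← hvs]; exact kM_add_nonneg hv (hvs ▸ hl') (hvs ▸ hh'))
    (fun v hv _ hvs => by rw [← hvs]; exact kTau_nonneg hv (hvs ▸ hl) (hvs ▸ hh))
    (fun v hv hvs => by rw [← hvs]; exact kTau_nonneg hv (hvs ▸ hl') (hvs ▸ hh'))
    (fun v w hv hw htl htl' hvs hwt => ?_) hr hr' rfl rfl
  obtain ⟨a, B, x, hB, hxB, hx, es, ec, ee, hT, hτ⟩ := exists_box_tau (I := I) hv htl (hvs ▸ hl) (hvs ▸ hh)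
  obtain ⟨b, B', y, hB', hyB, hy, et, ed, ef, hT', hτ'⟩ :=
    exists_box_tau (I := J) hw htl' (hwt ▸ hl') (hwt ▸ hh')
  obtain ⟨A, hA⟩ := h a b
  simp only [kPairOK, hB, hB'] at hA
  rw [← hvs, es] at hl hh h1
  rw [← hwt, et] at hl' hh' h1'
  rw [← hvs, ← hwt, es, ec, ee, et, ed, ef]
  exact kSlackPen_of_part hA hg1 hν hx hy hxB hyB ⟨hl, hh⟩ ⟨hl', hh'⟩ h1 h1' hT hT' hτ hτ'

/-- The closure inequality at the slice `sq4 = 1`. -/
theorem hK_one {r r' : Fin 4 → ℝ} (hr : IsPost4 r) (hr' : IsPost4 r') (h1 : sq4 r = 1) :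
    kPhi kPhiQ (sq4 r') * classFn xG r + kPhi kPhiQ (sq4 r) * classFn xG r' +
        kNuQ * (classFn xG r * classFn xG r') ≤ avg24 (classFn xG) r r' := by
  refine hK_vertex (by norm_num [xG]) (by norm_num [xG])
    (by simp [kPhi, kPhiQ, kNuQ, xG]; norm_num) (fun t h0 ht => ?_) hr hr' h1
  simp [kPhi, kPhiQ, kNuQ, xG]
  norm_num
  nlinarith [mul_nonneg h0 (sub_nonneg.2 ht), mul_nonneg (mul_nonneg h0 h0) (sub_nonneg.2 ht),
    mul_nonneg (mul_nonneg h0 h0) (mul_nonneg h0 (sub_nonneg.2 ht)), sq_nonneg (t - 1 / 2)]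

/-- The inequality with the two sides exchanged, at the slice `sq4 = 1` on the right. -/
theorem hK_one' {r r' : Fin 4 → ℝ} (hr : IsPost4 r) (hr' : IsPost4 r') (h1 : sq4 r' = 1) :
    kPhi kPhiQ (sq4 r') * classFn xG r + kPhi kPhiQ (sq4 r) * classFn xG r' +
        kNuQ * (classFn xG r * classFn xG r') ≤ avg24 (classFn xG) r r' := by
  have h := hK_one hr' hr h1
  rw [avg24_comm] at h
  linarith

/-- The pointwise closure inequality from the checks of the cells `I ≤ J`. -/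
theorem hK_of_cells (h : ∀ I J : Fin 14, I ≤ J → ∀ a b, ∃ T, kPairOK I J a b T = true)
    (r r' : Fin 4 → ℝ) (hr : IsPost4 r) (hr' : IsPost4 r') :
    kPhi kPhiQ (sq4 r') * classFn xG r + kPhi kPhiQ (sq4 r) * classFn xG r' +
        kNuQ * (classFn xG r * classFn xG r') ≤ avg24 (classFn xG) r r' := by
  have hs := sq4_le_one r hr.nonneg hr.sum_eq
  have ht := sq4_le_one r' hr'.nonneg hr'.sum_eq
  rcases hs.eq_or_lt with e | hs1
  · exact hK_one hr hr' e
  rcases ht.eq_or_lt with e | ht1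
  · exact hK_one' hr hr' e
  have hg : (0 : ℝ) ≤ xG := by norm_num [xG]
  obtain ⟨I, hl, hh⟩ := exists_kInterval (sq4_nonneg r) hs
  obtain ⟨J, hl', hh'⟩ := exists_kInterval (sq4_nonneg r') ht
  rcases le_total I J with hIJ | hIJ
  · exact hK_of_kSlack2 hg _ _ hr hr' (kSlack2_cell (h I J hIJ) hr hr' hl hh hl' hh' hs1 ht1)
  · have h2 := kSlack2_cell (h J I hIJ) hr' hr hl' hh' hl hh ht1 hs1
    rw [kSlack2_swap] at h2
    exact hK_of_kSlack2 hg _ _ hr hr' h2

end KAssembly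

end Vale.Agent.P154.Ferro4
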