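import Vale.Agent.P154.Ferro4.XDefs
import Vale.Agent.P154.Cert.AltCheck

/-!
P154, four states: reduction of the subadditivity slack to polynomials in two variables.

On a slice of given `s` the slack is affine in `(c, e)` on each side, so it is enough to treat
two-level points; these form four one-parameter families with polynomial `(s, c, e)` on which
`(1 - 3 s + 2 c) / (1 - s)` is a quotient of polynomials with positive denominator.
-/

namespace Vale.Agent.P154.Ferro4

open Channel PolyCheck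

noncomputable section

/-- The multiplier of the class function in the subadditivity inequality. -/
def xPsi (psi : Fin 7 → ℝ) (t d f : ℝ) : ℝ :=
  psi 0 * t + psi 1 * t ^ 2 + psi 2 * t ^ 3 + psi 3 * d + psi 4 * (t * d) + psi 5 * f +
    psi 6 * t ^ 4

/-- The slack of the subadditivity certificate at invariants `(s, c, e)` and `(t, d, f)`. -/
def xSlack (g eps : ℝ) (psi : Fin 7 → ℝ) (k k' : Fin 12 → ℝ) (p : Fin 4 → ℝ)
    (s c e t d f : ℝ) : ℝ :=
  s + t - 1 + invBound p s c e t d f - xPsi psi t d f * classMajorant g k s c e -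
    xPsi psi s c e * classMajorant g k' t d f - eps * (s ^ 2 * t + s * t ^ 2)

theorem xSlack_affine_left (g eps : ℝ) (psi : Fin 7 → ℝ) (k k' : Fin 12 → ℝ) (p : Fin 4 → ℝ)
    (s c e t d f : ℝ) : xSlack g eps psi k k' p s c e t d f =
      xSlack g eps psi k k' p s 0 0 t d f +
        (xSlack g eps psi k k' p s 1 0 t d f - xSlack g eps psi k k' p s 0 0 t d f) * c +
        (xSlack g eps psi k k' p s 0 1 t d f - xSlack g eps psi k k' p s 0 0 t d f) * e := by
  unfold xSlack classMajorant invBound mom0 mom1 mom2 mom3 xPsi pairPolyMean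
  ring

theorem xSlack_affine_right (g eps : ℝ) (psi : Fin 7 → ℝ) (k k' : Fin 12 → ℝ) (p : Fin 4 → ℝ)
    (s c e t d f : ℝ) : xSlack g eps psi k k' p s c e t d f =
      xSlack g eps psi k k' p s c e t 0 0 +
        (xSlack g eps psi k k' p s c e t 1 0 - xSlack g eps psi k k' p s c e t 0 0) * d +
        (xSlack g eps psi k k' p s c e t 0 1 - xSlack g eps psi k k' p s c e t 0 0) * f := by
  unfold xSlack classMajorant invBound mom0 mom1 mom2 mom3 xPsi pairPolyMean
  ring

/-- An affine function of `(c, e)` on a slice is bounded below at two-level points. -/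
theorem affine_twoLevel {s a0 a1 a2 : ℝ}
    (h : ∀ r, IsPost4 r → TwoLevel r → sq4 r = s → 0 ≤ a0 + a1 * cube4 r + a2 * quart4 r)
    {r : Fin 4 → ℝ} (hr : IsPost4 r) (hs : sq4 r = s) :
    0 ≤ a0 + a1 * cube4 r + a2 * quart4 r := by
  have key : ∀ v : Fin 4 → ℝ, ∑ i, v i = 4 → sq4 v = s → a0 + a1 * cube4 v + a2 * quart4 v =
      a0 + a1 * ((esym3 v / 4 - 1 + 3 * s) / 2) +
        a2 * ((1 - 6 * s + 4 * (esym3 v / 4 - 1 + 3 * s) + 18 * s ^ 2 - esym4 v) / 21) := by
    intro v hv hsv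
    have h3 := esym3_eq v hv
    have h4 : esym4 v = 1 - 6 * sq4 v + 8 * cube4 v + 18 * sq4 v ^ 2 - 21 * quart4 v := by
      simp only [Fin.sum_univ_four] at hv
      obtain e : v 3 = 4 - v 0 - v 1 - v 2 := by linarith
      simp only [esym4, sq4, cube4, quart4, Fin.sum_univ_four, e]
      ring
    rw [hsv] at h3 h4
    rw [h3, h4]
    ring
  rw [key r hr.sum_eq hs]
  refine ge_of_twoLevel (Φ := fun x y _ => a0 + a1 * ((x / 4 - 1 + 3 * s) / 2) +
      a2 * ((1 - 6 * s + 4 * (x / 4 - 1 + 3 * s) + 18 * s ^ 2 - y) / 21))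
    (S := 12 * s + 4) (by fun_prop) (fun a b c a' b' c' => le_of_eq (by ring))
    (fun a b c c' _ => le_rfl) ?_ hr.nonneg hr.sum_eq ?_
  · intro v hv0 hv1 hv2 htl
    have hsv : sq4 v = s := by
      simp only [Fin.sum_univ_four] at hv1 hv2
      simp only [sq4, Fin.sum_univ_four]
      linarith
    rw [← key v hv1 hsv]
    exact h v ⟨hv0, hv1⟩ htl hsv
  · have hs' := hr.sum_eq
    simp only [Fin.sum_univ_four] at hs' ⊢
    simp only [sq4, Fin.sum_univ_four] at hs
    linarith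

/-- A function of two slices that is biaffine in `(1, c, e)` is bounded below at two-level
points. -/
theorem biaffine_twoLevel (M : Fin 3 → Fin 3 → ℝ) {s t : ℝ}
    (h : ∀ r r', IsPost4 r → IsPost4 r' → TwoLevel r → TwoLevel r' → sq4 r = s → sq4 r' = t →
      0 ≤ ∑ i, ∑ j, M i j * (![1, cube4 r, quart4 r] i) * (![1, cube4 r', quart4 r'] j))
    {r r' : Fin 4 → ℝ} (hr : IsPost4 r) (hr' : IsPost4 r') (hs : sq4 r = s) (ht : sq4 r' = t) :
    0 ≤ ∑ i, ∑ j, M i j * (![1, cube4 r, quart4 r] i) * (![1, cube4 r', quart4 r'] j) := by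
  have left : ∀ c e d f : ℝ, ∑ i, ∑ j, M i j * (![1, c, e] i) * (![1, d, f] j) =
      (M 0 0 + M 0 1 * d + M 0 2 * f) + (M 1 0 + M 1 1 * d + M 1 2 * f) * c +
        (M 2 0 + M 2 1 * d + M 2 2 * f) * e := by
    intro c e d f; simp [Fin.sum_univ_three]; ring
  have right : ∀ c e d f : ℝ, ∑ i, ∑ j, M i j * (![1, c, e] i) * (![1, d, f] j) =
      (M 0 0 + M 1 0 * c + M 2 0 * e) + (M 0 1 + M 1 1 * c + M 2 1 * e) * d +
        (M 0 2 + M 1 2 * c + M 2 2 * e) * f := by
    intro c e d f; simp [Fin.sum_univ_three]; ring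
  rw [left]
  refine affine_twoLevel (s := s) (fun v hv htl hsv => ?_) hr hs
  rw [← left, right]
  refine affine_twoLevel (s := t) (fun v' hv' htl' htv => ?_) hr' ht
  rw [← right]
  exact h v v' hv hv' htl htl' hsv htv

/-- Nonnegativity of the slack on a cell follows from its two-level points. -/
theorem xSlack_of_twoLevel {g eps : ℝ} {psi : Fin 7 → ℝ} {k k' : Fin 12 → ℝ} {p : Fin 4 → ℝ}
    {S T : Set ℝ}
    (h : ∀ r r', IsPost4 r → IsPost4 r' → TwoLevel r → TwoLevel r' → sq4 r ∈ S → sq4 r' ∈ T →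
      0 ≤ xSlack g eps psi k k' p (sq4 r) (cube4 r) (quart4 r) (sq4 r') (cube4 r') (quart4 r'))
    {r r' : Fin 4 → ℝ} (hr : IsPost4 r) (hr' : IsPost4 r') (hs : sq4 r ∈ S) (ht : sq4 r' ∈ T) :
    0 ≤ xSlack g eps psi k k' p (sq4 r) (cube4 r) (quart4 r) (sq4 r') (cube4 r') (quart4 r') := by
  rw [xSlack_affine_left]
  refine affine_twoLevel (s := sq4 r) (fun v hv htl hsv => ?_) hr rfl
  rw [← xSlack_affine_left, xSlack_affine_right]
  refine affine_twoLevel (s := sq4 r') (fun v' hv' htl' htv => ?_) hr' rfl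
  rw [← xSlack_affine_right, ← hsv, ← htv]
  exact h v v' hv hv' htl htl' (hsv ▸ hs) (htv ▸ ht)

/-! ### The four families -/

namespace XReduce

/-- `s` on the families. -/
def famS (i : Fin 4) (x : ℝ) : ℝ :=
  ![x ^ 2, x ^ 2 / 3, (3 * x ^ 2 - 2 * x + 1) / 6, (x ^ 2 + 2) / 6] i

/-- `c` on the families. -/
def famC (i : Fin 4) (x : ℝ) : ℝ :=
  ![-(x ^ 3), 0, -(x * (1 - x) ^ 2) / 4, x ^ 2 / 4] i

/-- `e` on the families. -/
def famE (i : Fin 4) (x : ℝ) : ℝ :=
  ![x ^ 4, x ^ 4 / 21, (9 * x ^ 4 - 16 * x ^ 3 + 12 * x ^ 2 - 4 * x + 1) / 42,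
    (x ^ 4 + 6 * x ^ 2 + 2) / 42] i

/-- Numerator of `(1 - 3 s + 2 c) / (1 - s)` on the families. -/
def famN (i : Fin 4) (x : ℝ) : ℝ :=
  ![(1 + x) * (1 - 2 * x), 3 * (1 - x ^ 2), 3 * (1 - x ^ 2), 0] i

/-- Denominator of `(1 - 3 s + 2 c) / (1 - s)` on the families. -/
def famD (i : Fin 4) (x : ℝ) : ℝ :=
  ![1 - x, 3 - x ^ 2, 5 - 3 * x, 1] i

/-- The parameter interval of a family. -/
def famBox (i : Fin 4) : Iv :=
  ![⟨-3, 1, 3⟩, ⟨0, 1, 1⟩, ⟨-1, 1, 1⟩, ⟨0, 2, 1⟩] i

theorem famD_pos (i : Fin 4) (x : ℝ) (h : (famBox i).Mem x) : 0 < famD i x := by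
  obtain ⟨h1, h2⟩ := h
  fin_cases i <;> simp [famBox, famD] at h1 h2 ⊢ <;> nlinarith

theorem fam_ratio (i : Fin 4) (x : ℝ) (h : (famBox i).Mem x) :
    (1 - 3 * famS i x + 2 * famC i x) / (1 - famS i x) = famN i x / famD i x := by
  obtain ⟨h1, h2⟩ := h
  fin_cases i <;> simp [famBox, famS, famC, famN, famD] at h1 h2 ⊢
  · rcases eq_or_ne x (-1) with rfl | hx
    · norm_num
    · have a : 1 + x ≠ 0 := fun e => hx (by linarith)
      have b : 1 - x ≠ 0 := by linarith
      rw [div_eq_div_iff (by rw [show 1 - x ^ 2 = (1 + x) * (1 - x) by ring]; exact mul_ne_zero a b)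
        b]
      ring
  · have b : 3 - x ^ 2 ≠ 0 := by nlinarith
    rw [div_eq_div_iff (by nlinarith) b]
    ring
  · rcases eq_or_ne x (-1) with rfl | hx
    · norm_num
    · have a : 1 + x ≠ 0 := fun e => hx (by linarith)
      have b : 5 - 3 * x ≠ 0 := by linarith
      rw [div_eq_div_iff (by
        rw [show 1 - (3 * x ^ 2 - 2 * x + 1) / 6 = (1 + x) * (5 - 3 * x) / 6 by ring]
        exact div_ne_zero (mul_ne_zero a b) (by norm_num)) b]
      ring
  · left; ring

/-- A two-level point has the invariants of a point of one family. -/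
theorem exists_fam {r : Fin 4 → ℝ} (hr : IsPost4 r) (htl : TwoLevel r) :
    ∃ i x, (famBox i).Mem x ∧ sq4 r = famS i x ∧ cube4 r = famC i x ∧ quart4 r = famE i x := by
  obtain ⟨σ, a, b, ha, hb, hv⟩ := htl.normal_form hr.nonneg
  have hsum : ∀ F : ℝ → ℝ, ∑ i, F (r i) = ∑ i, F ((r ∘ σ) i) := fun F =>
    (Equiv.sum_comp σ fun i => F (r i)).symm
  have h4 := (hsum id).symm.trans hr.sum_eq
  have inv : sq4 r = sq4 (r ∘ σ) ∧ cube4 r = cube4 (r ∘ σ) ∧ quart4 r = quart4 (r ∘ σ) := by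
    refine ⟨?_, ?_, ?_⟩
    · simp only [sq4]; rw [hsum fun z => (z - 1) ^ 2]
    · simp only [cube4]; rw [hsum fun z => (z - 1) ^ 3]
    · simp only [quart4]; rw [hsum fun z => (z - 1) ^ 4]
  obtain ⟨i1, i2, i3⟩ := inv
  rw [i1, i2, i3]
  rcases hv with hv | hv | hv | hv <;> rw [hv] at h4 ⊢ <;>
    simp [Fin.sum_univ_four] at h4
  · obtain rfl : b = 4 - 3 * a := by linarith
    refine ⟨0, a - 1, ?_⟩
    simp [Iv.Mem, famBox, famS, famC, famE, sq4, cube4, quart4, Fin.sum_univ_four]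
    exact ⟨⟨by linarith, by linarith⟩, by ring, by ring, by ring⟩
  · obtain rfl : b = 2 - a := by linarith
    refine ⟨1, |a - 1|, ?_⟩
    simp [Iv.Mem, famBox, famS, famC, famE, sq4, cube4, quart4, Fin.sum_univ_four]
    have h4 : |a - 1| ^ 4 = (a - 1) ^ 4 := by
      rw [show (4 : ℕ) = 2 * 2 from rfl, pow_mul, pow_mul, sq_abs]
    exact ⟨abs_le.2 ⟨by linarith, by linarith⟩, by ring, by ring, by rw [h4]; ring⟩
  · obtain rfl : b = 4 - 2 * a := by linarith
    refine ⟨2, a - 1, ?_⟩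
    simp [Iv.Mem, famBox, famS, famC, famE, sq4, cube4, quart4, Fin.sum_univ_four]
    exact ⟨⟨by linarith, by linarith⟩, by ring, by ring, by ring⟩
  · obtain rfl : b = 4 - a := by linarith
    refine ⟨3, |a - 2|, ?_⟩
    simp [Iv.Mem, famBox, famS, famC, famE, sq4, cube4, quart4, Fin.sum_univ_four]
    have h4 : |a - 2| ^ 4 = (a - 2) ^ 4 := by
      rw [show (4 : ℕ) = 2 * 2 from rfl, pow_mul, pow_mul, sq_abs]
    exact ⟨abs_le.2 ⟨by linarith, by linarith⟩, by ring, by ring, by rw [h4]; ring⟩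

/-- The slack on a pair of families times the two denominators. -/
def famPoly (g eps : ℝ) (psi : Fin 7 → ℝ) (k k' : Fin 12 → ℝ) (p : Fin 4 → ℝ)
    (i j : Fin 4) (x y : ℝ) : ℝ :=
  famD i x * famD j y * (famS i x + famS j y - 1 +
      invBound p (famS i x) (famC i x) (famE i x) (famS j y) (famC j y) (famE j y) -
      eps * (famS i x ^ 2 * famS j y + famS i x * famS j y ^ 2)) -
    famD j y * xPsi psi (famS j y) (famC j y) (famE j y) *
      (famD i x * (famS i x - (1 - g) +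
        (1 - 2 * g) * pairPolyMean k (famS i x) (famC i x) (famE i x)) + g * famN i x) -
    famD i x * xPsi psi (famS i x) (famC i x) (famE i x) *
      (famD j y * (famS j y - (1 - g) +
        (1 - 2 * g) * pairPolyMean k' (famS j y) (famC j y) (famE j y)) + g * famN j y)

theorem classMajorant_fam (g : ℝ) (k : Fin 12 → ℝ) (i : Fin 4) (x : ℝ) (h : (famBox i).Mem x) :
    classMajorant g k (famS i x) (famC i x) (famE i x) =
      (famD i x * (famS i x - (1 - g) +
        (1 - 2 * g) * pairPolyMean k (famS i x) (famC i x) (famE i x)) + g * famN i x) /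
        famD i x := by
  have hd := (famD_pos i x h).ne'
  rw [classMajorant, mul_div_assoc, fam_ratio i x h]
  field_simp
  ring

/-- Nonnegative family polynomials give a nonnegative slack on the cell. -/
theorem xSlack_of_poly {g eps : ℝ} {psi : Fin 7 → ℝ} {k k' : Fin 12 → ℝ} {p : Fin 4 → ℝ}
    {S T : Set ℝ}
    (h : ∀ i j x y, (famBox i).Mem x → (famBox j).Mem y → famS i x ∈ S → famS j y ∈ T →
      0 ≤ famPoly g eps psi k k' p i j x y)
    {r r' : Fin 4 → ℝ} (hr : IsPost4 r) (hr' : IsPost4 r') (hs : sq4 r ∈ S) (ht : sq4 r' ∈ T) :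
    0 ≤ xSlack g eps psi k k' p (sq4 r) (cube4 r) (quart4 r) (sq4 r') (cube4 r') (quart4 r') := by
  refine xSlack_of_twoLevel (S := S) (T := T) (fun v v' hv hv' htl htl' hsv htv => ?_) hr hr' hs ht
  obtain ⟨i, x, hx, es, ec, ee⟩ := exists_fam hv htl
  obtain ⟨j, y, hy, et, ed, ef⟩ := exists_fam hv' htl'
  rw [es] at hsv ⊢
  rw [et] at htv ⊢
  rw [ec, ee, ed, ef]
  have hi := famD_pos i x hx
  have hj := famD_pos j y hy
  refine le_of_le_of_eq (div_nonneg (h i j x y hx hy hsv htv) (mul_nonneg hi.le hj.le)) ?_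
  rw [xSlack, classMajorant_fam g k i x hx, classMajorant_fam g k' j y hy, famPoly]
  field_simp
  ring

end XReduce

end

end Vale.Agent.P154.Ferro4
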