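import Vale.Agent.P154.Ferro4.KReduce2
import Vale.Agent.P154.Ferro4.XReduce

/-!
P154, four states: the penalised closure slack on the one-parameter families.

With `l₀ = (1 + p s t) / ((1 - s) (1 - t))` the slack times the squares of the two denominators
of the families is a polynomial in the two parameters and in the two values used for `T`.
-/

namespace Vale.Agent.P154.Ferro4

open Channel

noncomputable section

namespace KFam

open XReduce PolyCheck

/-- `e₄ / (1 - s)` times the denominator, on the families. -/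
def famQ (i : Fin 4) (x : ℝ) : ℝ :=
  ![(1 + x) ^ 2 * (1 - 3 * x), 3 * (1 - x ^ 2) ^ 2, 0, 0] i

/-- `e₄ / (1 - s) ^ 2` times the square of the denominator, on the families. -/
def famQ2 (i : Fin 4) (x : ℝ) : ℝ :=
  ![(1 + x) * (1 - 3 * x), 9 * (1 - x ^ 2) ^ 2, 0, 0] i

theorem famN_eq (i : Fin 4) (x : ℝ) :
    (1 - 3 * famS i x + 2 * famC i x) * famD i x = famN i x * (1 - famS i x) := by
  fin_cases i <;> simp [famS, famC, famD, famN] <;> ring

theorem famQ_eq (i : Fin 4) (x : ℝ) :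
    e4Inv (famS i x) (famC i x) (famE i x) * famD i x = famQ i x * (1 - famS i x) := by
  fin_cases i <;> simp [e4Inv, famS, famC, famE, famD, famQ] <;>
    first | (left; ring) | ring

theorem famQ2_eq (i : Fin 4) (x : ℝ) :
    e4Inv (famS i x) (famC i x) (famE i x) * famD i x ^ 2 =
      famQ2 i x * (1 - famS i x) ^ 2 := by
  fin_cases i <;> simp [e4Inv, famS, famC, famE, famD, famQ2] <;>
    first | (left; ring) | ring

/-- The first multiplier of the tangent. -/
def kL0 (p s t : ℝ) : ℝ := (1 + p * (s * t)) / ((1 - s) * (1 - t))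

/-- The `l₁ ^ 2` term of the tangent. -/
def ratE22 (s c e t d f : ℝ) : ℝ :=
  (e4Inv s c e * e4Inv t d f * ratA s c 2 * ratA t d 2 + ratY s c e 2 * ratY t d f 2) / 12

/-- `ratioBound2` times `A ^ 2 B ^ 2`. -/
def ratPart (p r A B N n Q q Q2 q2 s c e t d f : ℝ) : ℝ :=
  (2 * (1 + p * (s * t)) * (4 * (N * n)) * (A * B) +
    2 * r * (ratN s c e 1 * ratN t d f 1 / 4) * (A ^ 2 * B ^ 2) -
    (1 + p * (s * t)) ^ 2 / 6 * ((144 * (Q2 * q2) +
      (24 * (N * A) - 12 * Q2) * (24 * (n * B) - 12 * q2)) / 12) -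
    (1 + p * (s * t)) * r / 3 * ((Q * q * (144 * (s * t)) +
      (6 * ratN s c e 1 * A + 12 * (s * Q)) * (6 * ratN t d f 1 * B + 12 * (t * q))) *
        (A * B) / 12) -
    r ^ 2 / 6 * ratE22 s c e t d f * (A ^ 2 * B ^ 2)) / 4

theorem ratio_alg {p r A B N n Q q Q2 q2 s c e t d f : ℝ} (hs : 1 - s ≠ 0) (ht : 1 - t ≠ 0)
    (hN : (1 - 3 * s + 2 * c) * A = N * (1 - s)) (hn : (1 - 3 * t + 2 * d) * B = n * (1 - t))
    (hQ : e4Inv s c e * A = Q * (1 - s)) (hq : e4Inv t d f * B = q * (1 - t))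
    (hQ2 : e4Inv s c e * A ^ 2 = Q2 * (1 - s) ^ 2)
    (hq2 : e4Inv t d f * B ^ 2 = q2 * (1 - t) ^ 2) :
    ratioBound2 ![kL0 p s t, r] s c e t d f * (A ^ 2 * B ^ 2) =
      ratPart p r A B N n Q q Q2 q2 s c e t d f := by
  obtain rfl : N = (1 - 3 * s + 2 * c) * A / (1 - s) := by field_simp; linarith
  obtain rfl : n = (1 - 3 * t + 2 * d) * B / (1 - t) := by field_simp; linarith
  obtain rfl : Q = e4Inv s c e * A / (1 - s) := by field_simp; linarith
  obtain rfl : q = e4Inv t d f * B / (1 - t) := by field_simp; linarith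
  obtain rfl : Q2 = e4Inv s c e * A ^ 2 / (1 - s) ^ 2 := by field_simp; linarith
  obtain rfl : q2 = e4Inv t d f * B ^ 2 / (1 - t) ^ 2 := by field_simp; linarith
  unfold ratioBound2 ratForm2 ratPart ratE22 ratY
  simp only [show ∀ a b, ratA a b 0 = 12 from fun _ _ => rfl,
    show ∀ a b, ratA a b 1 = -12 * a from fun _ _ => rfl,
    show ∀ a b, ratA a b 2 = 36 * a - 24 * b from fun _ _ => rfl,
    show ∀ a b x, ratN a b x 0 = 4 * (1 - 3 * a + 2 * b) from fun _ _ _ => rfl]
  generalize ratN s c e 1 = N1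
  generalize ratN s c e 2 = N2
  generalize ratN t d f 1 = n1
  generalize ratN t d f 2 = n2
  simp only [show ∀ a b : ℝ, (![a, b] : Fin 2 → ℝ) 0 = a from fun _ _ => rfl,
    show ∀ a b : ℝ, (![a, b] : Fin 2 → ℝ) 1 = b from fun _ _ => rfl]
  simp only [← e4Inv.eq_1] at *
  unfold kL0
  generalize e4Inv s c e = P at *
  generalize e4Inv t d f = P' at *
  generalize 1 - 3 * s + 2 * c = R at *
  generalize 1 - 3 * t + 2 * d = R' at *
  clear hN hn hQ hq hQ2 hq2
  generalize 1 - s = u at *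
  generalize 1 - t = w at *
  generalize 1 + p * (s * t) = m
  generalize 36 * s - 24 * c = A2
  generalize 36 * t - 24 * d = B2
  field_simp
  ring

/-- `classInv` times the denominator, with a value `L` for `T`. -/
def famU (g L : ℝ) (i : Fin 4) (x : ℝ) : ℝ :=
  famD i x * (famS i x - (1 - g) + (1 - 2 * g) * L) + g * famN i x

theorem classInv_fam {g L : ℝ} {i : Fin 4} {x : ℝ} (hs : 1 - famS i x ≠ 0) :
    classInv g (famS i x) (famC i x) L * famD i x = famU g L i x := by
  have h := famN_eq i x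
  simp only [classInv, famU]
  field_simp
  linear_combination g * h

/-- The penalised slack times the squares of the two denominators. -/
def kFamPoly (g ν : ℝ) (φ : ℝ → ℝ) (q : Fin 6 → ℝ) (p r : ℝ) (k k' : Fin 3 → ℝ)
    (i j : Fin 4) (x y L L' : ℝ) : ℝ :=
  (sqBound q (famS i x) (famC i x) (famE i x) (famS j y) (famC j y) (famE j y) - (1 - g) +
      (1 - 2 * g) * (L * L') -
      g / 12 * r ^ 2 * (k' 0 * kCorner (k 1) (k 2) (famS i x) (famC i x) (famE i x) +
        k 0 * kCorner (k' 1) (k' 2) (famS j y) (famC j y) (famE j y))) *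
      (famD i x ^ 2 * famD j y ^ 2) +
    g * ratPart p r (famD i x) (famD j y) (famN i x) (famN j y) (famQ i x) (famQ j y)
      (famQ2 i x) (famQ2 j y) (famS i x) (famC i x) (famE i x) (famS j y) (famC j y) (famE j y) -
    φ (famS j y) * famU g L i x * (famD i x * famD j y ^ 2) -
    φ (famS i x) * famU g L' j y * (famD i x ^ 2 * famD j y) -
    ν * (famU g L i x * famU g L' j y) * (famD i x * famD j y)

/-- The family polynomial is the slack times a positive factor. -/
theorem kFamPoly_eq (g ν : ℝ) (φ : ℝ → ℝ) (q : Fin 6 → ℝ) (p r : ℝ) (k k' : Fin 3 → ℝ)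
    {i j : Fin 4} {x y : ℝ} (hs : 1 - famS i x ≠ 0) (ht : 1 - famS j y ≠ 0) (L L' : ℝ) :
    kSlackPen g ν φ q ![kL0 p (famS i x) (famS j y), r] k k'
        (famS i x) (famC i x) (famE i x) L (famS j y) (famC j y) (famE j y) L' *
        (famD i x ^ 2 * famD j y ^ 2) =
      kFamPoly g ν φ q p r k k' i j x y L L' := by
  have hR := ratio_alg (p := p) (r := r) hs ht (famN_eq i x) (famN_eq j y) (famQ_eq i x)
    (famQ_eq j y) (famQ2_eq i x) (famQ2_eq j y)
  have hU := classInv_fam (g := g) (L := L) hs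
  have hV := classInv_fam (g := g) (L := L') ht
  simp only [kFamPoly, kSlackPen, kSlack2, ← hR, ← hU, ← hV, Matrix.cons_val]
  ring

/-- A nonnegative family polynomial gives a nonnegative slack, also for larger values of `T` on a
side where the coefficient of `T` is nonnegative. -/
theorem kSlackPen_fam_nonneg {g ν : ℝ} {φ : ℝ → ℝ} {q : Fin 6 → ℝ} {p r : ℝ}
    {k k' : Fin 3 → ℝ} {i j : Fin 4} {x y : ℝ} (hx : (famBox i).Mem x) (hy : (famBox j).Mem y)
    (hs : 1 - famS i x ≠ 0) (ht : 1 - famS j y ≠ 0) {L L' T T' : ℝ} (hL : L ≤ T) (hL' : L' ≤ T')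
    (hτ : 0 ≤ kTau g ν φ (famS i x) (famC i x) L)
    (hτ' : 0 ≤ kTau g ν φ (famS j y) (famC j y) T')
    (h : 0 ≤ kFamPoly g ν φ q p r k k' i j x y L L') :
    0 ≤ kSlackPen g ν φ q ![kL0 p (famS i x) (famS j y), r] k k'
        (famS i x) (famC i x) (famE i x) T (famS j y) (famC j y) (famE j y) T' := by
  have hD : 0 < famD i x ^ 2 * famD j y ^ 2 :=
    mul_pos (pow_pos (famD_pos i x hx) 2) (pow_pos (famD_pos j y hy) 2)
  rw [← kFamPoly_eq g ν φ q p r k k' hs ht] at h
  have h0 := nonneg_of_mul_nonneg_left h hD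
  refine h0.trans ?_
  obtain ⟨a0, a1, a2, ha⟩ := kSlackPen_shape g ν φ q ![kL0 p (famS i x) (famS j y), r] k k'
    (famS j y) (famC j y) (famE j y) T' (famS i x)
  obtain ⟨b0, b1, b2, hb⟩ := kSlackPen_shape g ν φ (swapQ q)
    ![kL0 p (famS i x) (famS j y), r] k' k (famS i x) (famC i x) (famE i x) L (famS j y)
  have step1 : kSlackPen g ν φ q ![kL0 p (famS i x) (famS j y), r] k k'
        (famS i x) (famC i x) (famE i x) L (famS j y) (famC j y) (famE j y) L' ≤
      kSlackPen g ν φ q ![kL0 p (famS i x) (famS j y), r] k k'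
        (famS i x) (famC i x) (famE i x) L (famS j y) (famC j y) (famE j y) T' := by
    rw [kSlackPen_swap, kSlackPen_swap g ν φ q _ k k' _ _ _ L _ _ _ T', hb, hb]
    linarith [mul_le_mul_of_nonneg_left hL' hτ]
  refine step1.trans ?_
  rw [ha, ha]
  linarith [mul_le_mul_of_nonneg_left hL hτ']

/-- The rational part of `T` on the families. -/
def famRat (i : Fin 4) (x : ℝ) : ℝ := ![(1 + x) / 2, 1 / 3, (1 + x) / 6, 0] i

/-- The coefficient of the root in `T` on the families. -/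
def famCoe (i : Fin 4) : ℝ := ![1 / 2, 2 / 3, 1 / 3, 1 / 6] i

/-- The radicand of `T` on the families. -/
def famRad (i : Fin 4) (x : ℝ) : ℝ :=
  ![(1 + x) * (1 - 3 * x), 1 - x ^ 2, 2 * (1 - x ^ 2), 4 - x ^ 2] i

theorem famCoe_nonneg (i : Fin 4) : 0 ≤ famCoe i := by
  fin_cases i <;> norm_num [famCoe]

/-- A lower bound of the root gives a lower bound of `T`. -/
theorem famT_ge {σ : ℝ} {i : Fin 4} {x : ℝ} (h : σ ^ 2 ≤ famRad i x) :
    famRat i x + famCoe i * σ ≤ famRat i x + famCoe i * √(famRad i x) := by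
  have := mul_le_mul_of_nonneg_left (Real.abs_le_sqrt h |> (le_abs_self σ).trans) (famCoe_nonneg i)
  linarith

theorem pairMean_eq_sum {r : Fin 4 → ℝ} (h : ∀ i, 0 ≤ r i) :
    pairMean r = ((∑ i, √(r i)) ^ 2 - ∑ i, r i) / 12 := by
  simp only [pairMean, Fin.sum_univ_four]
  linear_combination (-(1 / 12 : ℝ)) * Real.mul_self_sqrt (h 0) +
    (-(1 / 12 : ℝ)) * Real.mul_self_sqrt (h 1) + (-(1 / 12 : ℝ)) * Real.mul_self_sqrt (h 2) +
    (-(1 / 12 : ℝ)) * Real.mul_self_sqrt (h 3)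

/-- A two-level point: its invariants and its pair mean on one family. -/
theorem exists_famT {r : Fin 4 → ℝ} (hr : IsPost4 r) (htl : TwoLevel r) :
    ∃ i x, (famBox i).Mem x ∧ sq4 r = famS i x ∧ cube4 r = famC i x ∧ quart4 r = famE i x ∧
      pairMean r = famRat i x + famCoe i * √(famRad i x) := by
  obtain ⟨σ, a, b, ha, hb, hv⟩ := htl.normal_form hr.nonneg
  have hsum : ∀ F : ℝ → ℝ, ∑ i, F (r i) = ∑ i, F ((r ∘ σ) i) := fun F =>
    (Equiv.sum_comp σ fun i => F (r i)).symm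
  have h4 := (hsum id).symm.trans hr.sum_eq
  have inv : sq4 r = sq4 (r ∘ σ) ∧ cube4 r = cube4 (r ∘ σ) ∧ quart4 r = quart4 (r ∘ σ) ∧
      pairMean r = pairMean (r ∘ σ) := by
    refine ⟨?_, ?_, ?_, ?_⟩
    · simp only [sq4]; rw [hsum fun z => (z - 1) ^ 2]
    · simp only [cube4]; rw [hsum fun z => (z - 1) ^ 3]
    · simp only [quart4]; rw [hsum fun z => (z - 1) ^ 4]
    · rw [pairMean_eq_sum hr.nonneg, pairMean_eq_sum (r := r ∘ σ) fun i => hr.nonneg _,
        hsum fun z => √z, hsum fun z => z]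
  obtain ⟨i1, i2, i3, i4⟩ := inv
  rw [i1, i2, i3, i4]
  rcases hv with hv | hv | hv | hv <;> rw [hv] at h4 ⊢ <;>
    simp [Fin.sum_univ_four] at h4
  · obtain rfl : b = 4 - 3 * a := by linarith
    refine ⟨0, a - 1, ?_⟩
    simp [Iv.Mem, famBox, famS, famC, famE, famRat, famCoe, famRad, sq4, cube4, quart4, pairMean,
      Fin.sum_univ_four]
    refine ⟨⟨by linarith, by linarith⟩, by ring, by ring, by ring, ?_⟩
    rw [show 1 - 3 * (a - 1) = 4 - 3 * a by ring, Real.sqrt_mul ha]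
    linear_combination (1 / 2 : ℝ) * Real.mul_self_sqrt ha
  · obtain rfl : b = 2 - a := by linarith
    refine ⟨1, |a - 1|, ?_⟩
    simp [Iv.Mem, famBox, famS, famC, famE, famRat, famCoe, famRad, sq4, cube4, quart4, pairMean,
      Fin.sum_univ_four]
    have h4 : |a - 1| ^ 4 = (a - 1) ^ 4 := by
      rw [show (4 : ℕ) = 2 * 2 from rfl, pow_mul, pow_mul, sq_abs]
    refine ⟨abs_le.2 ⟨by linarith, by linarith⟩, by ring, by ring, by rw [h4]; ring, ?_⟩
    rw [show 1 - (a - 1) ^ 2 = a * (2 - a) by ring, Real.sqrt_mul ha]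
    linear_combination (1 / 6 : ℝ) * Real.mul_self_sqrt ha + (1 / 6 : ℝ) * Real.mul_self_sqrt hb
  · obtain rfl : b = 4 - 2 * a := by linarith
    refine ⟨2, a - 1, ?_⟩
    simp [Iv.Mem, famBox, famS, famC, famE, famRat, famCoe, famRad, sq4, cube4, quart4, pairMean,
      Fin.sum_univ_four]
    refine ⟨⟨by linarith, by linarith⟩, by ring, by ring, by ring, ?_⟩
    rw [← Real.sqrt_mul (show (0 : ℝ) ≤ 2 by norm_num),
      show 2 * (1 - (a - 1) ^ 2) = a * (4 - 2 * a) by ring, Real.sqrt_mul ha]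
    linear_combination (1 / 6 : ℝ) * Real.mul_self_sqrt ha
  · obtain rfl : b = 4 - a := by linarith
    refine ⟨3, |a - 2|, ?_⟩
    simp [Iv.Mem, famBox, famS, famC, famE, famRat, famCoe, famRad, sq4, cube4, quart4, pairMean,
      Fin.sum_univ_four]
    have h4 : |a - 2| ^ 4 = (a - 2) ^ 4 := by
      rw [show (4 : ℕ) = 2 * 2 from rfl, pow_mul, pow_mul, sq_abs]
    refine ⟨abs_le.2 ⟨by linarith, by linarith⟩, by ring, by ring, by rw [h4]; ring, ?_⟩
    rw [show 4 - (a - 2) ^ 2 = a * (4 - a) by ring, Real.sqrt_mul ha]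
    ring

end KFam

end

end Vale.Agent.P154.Ferro4
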