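import Vale.Agent.P154.Ferro4.XReduce

/-!
P154, four states: a kernel check of one cell of the subadditivity certificate.

`cellOK` builds, for each pair of families, the integer polynomial that is a positive multiple of
`famPoly`, and checks a bisection tree whose leaves either certify it or certify that one of the
two values of `s` lies outside the cell.
-/

namespace Vale.Agent.P154.Ferro4

open Channel PolyCheck XReduce

namespace XCheck

/-- Polynomial expressions with rational constants. -/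
inductive RE
  | q (n : ℤ) (d : ℕ)
  | v (i : ℕ)
  | add (a b : RE)
  | sub (a b : RE)
  | mul (a b : RE)
  | pow (a : RE) (k : ℕ)

instance (k : ℕ) : OfNat RE k := ⟨.q (Int.ofNat k) 1⟩
instance : Add RE := ⟨.add⟩
instance : Sub RE := ⟨.sub⟩
instance : Mul RE := ⟨.mul⟩
instance : Neg RE := ⟨fun a => .sub (.q 0 1) a⟩
instance : Pow RE ℕ := ⟨.pow⟩

/-- A rational constant. -/
def cq (r : ℚ) : RE := .q r.num r.den

/-- The value. -/
noncomputable def RE.eval : RE → (ℕ → ℝ) → ℝ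
  | .q n d, _ => (n : ℝ) / (d : ℝ)
  | .v i, x => x i
  | .add a b, x => a.eval x + b.eval x
  | .sub a b, x => a.eval x - b.eval x
  | .mul a b, x => a.eval x * b.eval x
  | .pow a k, x => a.eval x ^ k

@[simp] theorem eval_v (i : ℕ) (x : ℕ → ℝ) : (RE.v i).eval x = x i := rfl
@[simp] theorem eval_cq (r : ℚ) (x : ℕ → ℝ) : (cq r).eval x = (r : ℝ) := by
  simp [cq, RE.eval, Rat.cast_def]
@[simp] theorem eval_ofNat (k : ℕ) (x : ℕ → ℝ) :
    (no_index (OfNat.ofNat k : RE)).eval x = (k : ℝ) := by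
  show ((Int.ofNat k : ℤ) : ℝ) / ((1 : ℕ) : ℝ) = _
  simp
@[simp] theorem eval_add (a b : RE) (x : ℕ → ℝ) : (a + b).eval x = a.eval x + b.eval x := rfl
@[simp] theorem eval_sub (a b : RE) (x : ℕ → ℝ) : (a - b).eval x = a.eval x - b.eval x := rfl
@[simp] theorem eval_mul (a b : RE) (x : ℕ → ℝ) : (a * b).eval x = a.eval x * b.eval x := rfl
@[simp] theorem eval_neg (a : RE) (x : ℕ → ℝ) : (-a).eval x = -a.eval x := by
  show ((0 : ℤ) : ℝ) / ((1 : ℕ) : ℝ) - a.eval x = _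
  simp
@[simp] theorem eval_pow (a : RE) (k : ℕ) (x : ℕ → ℝ) : (a ^ k).eval x = a.eval x ^ k := rfl

/-- An integer expression and a denominator. -/
def RE.toEx : RE → Ex × ℕ
  | .q n d => (.c n, d)
  | .v i => (.v i, 1)
  | .add a b =>
    let p := a.toEx
    let r := b.toEx
    let l := Nat.lcm p.2 r.2
    (.add (.mul (.c (Int.ofNat (l / p.2))) p.1) (.mul (.c (Int.ofNat (l / r.2))) r.1), l)
  | .sub a b =>
    let p := a.toEx
    let r := b.toEx
    let l := Nat.lcm p.2 r.2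
    (.sub (.mul (.c (Int.ofNat (l / p.2))) p.1) (.mul (.c (Int.ofNat (l / r.2))) r.1), l)
  | .mul a b => (.mul a.toEx.1 b.toEx.1, a.toEx.2 * b.toEx.2)
  | .pow a k => (.pow a.toEx.1 k, a.toEx.2 ^ k)

/-- All denominators are positive. -/
def RE.posDen : RE → Bool
  | .q _ d => Nat.blt 0 d
  | .v _ => true
  | .add a b => a.posDen && b.posDen
  | .sub a b => a.posDen && b.posDen
  | .mul a b => a.posDen && b.posDen
  | .pow a _ => a.posDen

theorem toEx_spec : ∀ (e : RE) (x : ℕ → ℝ), e.posDen = true →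
    0 < e.toEx.2 ∧ e.toEx.1.eval x = (e.toEx.2 : ℝ) * e.eval x
  | .q n d, x, h => by
    simp [RE.posDen] at h
    have : (d : ℝ) ≠ 0 := by positivity
    refine ⟨h, ?_⟩
    show (n : ℝ) = (d : ℝ) * ((n : ℝ) / (d : ℝ))
    field_simp
  | .v i, x, _ => by simp [RE.toEx, RE.eval]
  | .add a b, x, h => by
    simp only [RE.posDen, Bool.and_eq_true] at h
    obtain ⟨pa, ea⟩ := toEx_spec a x h.1
    obtain ⟨pb, eb⟩ := toEx_spec b x h.2
    refine ⟨Nat.pos_of_ne_zero (Nat.lcm_ne_zero pa.ne' pb.ne'), ?_⟩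
    have h1 : (a.toEx.2.lcm b.toEx.2 / a.toEx.2) * a.toEx.2 = a.toEx.2.lcm b.toEx.2 :=
      Nat.div_mul_cancel (Nat.dvd_lcm_left _ _)
    have h2 : (a.toEx.2.lcm b.toEx.2 / b.toEx.2) * b.toEx.2 = a.toEx.2.lcm b.toEx.2 :=
      Nat.div_mul_cancel (Nat.dvd_lcm_right _ _)
    have c1 : ((a.toEx.2.lcm b.toEx.2 / a.toEx.2 : ℕ) : ℝ) * (a.toEx.2 : ℝ) =
        (a.toEx.2.lcm b.toEx.2 : ℝ) := by exact_mod_cast h1
    have c2 : ((a.toEx.2.lcm b.toEx.2 / b.toEx.2 : ℕ) : ℝ) * (b.toEx.2 : ℝ) =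
        (a.toEx.2.lcm b.toEx.2 : ℝ) := by exact_mod_cast h2
    simp only [RE.toEx, Ex.eval, RE.eval, Int.ofNat_eq_natCast, Int.cast_natCast, ea, eb]
    linear_combination a.eval x * c1 + b.eval x * c2
  | .sub a b, x, h => by
    simp only [RE.posDen, Bool.and_eq_true] at h
    obtain ⟨pa, ea⟩ := toEx_spec a x h.1
    obtain ⟨pb, eb⟩ := toEx_spec b x h.2
    refine ⟨Nat.pos_of_ne_zero (Nat.lcm_ne_zero pa.ne' pb.ne'), ?_⟩
    have h1 : (a.toEx.2.lcm b.toEx.2 / a.toEx.2) * a.toEx.2 = a.toEx.2.lcm b.toEx.2 :=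
      Nat.div_mul_cancel (Nat.dvd_lcm_left _ _)
    have h2 : (a.toEx.2.lcm b.toEx.2 / b.toEx.2) * b.toEx.2 = a.toEx.2.lcm b.toEx.2 :=
      Nat.div_mul_cancel (Nat.dvd_lcm_right _ _)
    have c1 : ((a.toEx.2.lcm b.toEx.2 / a.toEx.2 : ℕ) : ℝ) * (a.toEx.2 : ℝ) =
        (a.toEx.2.lcm b.toEx.2 : ℝ) := by exact_mod_cast h1
    have c2 : ((a.toEx.2.lcm b.toEx.2 / b.toEx.2 : ℕ) : ℝ) * (b.toEx.2 : ℝ) =
        (a.toEx.2.lcm b.toEx.2 : ℝ) := by exact_mod_cast h2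
    simp only [RE.toEx, Ex.eval, RE.eval, Int.ofNat_eq_natCast, Int.cast_natCast, ea, eb]
    linear_combination a.eval x * c1 - b.eval x * c2
  | .mul a b, x, h => by
    simp only [RE.posDen, Bool.and_eq_true] at h
    obtain ⟨pa, ea⟩ := toEx_spec a x h.1
    obtain ⟨pb, eb⟩ := toEx_spec b x h.2
    refine ⟨Nat.mul_pos pa pb, ?_⟩
    simp only [RE.toEx, Ex.eval, RE.eval, ea, eb, Nat.cast_mul]
    ring
  | .pow a k, x, h => by
    simp only [RE.posDen] at h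
    obtain ⟨pa, ea⟩ := toEx_spec a x h
    refine ⟨Nat.pow_pos pa, ?_⟩
    simp only [RE.toEx, Ex.eval, RE.eval, ea, Nat.cast_pow, mul_pow]

/-- The checked integer expression. -/
def RE.ex (e : RE) : Ex := bif e.posDen then e.toEx.1 else .c (-1)

theorem ex_sound {e : RE} {x : ℕ → ℝ} (h : 0 ≤ e.ex.eval x) : 0 ≤ e.eval x := by
  unfold RE.ex at h
  cases hp : e.posDen with
  | false => rw [hp] at h; simp at h; linarith
  | true =>
    rw [hp, cond_true] at h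
    obtain ⟨hd, he⟩ := toEx_spec e x hp
    rw [he] at h
    exact (mul_nonneg_iff_of_pos_left (by exact_mod_cast hd)).1 h

/-- `famS`. -/
def rS (i : Fin 4) (x : RE) : RE :=
  ![x ^ 2, cq (1 / 3) * x ^ 2, cq (1 / 6) * (3 * x ^ 2 - 2 * x + 1), cq (1 / 6) * (x ^ 2 + 2)] i

/-- `famC`. -/
def rC (i : Fin 4) (x : RE) : RE :=
  ![-(x ^ 3), 0, cq (-1 / 4) * (x * (1 - x) ^ 2), cq (1 / 4) * x ^ 2] i

/-- `famE`. -/
def rE (i : Fin 4) (x : RE) : RE :=
  ![x ^ 4, cq (1 / 21) * x ^ 4,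
    cq (1 / 42) * (9 * x ^ 4 - 16 * x ^ 3 + 12 * x ^ 2 - 4 * x + 1),
    cq (1 / 42) * (x ^ 4 + 6 * x ^ 2 + 2)] i

/-- `famN`. -/
def rN (i : Fin 4) (x : RE) : RE :=
  ![(1 + x) * (1 - 2 * x), 3 * (1 - x ^ 2), 3 * (1 - x ^ 2), 0] i

/-- `famD`. -/
def rD (i : Fin 4) (x : RE) : RE := ![1 - x, 3 - x ^ 2, 5 - 3 * x, 1] i

/-- `xPsi`. -/
def rPsi (psi : Fin 7 → ℚ) (t d f : RE) : RE :=
  cq (psi 0) * t + cq (psi 1) * t ^ 2 + cq (psi 2) * t ^ 3 + cq (psi 3) * d +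
    cq (psi 4) * (t * d) + cq (psi 5) * f + cq (psi 6) * t ^ 4

/-- `invBound`. -/
def rInv (p : Fin 4 → ℚ) (s c e t d f : RE) : RE :=
  cq (p 0) * ((1 - s) * (1 - t)) + cq (p 1) * (4 * (s - c) * (t - d)) +
    cq (p 2) * (3 * s * t - 3 * s * t ^ 2 - 3 * s ^ 2 * t + 8 * c * d - 14 * c * f - 14 * e * d +
      6 * c * t ^ 2 + 6 * s ^ 2 * d + 98 * e * f - 84 * e * t ^ 2 - 84 * s ^ 2 * f +
      81 * s ^ 2 * t ^ 2) +
    cq (p 3) * (6 * c * d - 6 * c * (t * d) - 6 * (s * c) * d + cq (245 / 2) * e * f -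
      cq (189 / 2) * (e * t ^ 2 + s ^ 2 * f) - 28 * (e * (t * d) + s * c * f) +
      cq (189 / 2) * s ^ 2 * t ^ 2 + 34 * (s * c) * (t * d))

/-- `pairPolyMean`. -/
def rMean (k : Fin 12 → ℚ) (s c e : RE) : RE :=
  cq (k 0) + cq (6 * k 3 - k 2) * s + cq (12 * k 4 - 4 * k 5) * c +
    cq (42 * k 6 - 14 * k 7 - 7 * k 8) * e + cq (12 * k 8) * s ^ 2 +
    cq (120 * k 9 - 40 * k 10 + 8 * k 11) * (s * c)

/-- `famPoly`. -/
def rPoly (g eps : ℚ) (psi : Fin 7 → ℚ) (k k' : Fin 12 → ℚ) (p : Fin 4 → ℚ) (i j : Fin 4)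
    (x y : RE) : RE :=
  rD i x * rD j y * (rS i x + rS j y - 1 +
      rInv p (rS i x) (rC i x) (rE i x) (rS j y) (rC j y) (rE j y) -
      cq eps * (rS i x ^ 2 * rS j y + rS i x * rS j y ^ 2)) -
    rD j y * rPsi psi (rS j y) (rC j y) (rE j y) *
      (rD i x * (rS i x - cq (1 - g) +
        cq (1 - 2 * g) * rMean k (rS i x) (rC i x) (rE i x)) + cq g * rN i x) -
    rD i x * rPsi psi (rS i x) (rC i x) (rE i x) *
      (rD j y * (rS j y - cq (1 - g) +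
        cq (1 - 2 * g) * rMean k' (rS j y) (rC j y) (rE j y)) + cq g * rN j y)

theorem eval_fam (i : Fin 4) (a : RE) (x : ℕ → ℝ) :
    (rS i a).eval x = famS i (a.eval x) ∧ (rC i a).eval x = famC i (a.eval x) ∧
      (rE i a).eval x = famE i (a.eval x) ∧ (rN i a).eval x = famN i (a.eval x) ∧
      (rD i a).eval x = famD i (a.eval x) := by
  fin_cases i <;>
    simp [rS, rC, rE, rN, rD, famS, famC, famE, famN, famD, div_eq_inv_mul]

theorem eval_rPoly (g eps : ℚ) (psi : Fin 7 → ℚ) (k k' : Fin 12 → ℚ) (p : Fin 4 → ℚ)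
    (i j : Fin 4) (x : ℕ → ℝ) :
    (rPoly g eps psi k k' p i j (.v 0) (.v 1)).eval x =
      famPoly g eps (fun n => psi n) (fun n => k n) (fun n => k' n) (fun n => p n) i j
        (x 0) (x 1) := by
  obtain ⟨a1, a2, a3, a4, a5⟩ := eval_fam i (.v 0) x
  obtain ⟨b1, b2, b3, b4, b5⟩ := eval_fam j (.v 1) x
  simp only [eval_v] at a1 a2 a3 a4 a5 b1 b2 b3 b4 b5
  simp only [rPoly, rInv, rPsi, rMean, famPoly, invBound, mom0, mom1, mom2, mom3, xPsi,
    pairPolyMean, eval_add, eval_sub, eval_mul, eval_pow, eval_cq, eval_ofNat, a1, a2, a3, a4, a5,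
    b1, b2, b3, b4, b5]
  push_cast
  ring

/-- The alternatives at a leaf: the polynomial, or `s` or `t` outside the cell. -/
def cellAlts (g eps : ℚ) (psi : Fin 7 → ℚ) (k k' : Fin 12 → ℚ) (p : Fin 4 → ℚ)
    (l h l' h' : ℚ) (i j : Fin 4) : List (List Ex) :=
  [[(rPoly g eps psi k k' p i j (.v 0) (.v 1)).ex],
    [(1000000000 * (rS i (.v 0) - cq h) - 1).ex],
    [(1000000000 * (cq l - rS i (.v 0)) - 1).ex],
    [(1000000000 * (rS j (.v 1) - cq h') - 1).ex],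
    [(1000000000 * (cq l' - rS j (.v 1)) - 1).ex]]

/-- The sixteen checks of a cell; `T i j` is the tree of the families `i`, `j`. -/
def cellOK (g eps : ℚ) (psi : Fin 7 → ℚ) (k k' : Fin 12 → ℚ) (p : Fin 4 → ℚ)
    (l h l' h' : ℚ) (T : Fin 4 → Fin 4 → ACut) : Bool :=
  let one := fun i j => checkAlt 2 (cellAlts g eps psi k k' p l h l' h' i j) (T i j)
    [famBox i, famBox j]
  one 0 0 && one 0 1 && one 0 2 && one 0 3 && one 1 0 && one 1 1 && one 1 2 && one 1 3 &&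
    one 2 0 && one 2 1 && one 2 2 && one 2 3 && one 3 0 && one 3 1 && one 3 2 && one 3 3

theorem alts_sound {g eps : ℚ} {psi : Fin 7 → ℚ} {k k' : Fin 12 → ℚ} {p : Fin 4 → ℚ}
    {l h l' h' : ℚ} {i j : Fin 4} {T : ACut}
    (hc : checkAlt 2 (cellAlts g eps psi k k' p l h l' h' i j) T [famBox i, famBox j] = true)
    {x y : ℝ} (hx : (famBox i).Mem x) (hy : (famBox j).Mem y)
    (hs : famS i x ∈ Set.Icc (l : ℝ) (h : ℝ)) (ht : famS j y ∈ Set.Icc (l' : ℝ) (h' : ℝ)) :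
    0 ≤ famPoly g eps (fun n => psi n) (fun n => k n) (fun n => k' n) (fun n => p n) i j x y := by
  obtain ⟨es, hes, hpos⟩ := checkAlt_sound 2 _ T [famBox i, famBox j] (pt [x, y]) hc
    ⟨by simpa [pt] using hx, by simpa [pt] using hy, trivial⟩
  simp only [cellAlts, List.mem_cons, List.not_mem_nil, or_false] at hes
  have e0 : pt [x, y] 0 = x := by simp [pt]
  have e1 : pt [x, y] 1 = y := by simp [pt]
  have sx : (rS i (.v 0)).eval (pt [x, y]) = famS i x := by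
    rw [(eval_fam i _ _).1, eval_v, e0]
  have sy : (rS j (.v 1)).eval (pt [x, y]) = famS j y := by
    rw [(eval_fam j _ _).1, eval_v, e1]
  rcases hes with rfl | rfl | rfl | rfl | rfl <;>
    have hh := ex_sound (hpos _ (List.mem_singleton.2 rfl))
  · rw [eval_rPoly, e0, e1] at hh; exact hh
  all_goals
    simp only [eval_sub, eval_mul, eval_cq, eval_ofNat, sx, sy] at hh
    push_cast at hh
    linarith [hs.1, hs.2, ht.1, ht.2]

/-- A checked cell gives a nonnegative slack. -/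
theorem xSlack_of_cellOK {g eps : ℚ} {psi : Fin 7 → ℚ} {k k' : Fin 12 → ℚ} {p : Fin 4 → ℚ}
    {l h l' h' : ℚ} {T : Fin 4 → Fin 4 → ACut}
    (hc : cellOK g eps psi k k' p l h l' h' T = true)
    {r r' : Fin 4 → ℝ} (hr : IsPost4 r) (hr' : IsPost4 r')
    (hs : sq4 r ∈ Set.Icc (l : ℝ) (h : ℝ)) (ht : sq4 r' ∈ Set.Icc (l' : ℝ) (h' : ℝ)) :
    0 ≤ xSlack g eps (fun n => psi n) (fun n => k n) (fun n => k' n) (fun n => p n)
      (sq4 r) (cube4 r) (quart4 r) (sq4 r') (cube4 r') (quart4 r') := by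
  refine xSlack_of_poly (fun i j x y hx hy hsx hty => alts_sound (T := T i j) ?_ hx hy hsx hty)
    hr hr' hs ht
  simp only [cellOK, Bool.and_eq_true] at hc
  obtain ⟨⟨⟨⟨⟨⟨⟨⟨⟨⟨⟨⟨⟨⟨⟨h00, h01⟩, h02⟩, h03⟩, h10⟩, h11⟩, h12⟩, h13⟩, h20⟩, h21⟩, h22⟩, h23⟩,
    h30⟩, h31⟩, h32⟩, h33⟩ := hc
  fin_cases i <;> fin_cases j <;> assumption

end XCheck

end Vale.Agent.P154.Ferro4
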