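import Vale.Agent.P154.Cert.DenseCheck
import Vale.Agent.P154.Ferro4.KFam
import Vale.Agent.P154.Ferro4.XCheck

/-!
P154, four states: a kernel check of the closure slack on one pair of families.
-/

namespace Vale.Agent.P154.Ferro4

open Channel PolyCheck XReduce XCheck KFam

namespace KCheck

/-- An affine function given by its two coefficients, for each of the three parameters. -/
def rAff (k : Fin 3 → Fin 2 → ℚ) (s : RE) (n : Fin 3) : RE := cq (k n 0) + cq (k n 1) * s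

/-- Real counterpart of `rAff`. -/
noncomputable def kAff (k : Fin 3 → Fin 2 → ℚ) (s : ℝ) (n : Fin 3) : ℝ := k n 0 + k n 1 * s

/-- The multiplier. -/
noncomputable def kPhi (a : Fin 5 → ℚ) (t : ℝ) : ℝ :=
  a 0 + a 1 * t + a 2 * t ^ 2 + a 3 * t ^ 3 + a 4 * t ^ 4

/-- `kPhi`. -/
def rPhi (a : Fin 5 → ℚ) (t : RE) : RE :=
  cq (a 0) + cq (a 1) * t + cq (a 2) * t ^ 2 + cq (a 3) * t ^ 3 + cq (a 4) * t ^ 4

/-- The test vector. -/
noncomputable def kQ (th : Fin 8 → ℚ) (s t : ℝ) : Fin 6 → ℝ :=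
  ![1 + th 0 * t, th 1, 1 + th 2 * s, th 3, th 4, th 5]

/-- `kQ`. -/
def rQv (th : Fin 8 → ℚ) (s t : RE) : Fin 6 → RE :=
  ![1 + cq (th 0) * t, cq (th 1), 1 + cq (th 2) * s, cq (th 3), cq (th 4), cq (th 5)]

/-- A lower bound of the root in `T`. -/
noncomputable def kRoot (σ : Fin 3 → ℚ) (x : ℝ) : ℝ := σ 0 + σ 1 * x + σ 2 * x ^ 2

/-- The value used for `T`. -/
noncomputable def kLow (σ : Fin 3 → ℚ) (i : Fin 4) (x : ℝ) : ℝ :=
  famRat i x + famCoe i * kRoot σ x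

/-- `kLow`. -/
def rLow (σ : Fin 3 → ℚ) (i : Fin 4) (x : RE) : RE :=
  ![cq (1 / 2) * (1 + x), cq (1 / 3), cq (1 / 6) * (1 + x), 0] i +
    ![cq (1 / 2), cq (2 / 3), cq (1 / 3), cq (1 / 6)] i * (cq (σ 0) + cq (σ 1) * x + cq (σ 2) * x ^ 2)

/-- `famQ`. -/
def rFQ (i : Fin 4) (x : RE) : RE :=
  ![(1 + x) ^ 2 * (1 - 3 * x), 3 * (1 - x ^ 2) ^ 2, 0, 0] i

/-- `famQ2`. -/
def rFQ2 (i : Fin 4) (x : RE) : RE :=
  ![(1 + x) * (1 - 3 * x), 9 * (1 - x ^ 2) ^ 2, 0, 0] i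

/-- `e4Inv`. -/
def rE4 (s c e : RE) : RE := 1 - 6 * s + 8 * c + 18 * s ^ 2 - 21 * e

/-- `ratN` at one and two. -/
def rN1 (s c e : RE) : RE := 4 * (rE4 s c e - (1 - 3 * s + 2 * c))

/-- `ratY` at two. -/
def rY2 (s c e : RE) : RE :=
  6 * (1 - s) * (4 * (1 - 3 * s + 2 * c - rE4 s c e)) - rE4 s c e * (36 * s - 24 * c)

/-- `sqForm`. -/
def rSqForm (q : Fin 6 → RE) (U V : RE) (W A B C : ℕ → RE) : RE :=
  2 * q 0 * (U * W 0 + 4 * W 1 + A 0) + 2 * q 1 * (U * W 1 + 4 * W 2 + A 1) +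
  2 * q 2 * (4 * W 1 + V * W 0 + B 0) + 2 * q 3 * (4 * W 2 + V * W 1 + B 1) +
  2 * q 4 * (A 0 + B 0 + C 0 - 4 * W 2) + 2 * q 5 * (A 1 + B 1 + C 1 - 4 * W 3) -
  q 0 ^ 2 * U * (W 0 + W 1) - 2 * q 0 * q 1 * U * (W 1 + W 2) - q 1 ^ 2 * U * (W 2 + W 3) -
  q 2 ^ 2 * V * (W 0 + W 1) - 2 * q 2 * q 3 * V * (W 1 + W 2) - q 3 ^ 2 * V * (W 2 + W 3) -
  q 4 ^ 2 * (C 0 + C 1 - 4 * W 2 - 4 * W 3) -
  2 * q 4 * q 5 * (C 1 + C 2 - 4 * W 3 - 4 * W 4) -
  q 5 ^ 2 * (C 2 + C 3 - 4 * W 4 - 4 * W 5) -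
  8 * q 0 * q 2 * (W 1 + W 2) - 8 * (q 0 * q 3 + q 1 * q 2) * (W 2 + W 3) -
  8 * q 1 * q 3 * (W 3 + W 4) -
  2 * q 0 * q 4 * (A 0 + A 1) - 2 * (q 0 * q 5 + q 1 * q 4) * (A 1 + A 2) -
  2 * q 1 * q 5 * (A 2 + A 3) -
  2 * q 2 * q 4 * (B 0 + B 1) - 2 * (q 2 * q 5 + q 3 * q 4) * (B 1 + B 2) -
  2 * q 3 * q 5 * (B 2 + B 3)

/-- `momW`. -/
def rMomW (s c e t d f : RE) : ℕ → RE
  | 0 => 1
  | 1 => 0
  | 2 => 3 * s * t
  | 3 => 6 * c * d
  | 4 => cq (735 / 8) * e * f - cq (567 / 8) * e * t ^ 2 - cq (567 / 8) * s ^ 2 * f + cq (567 / 8) * s ^ 2 * t ^ 2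
  | 5 => 60 * (s * c) * (t * d)
  | _ => 0

/-- `momA`. -/
def rMomA (s c e t d f : RE) : ℕ → RE
  | 1 => 24 * c * t
  | 2 => 84 * e * d - 36 * s ^ 2 * d
  | 3 => 168 * (s * c) * f
  | _ => 0

/-- `momB`. -/
def rMomB (s c e t d f : RE) : ℕ → RE
  | 1 => 24 * s * d
  | 2 => 84 * c * f - 36 * c * t ^ 2
  | 3 => 168 * e * (t * d)
  | _ => 0

/-- `momC`. -/
def rMomC (s c e t d f : RE) : ℕ → RE
  | 0 => 36 * s * t
  | 1 => 48 * c * d
  | 2 => 294 * e * f - 126 * e * t ^ 2 - 126 * s ^ 2 * f + 162 * s ^ 2 * t ^ 2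
  | 3 => 552 * (s * c) * (t * d)
  | _ => 0


/-- `sqBound`. -/
def rSq (q : Fin 6 → RE) (s c e t d f : RE) : RE :=
  cq (1 / 12) * rSqForm q (12 * s) (12 * t) (rMomW s c e t d f) (rMomA s c e t d f)
    (rMomB s c e t d f) (rMomC s c e t d f)

/-- `ratPart`. -/
def rRat (p r : ℚ) (A B N n Q q Q2 q2 s c e t d f : RE) : RE :=
  cq (1 / 4) * (2 * (1 + cq p * (s * t)) * (4 * (N * n)) * (A * B) +
    cq (r / 2) * (rN1 s c e * rN1 t d f) * (A ^ 2 * B ^ 2) -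
    cq (1 / 6) * (1 + cq p * (s * t)) ^ 2 * (cq (1 / 12) * (144 * (Q2 * q2) +
      (24 * (N * A) - 12 * Q2) * (24 * (n * B) - 12 * q2))) -
    cq (r / 3) * (1 + cq p * (s * t)) * (cq (1 / 12) * ((Q * q * (144 * (s * t)) +
      (6 * rN1 s c e * A + 12 * (s * Q)) * (6 * rN1 t d f * B + 12 * (t * q))) *
        (A * B))) -
    cq (r ^ 2 / 72) * (rE4 s c e * rE4 t d f * (36 * s - 24 * c) * (36 * t - 24 * d) +
      rY2 s c e * rY2 t d f) * (A ^ 2 * B ^ 2))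

/-- `famU`. -/
def rU (g : ℚ) (L : RE) (i : Fin 4) (x : RE) : RE :=
  rD i x * (rS i x - cq (1 - g) + cq (1 - 2 * g) * L) + cq g * rN i x

/-- `kCorner`. -/
def rCorner (C E s c e : RE) : RE := (C - c) * (E - rE4 s c e)

/-- `kFamPoly` with the parameters of a cell. -/
def rPoly2 (g ν : ℚ) (a : Fin 5 → ℚ) (th : Fin 8 → ℚ) (k k' : Fin 3 → Fin 2 → ℚ)
    (σ σ' : Fin 3 → ℚ) (i j : Fin 4) (x y : RE) : RE :=
  let s := rS i x; let c := rC i x; let e := rE i x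
  let t := rS j y; let d := rC j y; let f := rE j y
  let L := rLow σ i x; let L' := rLow σ' j y
  (rSq (rQv th s t) s c e t d f - cq (1 - g) + cq (1 - 2 * g) * (L * L') -
      cq (g / 12 * th 7 ^ 2) * (rAff k' t 0 * rCorner (rAff k s 1) (rAff k s 2) s c e +
        rAff k s 0 * rCorner (rAff k' t 1) (rAff k' t 2) t d f)) *
      (rD i x ^ 2 * rD j y ^ 2) +
    cq g * rRat (th 6) (th 7) (rD i x) (rD j y) (rN i x) (rN j y) (rFQ i x) (rFQ j y)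
      (rFQ2 i x) (rFQ2 j y) s c e t d f -
    rPhi a t * rU g L i x * (rD i x * rD j y ^ 2) -
    rPhi a s * rU g L' j y * (rD i x ^ 2 * rD j y) -
    cq ν * (rU g L i x * rU g L' j y) * (rD i x * rD j y)

theorem eval_one (x : ℕ → ℝ) : (no_index (1 : RE)).eval x = 1 := by
  rw [XCheck.eval_ofNat]; norm_num

theorem eval_low (σ : Fin 3 → ℚ) (i : Fin 4) (a : RE) (x : ℕ → ℝ) :
    (rLow σ i a).eval x = kLow σ i (a.eval x) := by
  fin_cases i <;> simp [rLow, kLow, kRoot, famRat, famCoe, div_eq_inv_mul]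

theorem eval_fq (i : Fin 4) (a : RE) (x : ℕ → ℝ) :
    (rFQ i a).eval x = famQ i (a.eval x) ∧ (rFQ2 i a).eval x = famQ2 i (a.eval x) := by
  fin_cases i <;> simp [rFQ, rFQ2, famQ, famQ2]

theorem eval_phi (a : Fin 5 → ℚ) (t : RE) (x : ℕ → ℝ) :
    (rPhi a t).eval x = kPhi a (t.eval x) := by
  simp [rPhi, kPhi]

theorem eval_aff (k : Fin 3 → Fin 2 → ℚ) (s : RE) (n : Fin 3) (x : ℕ → ℝ) :
    (rAff k s n).eval x = kAff k (s.eval x) n := by
  simp [rAff, kAff]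

theorem eval_qv (th : Fin 8 → ℚ) (s t : RE) (x : ℕ → ℝ) (n : Fin 6) :
    (rQv th s t n).eval x = kQ th (s.eval x) (t.eval x) n := by
  fin_cases n <;> simp [rQv, kQ]

theorem eval_e4 (s c e : RE) (x : ℕ → ℝ) :
    (rE4 s c e).eval x = e4Inv (s.eval x) (c.eval x) (e.eval x) := by
  simp [rE4, e4Inv]

theorem eval_n1 (s c e : RE) (x : ℕ → ℝ) :
    (rN1 s c e).eval x = ratN (s.eval x) (c.eval x) (e.eval x) 1 ∧
      (rY2 s c e).eval x = ratY (s.eval x) (c.eval x) (e.eval x) 2 := by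
  simp [rN1, rY2, eval_e4, ratN, ratY, ratA, e4Inv]

theorem eval_mom (s c e t d f : RE) (x : ℕ → ℝ) (n : ℕ) :
    (rMomW s c e t d f n).eval x = momW (s.eval x) (c.eval x) (e.eval x) (t.eval x) (d.eval x)
        (f.eval x) n ∧
      (rMomA s c e t d f n).eval x = momA (s.eval x) (c.eval x) (e.eval x) (t.eval x) (d.eval x)
        (f.eval x) n ∧
      (rMomB s c e t d f n).eval x = momB (s.eval x) (c.eval x) (e.eval x) (t.eval x) (d.eval x)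
        (f.eval x) n ∧
      (rMomC s c e t d f n).eval x = momC (s.eval x) (c.eval x) (e.eval x) (t.eval x) (d.eval x)
        (f.eval x) n := by
  rcases n with _ | _ | _ | _ | _ | _ | n <;>
    simp [rMomW, rMomA, rMomB, rMomC, momW, momA, momB, momC]

theorem eval_sqForm (q : Fin 6 → RE) (U V : RE) (W A B C : ℕ → RE) (x : ℕ → ℝ) :
    (rSqForm q U V W A B C).eval x = sqForm (fun n => (q n).eval x) (U.eval x) (V.eval x)
      (fun n => (W n).eval x) (fun n => (A n).eval x) (fun n => (B n).eval x)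
      (fun n => (C n).eval x) := by
  simp [rSqForm, sqForm]

theorem eval_sq (th : Fin 8 → ℚ) (s c e t d f : RE) (x : ℕ → ℝ) :
    (rSq (rQv th s t) s c e t d f).eval x =
      sqBound (kQ th (s.eval x) (t.eval x)) (s.eval x) (c.eval x) (e.eval x) (t.eval x)
        (d.eval x) (f.eval x) := by
  have hm := eval_mom s c e t d f x
  simp only [rSq, XCheck.eval_mul, eval_cq, eval_sqForm, eval_qv, XCheck.eval_ofNat,
    fun n => (hm n).1, fun n => (hm n).2.1, fun n => (hm n).2.2.1, fun n => (hm n).2.2.2, sqBound]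
  push_cast
  ring

theorem eval_rat (p r : ℚ) (A B N n Q q Q2 q2 s c e t d f : RE) (x : ℕ → ℝ) :
    (rRat p r A B N n Q q Q2 q2 s c e t d f).eval x =
      ratPart p r (A.eval x) (B.eval x) (N.eval x) (n.eval x) (Q.eval x) (q.eval x) (Q2.eval x)
        (q2.eval x) (s.eval x) (c.eval x) (e.eval x) (t.eval x) (d.eval x) (f.eval x) := by
  simp only [rRat, ratPart, ratE22, XCheck.eval_add, XCheck.eval_sub, XCheck.eval_mul,
    XCheck.eval_pow, eval_cq, XCheck.eval_ofNat, eval_e4, (eval_n1 _ _ _ _).1,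
    (eval_n1 _ _ _ _).2]
  simp [ratA]
  ring

theorem eval_rPoly2 (g ν : ℚ) (a : Fin 5 → ℚ) (th : Fin 8 → ℚ) (k k' : Fin 3 → Fin 2 → ℚ)
    (σ σ' : Fin 3 → ℚ) (i j : Fin 4) (u v : RE) (x : ℕ → ℝ) :
    (rPoly2 g ν a th k k' σ σ' i j u v).eval x =
      kFamPoly g ν (kPhi a) (kQ th (famS i (u.eval x)) (famS j (v.eval x))) (th 6) (th 7)
        (kAff k (famS i (u.eval x))) (kAff k' (famS j (v.eval x))) i j (u.eval x) (v.eval x)
        (kLow σ i (u.eval x)) (kLow σ' j (v.eval x)) := by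
  obtain ⟨a1, a2, a3, a4, a5⟩ := eval_fam i u x
  obtain ⟨b1, b2, b3, b4, b5⟩ := eval_fam j v x
  simp only [rPoly2, kFamPoly, rU, famU, rCorner, kCorner, XCheck.eval_add, XCheck.eval_sub,
    XCheck.eval_mul, XCheck.eval_pow, eval_cq, eval_sq, eval_rat, eval_phi, eval_aff, eval_e4,
    eval_low, (eval_fq _ _ _).1, (eval_fq _ _ _).2, a1, a2, a3, a4, a5, b1, b2, b3, b4, b5]
  push_cast
  ring

/-- The alternatives on a box: the polynomial, or `s` or `t` outside the cell. -/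
def kAlts (g ν : ℚ) (a : Fin 5 → ℚ) (th : Fin 8 → ℚ) (k k' : Fin 3 → Fin 2 → ℚ)
    (σ σ' : Fin 3 → ℚ) (l h l' h' : ℚ) (i j : Fin 4) : List Ex :=
  [(rPoly2 g ν a th k k' σ σ' i j (.v 0) (.v 1)).ex,
    (1000000000 * (rS i (.v 0) - cq h) - 1).ex,
    (1000000000 * (cq l - rS i (.v 0)) - 1).ex,
    (1000000000 * (rS j (.v 1) - cq h') - 1).ex,
    (1000000000 * (cq l' - rS j (.v 1)) - 1).ex]

/-- The check of a pair of family parts of a cell. -/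
def kPartOK (g ν : ℚ) (a : Fin 5 → ℚ) (th : Fin 8 → ℚ) (k k' : Fin 3 → Fin 2 → ℚ)
    (σ σ' : Fin 3 → ℚ) (l h l' h' : ℚ) (i j : Fin 4) (B B' : Iv) (T : ACut) : Bool :=
  checkDense (kAlts g ν a th k k' σ σ' l h l' h' i j) T [B, B']

theorem kTau_mono {g ν : ℝ} {φ : ℝ → ℝ} (hg : 2 * g ≤ 1) (hν : ν * (1 - 2 * g) ≤ 1)
    {t d T T' : ℝ} (h : T ≤ T') : kTau g ν φ t d T ≤ kTau g ν φ t d T' := by
  have : 0 ≤ (1 - 2 * g) * (1 - ν * (1 - 2 * g)) * (T' - T) :=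
    mul_nonneg (mul_nonneg (by linarith) (by linarith)) (by linarith)
  simp only [kTau, classInv]
  linarith

theorem part_sound {g ν : ℚ} {a : Fin 5 → ℚ} {th : Fin 8 → ℚ} {k k' : Fin 3 → Fin 2 → ℚ}
    {σ σ' : Fin 3 → ℚ} {l h l' h' : ℚ} {i j : Fin 4} {B B' : Iv} {T : ACut}
    (hc : kPartOK g ν a th k k' σ σ' l h l' h' i j B B' T = true)
    {x y : ℝ} (hx : B.Mem x) (hy : B'.Mem y)
    (hs : famS i x ∈ Set.Icc (l : ℝ) (h : ℝ)) (ht : famS j y ∈ Set.Icc (l' : ℝ) (h' : ℝ)) :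
    0 ≤ kFamPoly g ν (kPhi a) (kQ th (famS i x) (famS j y)) (th 6) (th 7)
        (kAff k (famS i x)) (kAff k' (famS j y)) i j x y (kLow σ i x) (kLow σ' j y) := by
  obtain ⟨e, he, hpos⟩ := checkDense_sound _ T [B, B'] (pt [x, y]) hc
    ⟨by simpa [pt] using hx, by simpa [pt] using hy, trivial⟩
  simp only [kAlts, List.mem_cons, List.not_mem_nil, or_false] at he
  have e0 : pt [x, y] 0 = x := by simp [pt]
  have e1 : pt [x, y] 1 = y := by simp [pt]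
  have sx : (rS i (.v 0)).eval (pt [x, y]) = famS i x := by
    rw [(eval_fam i _ _).1, XCheck.eval_v, e0]
  have sy : (rS j (.v 1)).eval (pt [x, y]) = famS j y := by
    rw [(eval_fam j _ _).1, XCheck.eval_v, e1]
  rcases he with rfl | rfl | rfl | rfl | rfl <;> have hh := ex_sound hpos
  · rw [eval_rPoly2, XCheck.eval_v, XCheck.eval_v, e0, e1] at hh; exact hh
  all_goals
    simp only [XCheck.eval_sub, XCheck.eval_mul, eval_cq, XCheck.eval_ofNat, sx, sy] at hh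
    push_cast at hh
    linarith [hs.1, hs.2, ht.1, ht.2]

/-- A checked part bounds the penalised slack at two-level points with `T` at least the minorant,
where the coefficient of `T` is nonnegative. -/
theorem kSlackPen_of_part {g ν : ℚ} {a : Fin 5 → ℚ} {th : Fin 8 → ℚ}
    {k k' : Fin 3 → Fin 2 → ℚ} {σ σ' : Fin 3 → ℚ} {l h l' h' : ℚ} {i j : Fin 4} {B B' : Iv}
    {A : ACut} (hc : kPartOK g ν a th k k' σ σ' l h l' h' i j B B' A = true)
    (hg : 2 * (g : ℝ) ≤ 1) (hν : (ν : ℝ) * (1 - 2 * g) ≤ 1)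
    {x y : ℝ} (hx : (famBox i).Mem x) (hy : (famBox j).Mem y) (hxB : B.Mem x) (hyB : B'.Mem y)
    (hs : famS i x ∈ Set.Icc (l : ℝ) (h : ℝ)) (ht : famS j y ∈ Set.Icc (l' : ℝ) (h' : ℝ))
    (hs1 : famS i x < 1) (ht1 : famS j y < 1) {T T' : ℝ}
    (hT : kLow σ i x ≤ T) (hT' : kLow σ' j y ≤ T')
    (hτ : 0 ≤ kTau g ν (kPhi a) (famS i x) (famC i x) (kLow σ i x))
    (hτ' : 0 ≤ kTau g ν (kPhi a) (famS j y) (famC j y) (kLow σ' j y)) :
    0 ≤ kSlackPen g ν (kPhi a) (kQ th (famS i x) (famS j y))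
        ![kL0 (th 6) (famS i x) (famS j y), th 7] (kAff k (famS i x)) (kAff k' (famS j y))
        (famS i x) (famC i x) (famE i x) T (famS j y) (famC j y) (famE j y) T' :=
  kSlackPen_fam_nonneg hx hy (sub_ne_zero.2 (ne_of_gt hs1)) (sub_ne_zero.2 (ne_of_gt ht1)) hT hT'
    hτ (hτ'.trans (kTau_mono hg hν hT')) (part_sound hc hxB hyB hs ht)

end KCheck

end Vale.Agent.P154.Ferro4
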