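import Vale.Agent.P154.Ferro4.KCells.Part0
import Vale.Agent.P154.Ferro4.KCells.Part1
import Vale.Agent.P154.Ferro4.KCells.Part2
import Vale.Agent.P154.Ferro4.KCells.Part3
import Vale.Agent.P154.Ferro4.KCells.Part4
import Vale.Agent.P154.Ferro4.KCells.Part5
import Vale.Agent.P154.Ferro4.KCells.Part6
import Vale.Agent.P154.Ferro4.KCells.Part7
import Vale.Agent.P154.Ferro4.KCells.Part8
import Vale.Agent.P154.Ferro4.KCells.Part9
import Vale.Agent.P154.Ferro4.KCells.Part10
import Vale.Agent.P154.Ferro4.KCells.Part11
import Vale.Agent.P154.Ferro4.KCells.Part12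
import Vale.Agent.P154.Ferro4.KCells.Part13

/-!
P154, four states: the checked cells cover all pairs of intervals, hence the pointwise closure
inequality holds.
-/

namespace Vale.Agent.P154.Ferro4

open Channel PolyCheck KCheck KAssembly

theorem kRow_0 : ∀ J : Fin 14, (0 : Fin 14) ≤ J → kCellOK 0 J (fun _ _ => .leaf 0) = true := by
  intro J hJ
  fin_cases J
  · exact kCell_0_0
  · exact kCell_0_1
  · exact kCell_0_2
  · exact kCell_0_3
  · exact kCell_0_4
  · exact kCell_0_5
  · exact kCell_0_6
  · exact kCell_0_7
  · exact kCell_0_8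
  · exact kCell_0_9
  · exact kCell_0_10
  · exact kCell_0_11
  · exact kCell_0_12
  · exact kCell_0_13

theorem kRow_1 : ∀ J : Fin 14, (1 : Fin 14) ≤ J → kCellOK 1 J (fun _ _ => .leaf 0) = true := by
  intro J hJ
  fin_cases J
  · exact absurd hJ (by decide)
  · exact kCell_1_1
  · exact kCell_1_2
  · exact kCell_1_3
  · exact kCell_1_4
  · exact kCell_1_5
  · exact kCell_1_6
  · exact kCell_1_7
  · exact kCell_1_8
  · exact kCell_1_9
  · exact kCell_1_10
  · exact kCell_1_11
  · exact kCell_1_12
  · exact kCell_1_13

theorem kRow_2 : ∀ J : Fin 14, (2 : Fin 14) ≤ J → kCellOK 2 J (fun _ _ => .leaf 0) = true := by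
  intro J hJ
  fin_cases J
  · exact absurd hJ (by decide)
  · exact absurd hJ (by decide)
  · exact kCell_2_2
  · exact kCell_2_3
  · exact kCell_2_4
  · exact kCell_2_5
  · exact kCell_2_6
  · exact kCell_2_7
  · exact kCell_2_8
  · exact kCell_2_9
  · exact kCell_2_10
  · exact kCell_2_11
  · exact kCell_2_12
  · exact kCell_2_13

theorem kRow_3 : ∀ J : Fin 14, (3 : Fin 14) ≤ J → kCellOK 3 J (fun _ _ => .leaf 0) = true := by
  intro J hJ
  fin_cases J
  · exact absurd hJ (by decide)
  · exact absurd hJ (by decide)
  · exact absurd hJ (by decide)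
  · exact kCell_3_3
  · exact kCell_3_4
  · exact kCell_3_5
  · exact kCell_3_6
  · exact kCell_3_7
  · exact kCell_3_8
  · exact kCell_3_9
  · exact kCell_3_10
  · exact kCell_3_11
  · exact kCell_3_12
  · exact kCell_3_13

theorem kRow_4 : ∀ J : Fin 14, (4 : Fin 14) ≤ J → kCellOK 4 J (fun _ _ => .leaf 0) = true := by
  intro J hJ
  fin_cases J
  · exact absurd hJ (by decide)
  · exact absurd hJ (by decide)
  · exact absurd hJ (by decide)
  · exact absurd hJ (by decide)
  · exact kCell_4_4
  · exact kCell_4_5
  · exact kCell_4_6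
  · exact kCell_4_7
  · exact kCell_4_8
  · exact kCell_4_9
  · exact kCell_4_10
  · exact kCell_4_11
  · exact kCell_4_12
  · exact kCell_4_13

theorem kRow_5 : ∀ J : Fin 14, (5 : Fin 14) ≤ J → kCellOK 5 J (fun _ _ => .leaf 0) = true := by
  intro J hJ
  fin_cases J
  · exact absurd hJ (by decide)
  · exact absurd hJ (by decide)
  · exact absurd hJ (by decide)
  · exact absurd hJ (by decide)
  · exact absurd hJ (by decide)
  · exact kCell_5_5
  · exact kCell_5_6
  · exact kCell_5_7
  · exact kCell_5_8
  · exact kCell_5_9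
  · exact kCell_5_10
  · exact kCell_5_11
  · exact kCell_5_12
  · exact kCell_5_13

theorem kRow_6 : ∀ J : Fin 14, (6 : Fin 14) ≤ J → kCellOK 6 J (fun _ _ => .leaf 0) = true := by
  intro J hJ
  fin_cases J
  · exact absurd hJ (by decide)
  · exact absurd hJ (by decide)
  · exact absurd hJ (by decide)
  · exact absurd hJ (by decide)
  · exact absurd hJ (by decide)
  · exact absurd hJ (by decide)
  · exact kCell_6_6
  · exact kCell_6_7
  · exact kCell_6_8
  · exact kCell_6_9
  · exact kCell_6_10
  · exact kCell_6_11
  · exact kCell_6_12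
  · exact kCell_6_13

theorem kRow_7 : ∀ J : Fin 14, (7 : Fin 14) ≤ J → kCellOK 7 J (fun _ _ => .leaf 0) = true := by
  intro J hJ
  fin_cases J
  · exact absurd hJ (by decide)
  · exact absurd hJ (by decide)
  · exact absurd hJ (by decide)
  · exact absurd hJ (by decide)
  · exact absurd hJ (by decide)
  · exact absurd hJ (by decide)
  · exact absurd hJ (by decide)
  · exact kCell_7_7
  · exact kCell_7_8
  · exact kCell_7_9
  · exact kCell_7_10
  · exact kCell_7_11
  · exact kCell_7_12
  · exact kCell_7_13

theorem kRow_8 : ∀ J : Fin 14, (8 : Fin 14) ≤ J → kCellOK 8 J (fun _ _ => .leaf 0) = true := by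
  intro J hJ
  fin_cases J
  · exact absurd hJ (by decide)
  · exact absurd hJ (by decide)
  · exact absurd hJ (by decide)
  · exact absurd hJ (by decide)
  · exact absurd hJ (by decide)
  · exact absurd hJ (by decide)
  · exact absurd hJ (by decide)
  · exact absurd hJ (by decide)
  · exact kCell_8_8
  · exact kCell_8_9
  · exact kCell_8_10
  · exact kCell_8_11
  · exact kCell_8_12
  · exact kCell_8_13

theorem kRow_9 : ∀ J : Fin 14, (9 : Fin 14) ≤ J → kCellOK 9 J (fun _ _ => .leaf 0) = true := by
  intro J hJ
  fin_cases J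
  · exact absurd hJ (by decide)
  · exact absurd hJ (by decide)
  · exact absurd hJ (by decide)
  · exact absurd hJ (by decide)
  · exact absurd hJ (by decide)
  · exact absurd hJ (by decide)
  · exact absurd hJ (by decide)
  · exact absurd hJ (by decide)
  · exact absurd hJ (by decide)
  · exact kCell_9_9
  · exact kCell_9_10
  · exact kCell_9_11
  · exact kCell_9_12
  · exact kCell_9_13

theorem kRow_10 : ∀ J : Fin 14, (10 : Fin 14) ≤ J → kCellOK 10 J (fun _ _ => .leaf 0) = true := by
  intro J hJ
  fin_cases J
  · exact absurd hJ (by decide)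
  · exact absurd hJ (by decide)
  · exact absurd hJ (by decide)
  · exact absurd hJ (by decide)
  · exact absurd hJ (by decide)
  · exact absurd hJ (by decide)
  · exact absurd hJ (by decide)
  · exact absurd hJ (by decide)
  · exact absurd hJ (by decide)
  · exact absurd hJ (by decide)
  · exact kCell_10_10
  · exact kCell_10_11
  · exact kCell_10_12
  · exact kCell_10_13

theorem kRow_11 : ∀ J : Fin 14, (11 : Fin 14) ≤ J → kCellOK 11 J (fun _ _ => .leaf 0) = true := by
  intro J hJ
  fin_cases J
  · exact absurd hJ (by decide)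
  · exact absurd hJ (by decide)
  · exact absurd hJ (by decide)
  · exact absurd hJ (by decide)
  · exact absurd hJ (by decide)
  · exact absurd hJ (by decide)
  · exact absurd hJ (by decide)
  · exact absurd hJ (by decide)
  · exact absurd hJ (by decide)
  · exact absurd hJ (by decide)
  · exact absurd hJ (by decide)
  · exact kCell_11_11
  · exact kCell_11_12
  · exact kCell_11_13

theorem kRow_12 : ∀ J : Fin 14, (12 : Fin 14) ≤ J → kCellOK 12 J (fun _ _ => .leaf 0) = true := by
  intro J hJ
  fin_cases J
  · exact absurd hJ (by decide)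
  · exact absurd hJ (by decide)
  · exact absurd hJ (by decide)
  · exact absurd hJ (by decide)
  · exact absurd hJ (by decide)
  · exact absurd hJ (by decide)
  · exact absurd hJ (by decide)
  · exact absurd hJ (by decide)
  · exact absurd hJ (by decide)
  · exact absurd hJ (by decide)
  · exact absurd hJ (by decide)
  · exact absurd hJ (by decide)
  · exact kCell_12_12
  · exact kCell_12_13

theorem kRow_13 : ∀ J : Fin 14, (13 : Fin 14) ≤ J → kCellOK 13 J (fun _ _ => .leaf 0) = true := by
  intro J hJ
  fin_cases J
  · exact absurd hJ (by decide)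
  · exact absurd hJ (by decide)
  · exact absurd hJ (by decide)
  · exact absurd hJ (by decide)
  · exact absurd hJ (by decide)
  · exact absurd hJ (by decide)
  · exact absurd hJ (by decide)
  · exact absurd hJ (by decide)
  · exact absurd hJ (by decide)
  · exact absurd hJ (by decide)
  · exact absurd hJ (by decide)
  · exact absurd hJ (by decide)
  · exact absurd hJ (by decide)
  · exact kCell_13_13

/-- The pointwise closure inequality of the four-state certificate. -/
theorem hK_four (r r' : Fin 4 → ℝ) (hr : IsPost4 r) (hr' : IsPost4 r') :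
    kPhi kPhiQ (sq4 r') * classFn xG r + kPhi kPhiQ (sq4 r) * classFn xG r' +
        kNuQ * (classFn xG r * classFn xG r') ≤ avg24 (classFn xG) r r' := by
  refine hK_of_cells (fun I J hIJ a b => ⟨.leaf 0, ?_⟩) r r' hr hr'
  have key : kCellOK I J (fun _ _ => .leaf 0) = true := by
    fin_cases I
    · exact kRow_0 J hIJ
    · exact kRow_1 J hIJ
    · exact kRow_2 J hIJ
    · exact kRow_3 J hIJ
    · exact kRow_4 J hIJ
    · exact kRow_5 J hIJ
    · exact kRow_6 J hIJ
    · exact kRow_7 J hIJ
    · exact kRow_8 J hIJ
    · exact kRow_9 J hIJ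
    · exact kRow_10 J hIJ
    · exact kRow_11 J hIJ
    · exact kRow_12 J hIJ
    · exact kRow_13 J hIJ
  exact kCellOK_pair key a b

end Vale.Agent.P154.Ferro4
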