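import Vale.Agent.P154.Ferro4.KReduce2

/-!
P154, four states: closure with a multiplier of `sq4` that may become negative near `1`.

If both laws have mean square deviation below `1 - g`, a multiplier above `L (1 - g - t)` has
nonnegative expectation; otherwise the average of the class function is at least
`sq4 - (1 - g) ≥ 0`. The slice `sq4 = 1` consists of the vertices and is settled directly.
-/

namespace Vale.Agent.P154.Ferro4

open Channel

noncomputable section

variable {g ε ν ν' L : ℝ} {m : ℕ} {φ : ℝ → ℝ} {ψ : (Fin 4 → ℝ) → ℝ}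

/-- The average of the class function is at least `sq4 - (1 - g)` of either side. -/
theorem avg24_classFn_ge_sq4 (hg : 0 ≤ g) (hg1 : 2 * g ≤ 1) {r r' : Fin 4 → ℝ} (hr : IsPost4 r)
    (hr' : IsPost4 r') :
    sq4 r - (1 - g) ≤ avg24 (classFn g) r r' ∧ sq4 r' - (1 - g) ≤ avg24 (classFn g) r r' := by
  have hT : 0 ≤ (1 - 2 * g) * (pairMean r * pairMean r') :=
    mul_nonneg (by linarith) (mul_nonneg (pairMean_nonneg r) (pairMean_nonneg r'))
  have h1 := avg24_classFn_ge2 hg hr hr' ![1, 0, 0, 0, 0, 0] 0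
  have h2 := avg24_classFn_ge2 hg hr hr' ![0, 0, 1, 0, 0, 0] 0
  have e0 : ∀ s c e t d f : ℝ, ratioBound2 0 s c e t d f = 0 := fun s c e t d f => by
    simp [ratioBound2, ratForm2]
  have e1 : ∀ s c e t d f : ℝ, sqBound ![1, 0, 0, 0, 0, 0] s c e t d f = s := fun s c e t d f => by
    simp [sqBound, sqForm, momW, momA]; ring
  have e2 : ∀ s c e t d f : ℝ, sqBound ![0, 0, 1, 0, 0, 0] s c e t d f = t := fun s c e t d f => by
    simp [sqBound, sqForm, momW, momB]; ring
  rw [e0, e1] at h1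
  rw [e0, e2] at h2
  constructor <;> linarith

/-- Closure of the class under combination. -/
theorem closure_four' (hg : 0 ≤ g) (hg1 : 2 * g ≤ 1) (hL : 0 ≤ L) (hν : 0 ≤ ν)
    (hφ : ∀ t, 0 ≤ t → t ≤ 1 → L * (1 - g - t) ≤ φ t)
    (hK : ∀ r r', IsPost4 r → IsPost4 r' →
      φ (sq4 r') * classFn g r + φ (sq4 r) * classFn g r' + ν * (classFn g r * classFn g r') ≤
        avg24 (classFn g) r r')
    (A B : Law 4) (hA : 0 ≤ EP A (classFn g)) (hB : 0 ≤ EP B (classFn g)) :
    0 ≤ EP (A.merge (by norm_num) B) (classFn g) := by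
  rw [EP, merge_eq4]
  have key : ∀ C : Law 4, C.S ≤ 1 - g → 0 ≤ EP C fun r => φ (sq4 r) := by
    intro C hC
    have h : C.E (fun u => L * (1 - g - sq4 (rat4 u))) ≤ EP C fun r => φ (sq4 r) :=
      C.mono _ _ fun u hu => hφ _ (sq4_nonneg _)
        (sq4_le_one _ (isPost4_rat hu).nonneg (isPost4_rat hu).sum_eq)
    rw [C.smul_fun, C.sub_fun, C.const] at h
    have e : C.E (fun u => sq4 (rat4 u)) = C.S := (S_eq4 C).symm
    rw [e] at h
    exact (mul_nonneg hL (by linarith)).trans h
  by_cases hSA : A.S ≤ 1 - g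
  swap
  · refine le_trans ?_ (mono₂_four A B (p := fun r _ => sq4 r - (1 - g))
      fun r r' hr hr' => (avg24_classFn_ge_sq4 hg hg1 hr hr').1)
    simp only [B.const, A.sub_fun, A.const]
    have e : A.E (fun u => sq4 (rat4 u)) = A.S := (S_eq4 A).symm
    linarith [not_le.1 hSA]
  by_cases hSB : B.S ≤ 1 - g
  swap
  · refine le_trans ?_ (mono₂_four A B (p := fun _ r' => sq4 r' - (1 - g))
      fun r r' hr hr' => (avg24_classFn_ge_sq4 hg hg1 hr hr').2)
    simp only [B.sub_fun, B.const, A.const]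
    have e : B.E (fun u => sq4 (rat4 u)) = B.S := (S_eq4 B).symm
    linarith [not_le.1 hSB]
  have h1 := key A hSA
  have h2 := key B hSB
  refine le_trans ?_ (mono₂_four A B hK)
  have p1 := prod_E A B (fun u => classFn g (rat4 u)) (fun v => φ (sq4 (rat4 v)))
  have p2 := prod_E A B (fun u => φ (sq4 (rat4 u))) (fun v => classFn g (rat4 v))
  have p3 := prod_E A B (fun u => classFn g (rat4 u)) (fun v => classFn g (rat4 v))
  have e1 : A.E (fun u => B.E (fun v => φ (sq4 (rat4 v)) * classFn g (rat4 u))) =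
      A.E (fun u => B.E (fun v => classFn g (rat4 u) * φ (sq4 (rat4 v)))) := by simp only [mul_comm]
  simp only [B.add_fun, A.add_fun]
  rw [e1, p1, p2]
  simp only [B.smul_fun, A.smul_fun] at p3 ⊢
  rw [p3]
  unfold EP at hA hB h1 h2
  exact add_nonneg (add_nonneg (mul_nonneg hA h2) (mul_nonneg h1 hB))
    (mul_nonneg hν (mul_nonneg hA hB))

/-- Pointwise inequalities give the certificate for four states. -/
theorem ferroCert_four_of_point' (hg : 0 ≤ g) (hg1 : 2 * g ≤ 1) (hε : 0 < ε) (hε1 : ε ≤ 1)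
    (hm : 1 ≤ m) (hL : 0 ≤ L) (hν : 0 ≤ ν) (hν' : 0 ≤ ν')
    (hφ : ∀ t, 0 ≤ t → t ≤ 1 → L * (1 - g - t) ≤ φ t)
    (hψ : ∀ r, IsPost4 r → 0 ≤ ψ r)
    (hK : ∀ r r', IsPost4 r → IsPost4 r' →
      φ (sq4 r') * classFn g r + φ (sq4 r) * classFn g r' + ν * (classFn g r * classFn g r') ≤
        avg24 (classFn g) r r')
    (hX : ∀ r r', IsPost4 r → IsPost4 r' →
      avg24 sq4 r r' ≤ sq4 r + sq4 r' - ψ r' * classFn g r - ψ r * classFn g r' -
        ν' * (classFn g r * classFn g r') - ε * sq4 r ^ m * sq4 r') :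
    FerroCert 4 (by norm_num) := by
  refine ⟨fun A => 0 ≤ EP A (classFn g), ε, m, hε, hε1, hm, ?_, ?_, fun A lam h0 h1 hA => ?_,
    fun A B hA hB => ⟨closure_four' hg hg1 hL hν hφ hK A B hA hB,
      subadd_four (μ := 0) le_rfl hν' hε.le hm (fun r hr => by simpa using hψ r hr) hX A B hA hB⟩⟩
  · simp only [EP, Law.leaf_E, classFn_vertex]
    simp only [Finset.sum_const, Finset.card_univ, Fintype.card_fin, nsmul_eq_mul]
    positivity
  · show 0 ≤ classFn g (rat4 0)
    rw [classFn_one]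
  · show 0 ≤ A.E fun u => classFn g (rat4 fun i => lam * u i)
    refine le_trans (mul_nonneg (pow_nonneg h0 3) hA) ?_
    rw [EP, ← A.smul_fun]
    refine A.mono _ _ fun u hu => ?_
    have hr := isPost4_rat hu
    have h := classFn_scale hg hg1 h0 h1 (rat4 u) hr.nonneg hr.sum_eq
    simp only [rat4, add_sub_cancel_left] at h
    exact h

/-! ### The slice `sq4 = 1` -/

/-- On the slice `sq4 = 1` one coordinate is `4` and the others vanish. -/
theorem exists_vertex {r : Fin 4 → ℝ} (hr : IsPost4 r) (h1 : sq4 r = 1) :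
    ∃ k, r k = 4 ∧ ∀ i, i ≠ k → r i = 0 := by
  have hs := hr.sum_eq
  have hn := hr.nonneg
  simp only [Fin.sum_univ_four] at hs
  simp only [sq4, Fin.sum_univ_four] at h1
  have hp : r 0 * r 1 + r 0 * r 2 + r 0 * r 3 + r 1 * r 2 + r 1 * r 3 + r 2 * r 3 = 0 := by
    obtain e : r 3 = 4 - r 0 - r 1 - r 2 := by linarith
    rw [e] at h1 ⊢
    linarith
  obtain ⟨k, hk⟩ : ∃ k, 0 < r k := by
    by_contra hcon
    push Not at hcon
    linarith [hcon 0, hcon 1, hcon 2, hcon 3]
  have p01 := mul_nonneg (hn 0) (hn 1)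
  have p02 := mul_nonneg (hn 0) (hn 2)
  have p03 := mul_nonneg (hn 0) (hn 3)
  have p12 := mul_nonneg (hn 1) (hn 2)
  have p13 := mul_nonneg (hn 1) (hn 3)
  have p23 := mul_nonneg (hn 2) (hn 3)
  have hz : ∀ i, i ≠ k → r i = 0 := by
    intro i hi
    have : r i * r k = 0 := by
      fin_cases i <;> fin_cases k <;>
        first
        | exact absurd rfl hi
        | (refine le_antisymm ?_ (mul_nonneg (hn _) (hn _))
           simp
           linarith)
    exact (mul_eq_zero.1 this).resolve_right hk.ne'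
  refine ⟨k, ?_, hz⟩
  have := Fintype.sum_eq_single k hz
  rw [← this]
  simpa only [Fin.sum_univ_four] using hs

/-- Combinations with a vertex. -/
theorem avg24_classFn_vertex {r r' : Fin 4 → ℝ} (hr : IsPost4 r) (hr' : IsPost4 r')
    (h1 : sq4 r = 1) : classFn g r = g ∧ avg24 (classFn g) r r' = g := by
  obtain ⟨k, hk, hz⟩ := exists_vertex hr h1
  have hf : classFn g r = g := by
    have : r = rat4 (vertex k) := by
      funext i
      rcases eq_or_ne i k with rfl | hi
      · simp [rat4, vertex, hk]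
      · simp [rat4, vertex, hz i hi, hi]
    rw [this, classFn_vertex]
  refine ⟨hf, ?_⟩
  have e : ∀ σ : Equiv.Perm (Fin 4), homExt (classFn g) (fun i => r i * r' (σ i)) =
      g * mass4 (fun i => r i * r' (σ i)) := by
    intro σ
    have hm : mass4 (fun i => r i * r' (σ i)) = r' (σ k) := by
      rw [mass4, Fintype.sum_eq_single k fun i hi => by rw [hz i hi, zero_mul], hk]
      ring
    rw [homExt, hm]
    split_ifs with h0
    · rw [h0, mul_zero]
    · have : (fun i => r i * r' (σ i) / r' (σ k)) = r := by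
        funext i
        rcases eq_or_ne i k with rfl | hi
        · field_simp
        · rw [hz i hi]; simp
      rw [this, hf, mul_comm]
  simp only [avg24, e, ← Finset.mul_sum, sum_mass4_comb hr.sum_eq hr'.sum_eq]
  ring

/-- A crude linear lower bound of the class function. -/
theorem classFn_ge_linear (hg : 0 ≤ g) (hg1 : 2 * g ≤ 1) {r : Fin 4 → ℝ} (hr : IsPost4 r) :
    -(3 - 4 * g) * sq4 r ≤ classFn g r := by
  have hs0 := sq4_nonneg r
  have hs1 := sq4_le_one r hr.nonneg hr.sum_eq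
  rw [classFn]
  have hT : 1 - 4 * sq4 r ≤ pairMean r := by
    rcases le_or_gt (1 - 4 * sq4 r) 0 with h | h
    · exact h.trans (pairMean_nonneg r)
    have key : ∀ i, (1 + r i) / 2 - (r i - 1) ^ 2 / 2 ≤ √(r i) := by
      intro i
      obtain ⟨a, ha, e⟩ : ∃ a, 0 ≤ a ∧ r i = a ^ 2 :=
        ⟨√(r i), Real.sqrt_nonneg _, (Real.sq_sqrt (hr.nonneg i)).symm⟩
      rw [e, Real.sqrt_sq ha]
      nlinarith [mul_nonneg ha (sq_nonneg (a - 1)), sq_nonneg (a - 1),
        mul_nonneg (mul_nonneg ha ha) (sq_nonneg (a - 1))]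
    have hsum := hr.sum_eq
    simp only [Fin.sum_univ_four] at hsum
    have hsq : (√(r 0) + √(r 1) + √(r 2) + √(r 3)) ^ 2 = 4 + 12 * pairMean r := by
      simp only [pairMean]
      linear_combination Real.sq_sqrt (hr.nonneg 0) + Real.sq_sqrt (hr.nonneg 1) +
        Real.sq_sqrt (hr.nonneg 2) + Real.sq_sqrt (hr.nonneg 3) + hsum
    have hlow : 4 - 6 * sq4 r ≤ √(r 0) + √(r 1) + √(r 2) + √(r 3) := by
      have := key 0; have := key 1; have := key 2; have := key 3
      simp only [sq4, Fin.sum_univ_four]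
      linarith
    have := pow_le_pow_left₀ (show 0 ≤ 4 - 6 * sq4 r by linarith) hlow 2
    nlinarith
  have hR : g * (1 - 4 * sq4 r) ≤ g * (esym3 r / 4) / (1 - sq4 r) := by
    have h3 : 0 ≤ esym3 r := by
      unfold esym3
      have := hr.nonneg 0; have := hr.nonneg 1; have := hr.nonneg 2; have := hr.nonneg 3
      positivity
    rcases le_or_gt (1 - 4 * sq4 r) 0 with h | h
    · exact (mul_nonpos_of_nonneg_of_nonpos hg h).trans
        (div_nonneg (mul_nonneg hg (by linarith)) (by linarith))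
    rw [le_div_iff₀ (by linarith)]
    have hc : -(sq4 r) / 2 ≤ cube4 r := by
      have key : ∀ x : ℝ, -1 ≤ x → -(x ^ 2) ≤ x ^ 3 := fun x hx => by
        nlinarith [mul_nonneg (sq_nonneg x) (show 0 ≤ 1 + x by linarith)]
      simp only [sq4, cube4, Fin.sum_univ_four]
      linarith [key (r 0 - 1) (by linarith [hr.nonneg 0]), key (r 1 - 1) (by linarith [hr.nonneg 1]),
        key (r 2 - 1) (by linarith [hr.nonneg 2]), key (r 3 - 1) (by linarith [hr.nonneg 3])]
    have e := esym3_eq r hr.sum_eq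
    rw [mul_assoc]
    refine mul_le_mul_of_nonneg_left ?_ hg
    nlinarith [mul_nonneg h.le hs0]
  have := mul_le_mul_of_nonneg_left hT (show 0 ≤ 1 - 2 * g by linarith)
  linarith

/-- The closure inequality when one side is a vertex. -/
theorem hK_vertex (hg : 0 ≤ g) (hg1 : 2 * g ≤ 1) (hκ : φ 1 + ν * g ≤ 0)
    (hφ : ∀ t, 0 ≤ t → t ≤ 1 → -(φ 1 + ν * g) * (3 - 4 * g) * t ≤ g * (1 - φ t))
    {r r' : Fin 4 → ℝ} (hr : IsPost4 r) (hr' : IsPost4 r') (h1 : sq4 r = 1) :
    φ (sq4 r') * classFn g r + φ (sq4 r) * classFn g r' + ν * (classFn g r * classFn g r') ≤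
      avg24 (classFn g) r r' := by
  obtain ⟨hf, ha⟩ := avg24_classFn_vertex (g := g) hr hr' h1
  rw [ha, hf, h1]
  have h := mul_le_mul_of_nonpos_left (classFn_ge_linear hg hg1 hr') hκ
  have := hφ _ (sq4_nonneg r') (sq4_le_one r' hr'.nonneg hr'.sum_eq)
  linarith

end

end Vale.Agent.P154.Ferro4
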