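import Vale.Agent.P154.Ferro4.XMoments

/-!
P154, four states: lower bounds for the permutation average of the class function.

`avg24 classFn` splits into the average of `sq4`, a constant, the average of the `R / A` part and
the exact product `T T'`. The first is bounded below by Titu's inequality with the test vector
`(q₀ + q₁ w) u + (q₂ + q₃ w) v + (q₄ + q₅ w) (u v - w)`, the second by the tangent of `1 / x`
with test multipliers `l₀ + l₁ u + l₂ v`, one for each omitted index. Both averages are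
polynomials in `(s, c, e)` of the two sides.
-/

namespace Vale.Agent.P154.Ferro4

open Channel PermSum

noncomputable section

/-- The Titu expression, linear in the moments `W n`, `A n`, `B n`, `C n`. -/
def sqForm (q : Fin 6 → ℝ) (U V : ℝ) (W A B C : ℕ → ℝ) : ℝ :=
  2 * q 0 * (U * W 0 + 4 * W 1 + A 0) + 2 * q 1 * (U * W 1 + 4 * W 2 + A 1) +
  2 * q 2 * (4 * W 1 + V * W 0 + B 0) + 2 * q 3 * (4 * W 2 + V * W 1 + B 1) +
  2 * q 4 * (A 0 + B 0 + C 0 - 4 * W 2) + 2 * q 5 * (A 1 + B 1 + C 1 - 4 * W 3) -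
  q 0 ^ 2 * U * (W 0 + W 1) - 2 * q 0 * q 1 * U * (W 1 + W 2) - q 1 ^ 2 * U * (W 2 + W 3) -
  q 2 ^ 2 * V * (W 0 + W 1) - 2 * q 2 * q 3 * V * (W 1 + W 2) - q 3 ^ 2 * V * (W 2 + W 3) -
  q 4 ^ 2 * (C 0 + C 1 - 4 * W 2 - 4 * W 3) -
  2 * q 4 * q 5 * (C 1 + C 2 - 4 * W 3 - 4 * W 4) -
  q 5 ^ 2 * (C 2 + C 3 - 4 * W 4 - 4 * W 5) -
  8 * q 0 * q 2 * (W 1 + W 2) - 8 * (q 0 * q 3 + q 1 * q 2) * (W 2 + W 3) -
  8 * q 1 * q 3 * (W 3 + W 4) -
  2 * q 0 * q 4 * (A 0 + A 1) - 2 * (q 0 * q 5 + q 1 * q 4) * (A 1 + A 2) -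
  2 * q 1 * q 5 * (A 2 + A 3) -
  2 * q 2 * q 4 * (B 0 + B 1) - 2 * (q 2 * q 5 + q 3 * q 4) * (B 1 + B 2) -
  2 * q 3 * q 5 * (B 2 + B 3)

/-- Averages of `w ^ n`. -/
def momW (s c e t d f : ℝ) : ℕ → ℝ
  | 0 => 1
  | 1 => 0
  | 2 => 3 * s * t
  | 3 => 6 * c * d
  | 4 => 735 / 8 * e * f - 567 / 8 * e * t ^ 2 - 567 / 8 * s ^ 2 * f + 567 / 8 * s ^ 2 * t ^ 2
  | 5 => 60 * (s * c) * (t * d)
  | _ => 0

/-- Averages of `w ^ n * ∑ u ^ 2 v`. -/
def momA (s c e t d f : ℝ) : ℕ → ℝ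
  | 1 => 24 * c * t
  | 2 => 84 * e * d - 36 * s ^ 2 * d
  | 3 => 168 * (s * c) * f
  | _ => 0

/-- Averages of `w ^ n * ∑ u v ^ 2`. -/
def momB (s c e t d f : ℝ) : ℕ → ℝ
  | 1 => 24 * s * d
  | 2 => 84 * c * f - 36 * c * t ^ 2
  | 3 => 168 * e * (t * d)
  | _ => 0

/-- Averages of `w ^ n * ∑ u ^ 2 v ^ 2`. -/
def momC (s c e t d f : ℝ) : ℕ → ℝ
  | 0 => 36 * s * t
  | 1 => 48 * c * d
  | 2 => 294 * e * f - 126 * e * t ^ 2 - 126 * s ^ 2 * f + 162 * s ^ 2 * t ^ 2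
  | 3 => 552 * (s * c) * (t * d)
  | _ => 0

/-- The lower bound for the average of `sq4`. -/
def sqBound (q : Fin 6 → ℝ) (s c e t d f : ℝ) : ℝ :=
  sqForm q (12 * s) (12 * t) (momW s c e t d f) (momA s c e t d f) (momB s c e t d f)
    (momC s c e t d f) / 12

theorem sqForm_sum {ι : Type*} (S : Finset ι) (q : Fin 6 → ℝ) (U V : ℝ)
    (W A B C : ι → ℕ → ℝ) :
    ∑ σ ∈ S, sqForm q U V (W σ) (A σ) (B σ) (C σ) =
      sqForm q U V (fun n => ∑ σ ∈ S, W σ n) (fun n => ∑ σ ∈ S, A σ n)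
        (fun n => ∑ σ ∈ S, B σ n) (fun n => ∑ σ ∈ S, C σ n) := by
  simp only [sqForm, Finset.sum_add_distrib, Finset.sum_sub_distrib, ← Finset.mul_sum]

theorem sqForm_div (q : Fin 6 → ℝ) (U V k : ℝ) (W A B C : ℕ → ℝ) :
    sqForm q U V W A B C / k =
      sqForm q U V (fun n => W n / k) (fun n => A n / k) (fun n => B n / k) fun n => C n / k := by
  simp only [sqForm]; ring

/-- Titu's inequality for one combination. -/
theorem sqForm_le_homExt (q : Fin 6 → ℝ) {x y : Fin 4 → ℝ} (hx : ∑ i, x i = 0) (hy : ∑ i, y i = 0)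
    (hx0 : ∀ i, 0 ≤ 1 + x i) (hy0 : ∀ i, 0 ≤ 1 + y i) :
    sqForm q (∑ i, x i ^ 2) (∑ i, y i ^ 2) (fun n => ((∑ i, x i * y i) / 4) ^ n)
        (fun n => ((∑ i, x i * y i) / 4) ^ n * ∑ i, x i ^ 2 * y i)
        (fun n => ((∑ i, x i * y i) / 4) ^ n * ∑ i, x i * y i ^ 2)
        (fun n => ((∑ i, x i * y i) / 4) ^ n * ∑ i, x i ^ 2 * y i ^ 2) ≤
      12 * homExt sq4 (fun i => (1 + x i) * (1 + y i)) := by
  set a : Fin 4 → ℝ := fun i => (1 + x i) * (1 + y i) with ha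
  set w : ℝ := (∑ i, x i * y i) / 4 with hw
  set p : Fin 4 → ℝ := fun i => (q 0 + q 1 * w) * x i + (q 2 + q 3 * w) * y i +
    (q 4 + q 5 * w) * (x i * y i - w) with hp
  have hx3 : x 3 = -(x 0 + x 1 + x 2) := by rw [Fin.sum_univ_four] at hx; linarith
  have hy3 : y 3 = -(y 0 + y 1 + y 2) := by rw [Fin.sum_univ_four] at hy; linarith
  have hZ : mass4 a = 1 + w := by
    simp only [mass4, ha, hw, Fin.sum_univ_four, hx3, hy3]; ring
  refine le_of_eq_of_le (b := ∑ i, (2 * p i * (a i - (1 + w)) - (1 + w) * p i ^ 2)) ?_ ?_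
  · have key : ∀ P0 P1 P2 : ℝ, ∑ i, (2 * (P0 * x i + P1 * y i + P2 * (x i * y i - w)) *
        (a i - (1 + w)) - (1 + w) * (P0 * x i + P1 * y i + P2 * (x i * y i - w)) ^ 2) =
        2 * P0 * ((∑ i, x i ^ 2) + 4 * w + ∑ i, x i ^ 2 * y i) +
        2 * P1 * (4 * w + (∑ i, y i ^ 2) + ∑ i, x i * y i ^ 2) +
        2 * P2 * ((∑ i, x i ^ 2 * y i) + (∑ i, x i * y i ^ 2) + (∑ i, x i ^ 2 * y i ^ 2) -
          4 * w ^ 2) -
        (1 + w) * (P0 ^ 2 * (∑ i, x i ^ 2) + P1 ^ 2 * (∑ i, y i ^ 2) +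
          P2 ^ 2 * ((∑ i, x i ^ 2 * y i ^ 2) - 4 * w ^ 2) + 8 * P0 * P1 * w +
          2 * P0 * P2 * (∑ i, x i ^ 2 * y i) + 2 * P1 * P2 * (∑ i, x i * y i ^ 2)) := by
      intro P0 P1 P2
      have hw4 : x 0 * y 0 + x 1 * y 1 + x 2 * y 2 + x 3 * y 3 = 4 * w := by
        rw [hw, Fin.sum_univ_four]; ring
      rw [Fin.sum_univ_four] at hx hy
      simp only [ha, Fin.sum_univ_four]
      linear_combination (-2 * w * (P0 + P2) + (1 + w) * (2 * P0 * P2 * w)) * hx +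
        (-2 * w * (P1 + P2) + (1 + w) * (2 * P1 * P2 * w)) * hy +
        (2 * (P0 + P1 - 2 * P2 * w) - (1 + w) * (2 * P0 * P1 - 2 * P2 ^ 2 * w)) * hw4
    simp only [hp, key, sqForm]
    ring
  have h0 : ∀ i, 0 ≤ a i := fun i => mul_nonneg (hx0 i) (hy0 i)
  have hnn : 0 ≤ mass4 a := div_nonneg (Finset.sum_nonneg fun i _ => h0 i) (by norm_num)
  rw [← hZ, homExt]
  split_ifs with h
  · have hs : ∑ i, a i = 0 := by
      rcases div_eq_zero_iff.1 h with h | h
      · exact h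
      · norm_num at h
    have hz : ∀ i, a i = 0 := fun i =>
      (Finset.sum_eq_zero_iff_of_nonneg fun j _ => h0 j).1 hs i (Finset.mem_univ i)
    simp [hz, h]
  · have hpos : 0 < mass4 a := lt_of_le_of_ne hnn (Ne.symm h)
    generalize mass4 a = Z at hpos ⊢
    have e : 12 * (Z * sq4 fun i => a i / Z) = ∑ i, (a i - Z) ^ 2 / Z := by
      simp only [sq4, Fin.sum_univ_four]
      field_simp
    rw [e]
    refine Finset.sum_le_sum fun i _ => ?_
    rw [le_div_iff₀ hpos]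
    nlinarith [sq_nonneg (a i - Z - Z * p i)]

theorem sum_dev {r : Fin 4 → ℝ} (hr : ∑ i, r i = 4) : ∑ i, dev r i = 0 := by
  simp [dev, Finset.sum_sub_distrib, hr]

theorem sum_dev_sq (r : Fin 4 → ℝ) : ∑ i, dev r i ^ 2 = 12 * sq4 r := by
  simp only [dev, sq4]; ring

variable {r r' : Fin 4 → ℝ}

theorem momW_eq (hr : ∑ i, r i = 4) (hr' : ∑ i, r' i = 4) {n : ℕ} (hn : n ≤ 5) :
    arrSum (fun i j k l => dotArr (dev r) (dev r') i j k l ^ n) / (24 * 4 ^ n) =
      momW (sq4 r) (cube4 r) (quart4 r) (sq4 r') (cube4 r') (quart4 r') n := by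
  interval_cases n <;>
    simp only [arrSum_one, ips1, ips2, ips3, ips4, ips5, m1_dev hr, m1_dev hr', m11_dev hr,
      m11_dev hr', m2_dev hr, m2_dev hr', m3_dev hr, m3_dev hr', m21_dev hr, m21_dev hr',
      m111_dev hr, m111_dev hr', m4_dev hr, m4_dev hr', m31_dev hr, m31_dev hr', m22_dev hr,
      m22_dev hr', m211_dev hr, m211_dev hr', m1111_dev hr, m1111_dev hr', m5_dev hr, m5_dev hr',
      m41_dev hr, m41_dev hr', m32_dev hr, m32_dev hr', m311_dev hr, m311_dev hr', m221_dev hr,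
      m221_dev hr', m2111_dev hr, m2111_dev hr', momW] <;> ring

theorem momA_eq (hr : ∑ i, r i = 4) (hr' : ∑ i, r' i = 4) {n : ℕ} (hn : n ≤ 3) :
    arrSum (fun i j k l => dotArr (dev r) (dev r') i j k l ^ n *
        dotArr (fun i => dev r i ^ 2) (fun i => dev r' i ^ 1) i j k l) / (24 * 4 ^ n) =
      momA (sq4 r) (cube4 r) (quart4 r) (sq4 r') (cube4 r') (quart4 r') n := by
  interval_cases n
  · simp only [pow_zero, one_mul, ipa0, m1_dev hr', momA]; ring
  all_goals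
    simp only [ipa1, ipa2, ipa3, m2_dev hr', m11_dev hr', m3_dev hr, m3_dev hr',
      m21_dev hr, m21_dev hr', m111_dev hr', m4_dev hr, m4_dev hr', m31_dev hr, m31_dev hr',
      m22_dev hr, m22_dev hr', m211_dev hr, m211_dev hr', m1111_dev hr', m5_dev hr, m41_dev hr,
      m32_dev hr, m311_dev hr, m221_dev hr, m2111_dev hr, momA]
    ring

theorem momB_eq (hr : ∑ i, r i = 4) (hr' : ∑ i, r' i = 4) {n : ℕ} (hn : n ≤ 3) :
    arrSum (fun i j k l => dotArr (dev r) (dev r') i j k l ^ n *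
        dotArr (fun i => dev r i ^ 1) (fun i => dev r' i ^ 2) i j k l) / (24 * 4 ^ n) =
      momB (sq4 r) (cube4 r) (quart4 r) (sq4 r') (cube4 r') (quart4 r') n := by
  interval_cases n
  · simp only [pow_zero, one_mul, ipb0, m1_dev hr, momB]; ring
  all_goals
    simp only [ipb1, ipb2, ipb3, m2_dev hr, m11_dev hr, m3_dev hr, m3_dev hr',
      m21_dev hr, m21_dev hr', m111_dev hr, m4_dev hr, m4_dev hr', m31_dev hr, m31_dev hr',
      m22_dev hr, m22_dev hr', m211_dev hr, m211_dev hr', m1111_dev hr, m5_dev hr', m41_dev hr',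
      m32_dev hr', m311_dev hr', m221_dev hr', m2111_dev hr', momB]
    ring

theorem momC_eq (hr : ∑ i, r i = 4) (hr' : ∑ i, r' i = 4) {n : ℕ} (hn : n ≤ 3) :
    arrSum (fun i j k l => dotArr (dev r) (dev r') i j k l ^ n *
        dotArr (fun i => dev r i ^ 2) (fun i => dev r' i ^ 2) i j k l) / (24 * 4 ^ n) =
      momC (sq4 r) (cube4 r) (quart4 r) (sq4 r') (cube4 r') (quart4 r') n := by
  interval_cases n
  · simp only [pow_zero, one_mul, ipc0, m2_dev hr, m2_dev hr', momC]; ring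
  all_goals
    simp only [ipc1, ipc2, ipc3, m3_dev hr, m3_dev hr', m21_dev hr,
      m21_dev hr', m4_dev hr, m4_dev hr', m31_dev hr, m31_dev hr', m22_dev hr, m22_dev hr',
      m211_dev hr, m211_dev hr', m5_dev hr, m5_dev hr', m41_dev hr, m41_dev hr', m32_dev hr,
      m32_dev hr', m311_dev hr, m311_dev hr', m221_dev hr, m221_dev hr', m2111_dev hr,
      m2111_dev hr', momC]
    ring

/-- (a) Lower bound for the average of `sq4`. -/
theorem sqBound_le (hr : IsPost4 r) (hr' : IsPost4 r') (q : Fin 6 → ℝ) :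
    sqBound q (sq4 r) (cube4 r) (quart4 r) (sq4 r') (cube4 r') (quart4 r') ≤ avg24 sq4 r r' := by
  let T : Equiv.Perm (Fin 4) → (Fin 4 → ℝ) → (Fin 4 → ℝ) → ℝ := fun σ u v =>
    dotArr u v (σ 0) (σ 1) (σ 2) (σ 3)
  let W : Equiv.Perm (Fin 4) → ℕ → ℝ := fun σ n => (T σ (dev r) (dev r') / 4) ^ n
  let A : Equiv.Perm (Fin 4) → ℕ → ℝ := fun σ n =>
    W σ n * T σ (fun i => dev r i ^ 2) (fun i => dev r' i ^ 1)
  let B : Equiv.Perm (Fin 4) → ℕ → ℝ := fun σ n =>
    W σ n * T σ (fun i => dev r i ^ 1) (fun i => dev r' i ^ 2)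
  let C : Equiv.Perm (Fin 4) → ℕ → ℝ := fun σ n =>
    W σ n * T σ (fun i => dev r i ^ 2) (fun i => dev r' i ^ 2)
  have hpt : ∀ σ : Equiv.Perm (Fin 4), sqForm q (12 * sq4 r) (12 * sq4 r') (W σ) (A σ) (B σ) (C σ) ≤
      12 * homExt sq4 (fun i => r i * r' (σ i)) := by
    intro σ
    have h := sqForm_le_homExt q (x := dev r) (y := fun i => dev r' (σ i)) (sum_dev hr.sum_eq)
      (by rw [Equiv.sum_comp σ (dev r')]; exact sum_dev hr'.sum_eq)
      (fun i => by simp only [dev]; linarith [hr.nonneg i])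
      (fun i => by simp only [dev]; linarith [hr'.nonneg (σ i)])
    rw [sum_dev_sq, Equiv.sum_comp σ (fun i => dev r' i ^ 2), sum_dev_sq] at h
    refine le_of_eq_of_le ?_ (h.trans (le_of_eq ?_))
    · simp only [W, A, B, C, T, dotArr, Fin.sum_univ_four, pow_one]
    · simp only [dev, add_sub_cancel]
  have hsum := Finset.sum_le_sum fun σ (_ : σ ∈ Finset.univ) => hpt σ
  rw [sqForm_sum, ← Finset.mul_sum] at hsum
  have hW : ∀ n ≤ 5, (∑ σ, W σ n) / 24 =
      momW (sq4 r) (cube4 r) (quart4 r) (sq4 r') (cube4 r') (quart4 r') n := fun n hn => by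
    rw [← momW_eq hr.sum_eq hr'.sum_eq hn, ← sum_perm]
    simp only [W, T, div_pow, ← Finset.sum_div, div_div, mul_comm ((4 : ℝ) ^ n)]
  have hX : ∀ (u v : Fin 4 → ℝ) (n : ℕ), (∑ σ, W σ n * T σ u v) / 24 =
      arrSum (fun i j k l => dotArr (dev r) (dev r') i j k l ^ n * dotArr u v i j k l) /
        (24 * 4 ^ n) := fun u v n => by
    rw [← sum_perm]
    simp only [W, T, div_pow, div_mul_eq_mul_div, ← Finset.sum_div, div_div,
      mul_comm ((4 : ℝ) ^ n)]
  have hA : ∀ n ≤ 3, (∑ σ, A σ n) / 24 =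
      momA (sq4 r) (cube4 r) (quart4 r) (sq4 r') (cube4 r') (quart4 r') n := fun n hn => by
    rw [← momA_eq hr.sum_eq hr'.sum_eq hn]; exact hX _ _ n
  have hB : ∀ n ≤ 3, (∑ σ, B σ n) / 24 =
      momB (sq4 r) (cube4 r) (quart4 r) (sq4 r') (cube4 r') (quart4 r') n := fun n hn => by
    rw [← momB_eq hr.sum_eq hr'.sum_eq hn]; exact hX _ _ n
  have hC : ∀ n ≤ 3, (∑ σ, C σ n) / 24 =
      momC (sq4 r) (cube4 r) (quart4 r) (sq4 r') (cube4 r') (quart4 r') n := fun n hn => by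
    rw [← momC_eq hr.sum_eq hr'.sum_eq hn]; exact hX _ _ n
  have h24 := div_le_div_of_nonneg_right hsum (show (0 : ℝ) ≤ 24 by norm_num)
  rw [sqForm_div, mul_div_assoc] at h24
  refine le_of_eq_of_le ?_
    ((div_le_div_of_nonneg_right h24 (show (0 : ℝ) ≤ 12 by norm_num)).trans (le_of_eq ?_))
  · simp only [sqBound, sqForm]
    simp only [hW 0 (by norm_num), hW 1 (by norm_num), hW 2 (by norm_num), hW 3 (by norm_num),
      hW 4 (by norm_num), hW 5 le_rfl, hA 0 (by norm_num), hA 1 (by norm_num), hA 2 (by norm_num),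
      hA 3 le_rfl, hB 0 (by norm_num), hB 1 (by norm_num), hB 2 (by norm_num), hB 3 le_rfl,
      hC 0 (by norm_num), hC 1 (by norm_num), hC 2 (by norm_num), hC 3 le_rfl]
  · rw [avg24]; ring

/-! ### The `R / A` part -/

/-- Products of the three entries other than `i`. -/
def prod3 (x : Fin 4 → ℝ) : Fin 4 → ℝ :=
  ![x 1 * x 2 * x 3, x 0 * x 2 * x 3, x 0 * x 1 * x 3, x 0 * x 1 * x 2]

/-- Sums of the three entries other than `i`. -/
def lin3 (x : Fin 4 → ℝ) : Fin 4 → ℝ :=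
  ![x 1 + x 2 + x 3, x 0 + x 2 + x 3, x 0 + x 1 + x 3, x 0 + x 1 + x 2]

/-- Pair products of the three entries other than `i`. -/
def pairs3 (x : Fin 4 → ℝ) : Fin 4 → ℝ :=
  ![x 1 * x 2 + x 1 * x 3 + x 2 * x 3, x 0 * x 2 + x 0 * x 3 + x 2 * x 3,
    x 0 * x 1 + x 0 * x 3 + x 1 * x 3, x 0 * x 1 + x 0 * x 2 + x 1 * x 2]

/-- Sums over the omitted index of sums of the other entries. -/
def dotLin (F G r x : Fin 4 → ℝ) (i j k l : Fin 4) : ℝ :=
  F 0 * G i * (r 1 * x j + r 2 * x k + r 3 * x l) +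
  F 1 * G j * (r 0 * x i + r 2 * x k + r 3 * x l) +
  F 2 * G k * (r 0 * x i + r 1 * x j + r 3 * x l) +
  F 3 * G l * (r 0 * x i + r 1 * x j + r 2 * x k)

/-- Sums over the omitted index of pair products of the other entries. -/
def dotPairs (F G r x : Fin 4 → ℝ) (i j k l : Fin 4) : ℝ :=
  F 0 * G i * (r 1 * x j * (r 2 * x k) + r 1 * x j * (r 3 * x l) + r 2 * x k * (r 3 * x l)) +
  F 1 * G j * (r 0 * x i * (r 2 * x k) + r 0 * x i * (r 3 * x l) + r 2 * x k * (r 3 * x l)) +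
  F 2 * G k * (r 0 * x i * (r 1 * x j) + r 0 * x i * (r 3 * x l) + r 1 * x j * (r 3 * x l)) +
  F 3 * G l * (r 0 * x i * (r 1 * x j) + r 0 * x i * (r 2 * x k) + r 1 * x j * (r 2 * x k))

theorem arrSum_dotLin (F G r x : Fin 4 → ℝ) :
    arrSum (dotLin F G r x) = 2 * (∑ i, F i * lin3 r i) * ∑ i, G i * lin3 x i := by
  simp only [arrSum, dotLin, lin3, Fin.sum_univ_four, Matrix.cons_val_zero, Matrix.cons_val_one,
    Matrix.cons_val_two, Matrix.cons_val_three, Matrix.tail_cons, Matrix.head_cons]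
  ring

theorem arrSum_dotPairs (F G r x : Fin 4 → ℝ) :
    arrSum (dotPairs F G r x) = 2 * (∑ i, F i * pairs3 r i) * ∑ i, G i * pairs3 x i := by
  simp only [arrSum, dotPairs, pairs3, Fin.sum_univ_four, Matrix.cons_val_zero,
    Matrix.cons_val_one, Matrix.cons_val_two, Matrix.cons_val_three, Matrix.tail_cons,
    Matrix.head_cons]
  ring

theorem prod3_eq (x : Fin 4 → ℝ) (i : Fin 4) : prod3 x i = ∏ j ∈ Finset.univ.erase i, x j := by
  fin_cases i <;>
  · simp [prod3, show (Finset.univ : Finset (Fin 4)) = {0, 1, 2, 3} from by decide,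
      Finset.prod_insert, Finset.erase_insert_of_ne, mul_assoc]

theorem prod3_perm (x : Fin 4 → ℝ) (σ : Equiv.Perm (Fin 4)) (i : Fin 4) :
    prod3 (fun j => x (σ j)) i = prod3 x (σ i) := by
  rw [prod3_eq, prod3_eq]
  exact Finset.prod_equiv σ (fun j => by simp) fun j _ => rfl

theorem prod3_mul (x y : Fin 4 → ℝ) (i : Fin 4) :
    prod3 (fun j => x j * y j) i = prod3 x i * prod3 y i := by
  rw [prod3_eq, prod3_eq, prod3_eq, Finset.prod_mul_distrib]

/-- Sums of `u ^ m` times products of three entries. -/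
def ratN (s c e : ℝ) : Fin 3 → ℝ :=
  let R := 1 - 3 * s + 2 * c
  let P := 1 - 6 * s + 8 * c + 18 * s ^ 2 - 21 * e
  ![4 * R, 4 * (P - R), 4 * (R - P)]

/-- Sums of `u ^ m` times sums of three entries. -/
def ratA (s c : ℝ) : Fin 3 → ℝ := ![12, -12 * s, 36 * s - 24 * c]

/-- Sums of `u ^ m` times products and pair sums of three entries. -/
def ratY (s c e : ℝ) : Fin 3 → ℝ := fun m =>
  6 * (1 - s) * ratN s c e m - (1 - 6 * s + 8 * c + 18 * s ^ 2 - 21 * e) * ratA s c m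

theorem esym4_eq {r : Fin 4 → ℝ} (hr : ∑ i, r i = 4) :
    esym4 r = 1 - 6 * sq4 r + 8 * cube4 r + 18 * sq4 r ^ 2 - 21 * quart4 r := by
  simp only [esym4, sq4, cube4, quart4, Fin.sum_univ_four, three_eq hr]
  ring

theorem ratA_eq {r : Fin 4 → ℝ} (hr : ∑ i, r i = 4) (m : Fin 3) :
    ∑ i, dev r i ^ (m : ℕ) * lin3 r i = ratA (sq4 r) (cube4 r) m := by
  fin_cases m <;>
  · simp [ratA, lin3, dev, sq4, cube4, Fin.sum_univ_four, three_eq hr]
    ring

theorem ratN_eq {r : Fin 4 → ℝ} (hr : ∑ i, r i = 4) (m : Fin 3) :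
    ∑ i, prod3 r i * dev r i ^ (m : ℕ) = ratN (sq4 r) (cube4 r) (quart4 r) m := by
  fin_cases m <;>
  · simp [ratN, prod3, dev, sq4, cube4, quart4, Fin.sum_univ_four, three_eq hr]
    ring

theorem ratY_eq {r : Fin 4 → ℝ} (hr : ∑ i, r i = 4) (m : Fin 3) :
    ∑ i, prod3 r i * dev r i ^ (m : ℕ) * pairs3 r i = ratY (sq4 r) (cube4 r) (quart4 r) m := by
  rw [ratY, ← ratN_eq hr m, ← ratA_eq hr m, ← esym4_eq hr]
  simp only [Finset.mul_sum, ← Finset.sum_sub_distrib]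
  refine Finset.sum_congr rfl fun i _ => ?_
  fin_cases i <;>
  · simp [prod3, lin3, pairs3, dev, esym4, sq4, Fin.sum_univ_four, three_eq hr]
    ring

/-- The tangent expression, linear in the two families of sums. -/
def ratForm (l : Fin 3 → ℝ) (D E : Fin 3 → Fin 3 → ℝ) : ℝ :=
  2 * l 0 * D 0 0 + 2 * l 1 * D 1 0 + 2 * l 2 * D 0 1 -
  l 0 ^ 2 / 6 * E 0 0 - l 0 * l 1 / 3 * E 1 0 - l 0 * l 2 / 3 * E 0 1 -
  l 1 ^ 2 / 6 * E 2 0 - l 2 ^ 2 / 6 * E 0 2 - l 1 * l 2 / 3 * E 1 1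

/-- The lower bound for the average of the `R / A` part. -/
def ratioBound (l : Fin 3 → ℝ) (s c e t d f : ℝ) : ℝ :=
  ratForm l (fun m n => ratN s c e m * ratN t d f n / 4)
    (fun m n => ((1 - 6 * s + 8 * c + 18 * s ^ 2 - 21 * e) * (1 - 6 * t + 8 * d + 18 * t ^ 2 - 21 * f) *
      ratA s c m * ratA t d n + ratY s c e m * ratY t d f n) / 12) / 4

theorem ratForm_sum {ι : Type*} (S : Finset ι) (l : Fin 3 → ℝ)
    (D E : ι → Fin 3 → Fin 3 → ℝ) :
    ∑ σ ∈ S, ratForm l (D σ) (E σ) =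
      ratForm l (fun m n => ∑ σ ∈ S, D σ m n) (fun m n => ∑ σ ∈ S, E σ m n) := by
  simp only [ratForm, Finset.sum_add_distrib, Finset.sum_sub_distrib, ← Finset.mul_sum]

/-- Homogeneous form of the `R / A` part. -/
def ratioExt (a : Fin 4 → ℝ) : ℝ := esym3 a / (4 * pairs4 a)

/-- Tangents for one combination. -/
theorem sum_le_ratioExt {a : Fin 4 → ℝ} (ha : ∀ i, 0 ≤ a i) (L : Fin 4 → ℝ) :
    (∑ i, prod3 a i * (2 * L i - L i ^ 2 * pairs4 a)) / 4 ≤ ratioExt a := by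
  have hX : ∀ i, 0 ≤ prod3 a i := fun i => by rw [prod3_eq]; exact Finset.prod_nonneg fun j _ => ha j
  have h0 := ha 0; have h1 := ha 1; have h2 := ha 2; have h3 := ha 3
  have hB : 0 ≤ pairs4 a := by unfold pairs4; positivity
  have he : esym3 a = ∑ i, prod3 a i := by
    simp [esym3, prod3, Fin.sum_univ_four]; ring
  rcases hB.eq_or_lt with hB0 | hB0
  · have h01 : a 0 * a 1 = 0 := by
      unfold pairs4 at hB0
      nlinarith [mul_nonneg h0 h1, mul_nonneg h0 h2, mul_nonneg h0 h3, mul_nonneg h1 h2,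
        mul_nonneg h1 h3, mul_nonneg h2 h3]
    have h23 : a 2 * a 3 = 0 := by
      unfold pairs4 at hB0
      nlinarith [mul_nonneg h0 h1, mul_nonneg h0 h2, mul_nonneg h0 h3, mul_nonneg h1 h2,
        mul_nonneg h1 h3, mul_nonneg h2 h3]
    have hz : ∀ i, prod3 a i = 0 := fun i => by
      fin_cases i <;> simp [prod3, h01, mul_assoc, h23]
    simp [hz, ratioExt, ← hB0]
  · rw [ratioExt, he, Finset.sum_div, Finset.sum_div]
    refine Finset.sum_le_sum fun i _ => ?_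
    rw [div_le_div_iff₀ (by norm_num) (by positivity)]
    nlinarith [mul_nonneg (hX i) (sq_nonneg (1 - L i * pairs4 a))]

/-- (b) Lower bound for the average of the `R / A` part. -/
theorem ratioBound_le (hr : IsPost4 r) (hr' : IsPost4 r') (l : Fin 3 → ℝ) :
    ratioBound l (sq4 r) (cube4 r) (quart4 r) (sq4 r') (cube4 r') (quart4 r') ≤
      (∑ σ : Equiv.Perm (Fin 4), ratioExt fun i => r i * r' (σ i)) / 24 := by
  let P : ℝ := esym4 r * esym4 r'
  let D : Equiv.Perm (Fin 4) → Fin 3 → Fin 3 → ℝ := fun σ m n =>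
    dotArr (fun i => prod3 r i * dev r i ^ (m : ℕ)) (fun i => prod3 r' i * dev r' i ^ (n : ℕ))
      (σ 0) (σ 1) (σ 2) (σ 3)
  let E : Equiv.Perm (Fin 4) → Fin 3 → Fin 3 → ℝ := fun σ m n =>
    P * dotLin (fun i => dev r i ^ (m : ℕ)) (fun i => dev r' i ^ (n : ℕ)) r r'
        (σ 0) (σ 1) (σ 2) (σ 3) +
      dotPairs (fun i => prod3 r i * dev r i ^ (m : ℕ)) (fun i => prod3 r' i * dev r' i ^ (n : ℕ))
        r r' (σ 0) (σ 1) (σ 2) (σ 3)
  have hpt : ∀ σ : Equiv.Perm (Fin 4),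
      ratForm l (D σ) (E σ) / 4 ≤ ratioExt fun i => r i * r' (σ i) := by
    intro σ
    refine le_of_eq_of_le ?_ (sum_le_ratioExt (fun i => mul_nonneg (hr.nonneg i) (hr'.nonneg _))
      fun i => l 0 + l 1 * dev r i + l 2 * dev r' (σ i))
    have hP : P = r 0 * r' (σ 0) * (r 1 * r' (σ 1)) * (r 2 * r' (σ 2)) * (r 3 * r' (σ 3)) := by
      have e : r' (σ 0) * r' (σ 1) * r' (σ 2) * r' (σ 3) = r' 0 * r' 1 * r' 2 * r' 3 :=
        (Reduce.sym_all r' σ).2.1
      simp only [P, esym4]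
      linear_combination -(r 0 * r 1 * r 2 * r 3) * e
    simp only [ratForm, D, E, hP, prod3_mul r (fun j => r' (σ j)), prod3_perm, pairs4, dotArr,
      dotLin, dotPairs, Fin.sum_univ_four]
    simp only [← prod3_perm r' σ]
    simp [prod3]
    ring
  refine le_trans ?_ (div_le_div_of_nonneg_right
    (Finset.sum_le_sum fun σ (_ : σ ∈ Finset.univ) => hpt σ) (by norm_num))
  refine le_of_eq ?_
  have hD : ∀ m n, ∑ σ, D σ m n =
      6 * (ratN (sq4 r) (cube4 r) (quart4 r) m * ratN (sq4 r') (cube4 r') (quart4 r') n) := by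
    intro m n
    rw [← ratN_eq hr.sum_eq m, ← ratN_eq hr'.sum_eq n]
    simp only [D, sum_perm fun i j k q => dotArr (fun i => prod3 r i * dev r i ^ (m : ℕ))
      (fun i => prod3 r' i * dev r' i ^ (n : ℕ)) i j k q]
    simp only [arrSum, dotArr, Fin.sum_univ_four]
    ring
  have hE : ∀ m n, ∑ σ, E σ m n =
      2 * (P * (ratA (sq4 r) (cube4 r) m * ratA (sq4 r') (cube4 r') n) +
        ratY (sq4 r) (cube4 r) (quart4 r) m * ratY (sq4 r') (cube4 r') (quart4 r') n) := by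
    intro m n
    simp only [E, Finset.sum_add_distrib, ← Finset.mul_sum, sum_perm, arrSum_dotLin,
      arrSum_dotPairs, ratA_eq hr.sum_eq, ratA_eq hr'.sum_eq, ratY_eq hr.sum_eq,
      ratY_eq hr'.sum_eq]
    ring
  rw [← Finset.sum_div, ratForm_sum]
  simp only [ratioBound, ratForm, hD, hE, P, esym4_eq hr.sum_eq, esym4_eq hr'.sum_eq]
  ring

/-! ### The pair mean and the class function -/

/-- (c) The pair mean multiplies. -/
theorem avg_pairMean (hr : IsPost4 r) (hr' : IsPost4 r') :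
    (∑ σ : Equiv.Perm (Fin 4), pairMean fun i => r i * r' (σ i)) / 24 =
      pairMean r * pairMean r' := by
  simp only [pairMean, Real.sqrt_mul (hr.nonneg _)]
  rw [sum_perm fun i j k l => (√(r 0) * √(r' i) * (√(r 1) * √(r' j)) +
    √(r 0) * √(r' i) * (√(r 2) * √(r' k)) + √(r 0) * √(r' i) * (√(r 3) * √(r' l)) +
    √(r 1) * √(r' j) * (√(r 2) * √(r' k)) + √(r 1) * √(r' j) * (√(r 3) * √(r' l)) +
    √(r 2) * √(r' k) * (√(r 3) * √(r' l))) / 6]
  simp only [arrSum]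
  ring

theorem homExt_classFn (g : ℝ) {a : Fin 4 → ℝ} (ha : ∀ i, 0 ≤ a i) :
    homExt (classFn g) a =
      homExt sq4 a - (1 - g) * mass4 a + g * ratioExt a + (1 - 2 * g) * pairMean a := by
  have hZ : 0 ≤ mass4 a := div_nonneg (Finset.sum_nonneg fun i _ => ha i) (by norm_num)
  simp only [homExt]
  split_ifs with h
  · have hs : ∑ i, a i = 0 := by
      rcases div_eq_zero_iff.1 h with h | h
      · exact h
      · norm_num at h
    have hz : ∀ i, a i = 0 := fun i =>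
      (Finset.sum_eq_zero_iff_of_nonneg fun j _ => ha j).1 hs i (Finset.mem_univ i)
    simp [hz, h, ratioExt, pairMean, esym3]
  · have hpos : 0 < mass4 a := lt_of_le_of_ne hZ (Ne.symm h)
    have hsum : a 0 + a 1 + a 2 + a 3 = 4 * mass4 a := by
      simp only [mass4, Fin.sum_univ_four]; ring
    generalize mass4 a = Z at hpos hsum
    have h3 : esym3 (fun i => a i / Z) = esym3 a / Z ^ 3 := by
      simp only [esym3]; field_simp
    have h2 : 1 - sq4 (fun i => a i / Z) = pairs4 a / Z ^ 2 := by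
      simp only [sq4, pairs4, Fin.sum_univ_four]
      field_simp
      linear_combination -6 * (a 0 + a 1 + a 2 + a 3 + 2 * Z) * hsum
    have hT : pairMean (fun i => a i / Z) = pairMean a / Z := by
      simp only [pairMean, fun i => Real.sqrt_div (ha i) Z]
      have hq := Real.mul_self_sqrt hpos.le
      have hq0 := (Real.sqrt_pos.2 hpos).ne'
      field_simp
      rw [sq, hq]
      ring
    have hR : Z * (g * (esym3 (fun i => a i / Z) / 4) / (1 - sq4 fun i => a i / Z)) =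
        g * ratioExt a := by
      rw [h3, h2, ratioExt]
      field_simp
    rw [classFn, hT, mul_add, mul_add, hR]
    field_simp

/-- (d) Lower bound for the average of the class function. -/
theorem avg24_classFn_ge {g : ℝ} (hg : 0 ≤ g) (hr : IsPost4 r) (hr' : IsPost4 r')
    (q : Fin 6 → ℝ) (l : Fin 3 → ℝ) :
    sqBound q (sq4 r) (cube4 r) (quart4 r) (sq4 r') (cube4 r') (quart4 r') - (1 - g) +
        g * ratioBound l (sq4 r) (cube4 r) (quart4 r) (sq4 r') (cube4 r') (quart4 r') +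
        (1 - 2 * g) * (pairMean r * pairMean r') ≤
      avg24 (classFn g) r r' := by
  have hs := sqBound_le hr hr' q
  have hl := mul_le_mul_of_nonneg_left (ratioBound_le hr hr' l) hg
  have e : avg24 (classFn g) r r' = avg24 sq4 r r' - (1 - g) +
      g * ((∑ σ : Equiv.Perm (Fin 4), ratioExt fun i => r i * r' (σ i)) / 24) +
      (1 - 2 * g) * (pairMean r * pairMean r') := by
    rw [← avg_pairMean hr hr']
    simp only [avg24,
      fun σ : Equiv.Perm (Fin 4) => homExt_classFn g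
        (a := fun i => r i * r' (σ i)) fun i => mul_nonneg (hr.nonneg i) (hr'.nonneg _),
      Finset.sum_add_distrib, Finset.sum_sub_distrib, ← Finset.mul_sum,
      sum_mass4_comb hr.sum_eq hr'.sum_eq]
    ring
  linarith

end

end Vale.Agent.P154.Ferro4
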