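import Vale.Agent.P154.Ferro4.KMoments

/-!
P154, four states: the tangent bound for the `R / A` part with multipliers `l₀ + l₁ u v`.
-/

namespace Vale.Agent.P154.Ferro4

open Channel PermSum

noncomputable section

variable {r r' : Fin 4 → ℝ}

/-- The tangent expression for multipliers `l₀ + l₁ u v`. -/
def ratForm2 (l : Fin 2 → ℝ) (D E : Fin 3 → Fin 3 → ℝ) : ℝ :=
  2 * l 0 * D 0 0 + 2 * l 1 * D 1 1 -
  l 0 ^ 2 / 6 * E 0 0 - l 0 * l 1 / 3 * E 1 1 - l 1 ^ 2 / 6 * E 2 2

/-- The lower bound for the average of the `R / A` part with multipliers `l₀ + l₁ u v`. -/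
def ratioBound2 (l : Fin 2 → ℝ) (s c e t d f : ℝ) : ℝ :=
  ratForm2 l (fun m n => ratN s c e m * ratN t d f n / 4)
    (fun m n => ((1 - 6 * s + 8 * c + 18 * s ^ 2 - 21 * e) *
      (1 - 6 * t + 8 * d + 18 * t ^ 2 - 21 * f) *
      ratA s c m * ratA t d n + ratY s c e m * ratY t d f n) / 12) / 4

theorem ratForm2_sum {ι : Type*} (S : Finset ι) (l : Fin 2 → ℝ)
    (D E : ι → Fin 3 → Fin 3 → ℝ) :
    ∑ σ ∈ S, ratForm2 l (D σ) (E σ) =
      ratForm2 l (fun m n => ∑ σ ∈ S, D σ m n) (fun m n => ∑ σ ∈ S, E σ m n) := by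
  simp only [ratForm2, Finset.sum_add_distrib, Finset.sum_sub_distrib, ← Finset.mul_sum]

/-- Lower bound for the average of the `R / A` part, product tangents. -/
theorem ratioBound2_le (hr : IsPost4 r) (hr' : IsPost4 r') (l : Fin 2 → ℝ) :
    ratioBound2 l (sq4 r) (cube4 r) (quart4 r) (sq4 r') (cube4 r') (quart4 r') ≤
      (∑ σ : Equiv.Perm (Fin 4), ratioExt fun i => r i * r' (σ i)) / 24 := by
  let P : ℝ := esym4 r * esym4 r'
  let D : Equiv.Perm (Fin 4) → Fin 3 → Fin 3 → ℝ := fun σ m n =>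
    dotArr (fun i => prod3 r i * dev r i ^ (m : ℕ)) (fun i => prod3 r' i * dev r' i ^ (n : ℕ))
      (σ 0) (σ 1) (σ 2) (σ 3)
  let E : Equiv.Perm (Fin 4) → Fin 3 → Fin 3 → ℝ := fun σ m n =>
    P * dotLin (fun i => dev r i ^ (m : ℕ)) (fun i => dev r' i ^ (n : ℕ)) r r'
        (σ 0) (σ 1) (σ 2) (σ 3) +
      dotPairs (fun i => prod3 r i * dev r i ^ (m : ℕ)) (fun i => prod3 r' i * dev r' i ^ (n : ℕ))
        r r' (σ 0) (σ 1) (σ 2) (σ 3)
  have hpt : ∀ σ : Equiv.Perm (Fin 4),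
      ratForm2 l (D σ) (E σ) / 4 ≤ ratioExt fun i => r i * r' (σ i) := by
    intro σ
    refine le_of_eq_of_le ?_ (sum_le_ratioExt (fun i => mul_nonneg (hr.nonneg i) (hr'.nonneg _))
      fun i => l 0 + l 1 * (dev r i * dev r' (σ i)))
    have hP : P = r 0 * r' (σ 0) * (r 1 * r' (σ 1)) * (r 2 * r' (σ 2)) * (r 3 * r' (σ 3)) := by
      have e : r' (σ 0) * r' (σ 1) * r' (σ 2) * r' (σ 3) = r' 0 * r' 1 * r' 2 * r' 3 :=
        (Reduce.sym_all r' σ).2.1
      simp only [P, esym4]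
      linear_combination -(r 0 * r 1 * r 2 * r 3) * e
    simp only [ratForm2, D, E, hP, prod3_mul r (fun j => r' (σ j)), prod3_perm, pairs4, dotArr,
      dotLin, dotPairs, Fin.sum_univ_four]
    simp only [← prod3_perm r' σ]
    simp [prod3]
    ring
  refine le_trans ?_ (div_le_div_of_nonneg_right
    (Finset.sum_le_sum fun σ (_ : σ ∈ Finset.univ) => hpt σ) (by norm_num))
  refine le_of_eq ?_
  have hD : ∀ m n, ∑ σ, D σ m n =
      6 * (ratN (sq4 r) (cube4 r) (quart4 r) m * ratN (sq4 r') (cube4 r') (quart4 r') n) := by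
    intro m n
    rw [← ratN_eq hr.sum_eq m, ← ratN_eq hr'.sum_eq n]
    simp only [D, sum_perm fun i j k q => dotArr (fun i => prod3 r i * dev r i ^ (m : ℕ))
      (fun i => prod3 r' i * dev r' i ^ (n : ℕ)) i j k q]
    simp only [arrSum, dotArr, Fin.sum_univ_four]
    ring
  have hE : ∀ m n, ∑ σ, E σ m n =
      2 * (P * (ratA (sq4 r) (cube4 r) m * ratA (sq4 r') (cube4 r') n) +
        ratY (sq4 r) (cube4 r) (quart4 r) m * ratY (sq4 r') (cube4 r') (quart4 r') n) := by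
    intro m n
    simp only [E, Finset.sum_add_distrib, ← Finset.mul_sum, sum_perm, arrSum_dotLin,
      arrSum_dotPairs, ratA_eq hr.sum_eq, ratA_eq hr'.sum_eq, ratY_eq hr.sum_eq,
      ratY_eq hr'.sum_eq]
    ring
  rw [← Finset.sum_div, ratForm2_sum]
  simp only [ratioBound2, ratForm2, hD, hE, P, esym4_eq hr.sum_eq, esym4_eq hr'.sum_eq]
  ring

/-- Lower bound for the average of the class function, product tangents. -/
theorem avg24_classFn_ge2 {g : ℝ} (hg : 0 ≤ g) (hr : IsPost4 r) (hr' : IsPost4 r')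
    (q : Fin 6 → ℝ) (l : Fin 2 → ℝ) :
    sqBound q (sq4 r) (cube4 r) (quart4 r) (sq4 r') (cube4 r') (quart4 r') - (1 - g) +
        g * ratioBound2 l (sq4 r) (cube4 r) (quart4 r) (sq4 r') (cube4 r') (quart4 r') +
        (1 - 2 * g) * (pairMean r * pairMean r') ≤
      avg24 (classFn g) r r' := by
  have hs := sqBound_le hr hr' q
  have hl := mul_le_mul_of_nonneg_left (ratioBound2_le hr hr' l) hg
  have e : avg24 (classFn g) r r' = avg24 sq4 r r' - (1 - g) +
      g * ((∑ σ : Equiv.Perm (Fin 4), ratioExt fun i => r i * r' (σ i)) / 24) +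
      (1 - 2 * g) * (pairMean r * pairMean r') := by
    rw [← avg_pairMean hr hr']
    simp only [avg24,
      fun σ : Equiv.Perm (Fin 4) => homExt_classFn g
        (a := fun i => r i * r' (σ i)) fun i => mul_nonneg (hr.nonneg i) (hr'.nonneg _),
      Finset.sum_add_distrib, Finset.sum_sub_distrib, ← Finset.mul_sum,
      sum_mass4_comb hr.sum_eq hr'.sum_eq]
    ring
  linarith

end

end Vale.Agent.P154.Ferro4
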