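import Vale.Agent.P154.Ferro4.XDefs
import Vale.Agent.P154.Cert.AltCheck

/-!
P154, four states: a pair polynomial above the geometric mean gives a majorant of the class
function, and a kernel criterion for that pair inequality.
-/

namespace Vale.Agent.P154.Ferro4

open Channel PolyCheck

noncomputable section

/-- Where a pair of deviations of a posterior with `s` in `[l, h]` can lie. -/
def PairDom (l h x y : ℝ) : Prop :=
  -1 ≤ x ∧ -1 ≤ y ∧ x + y ≤ 2 ∧ x ^ 2 + y ^ 2 + (x + y) ^ 2 / 2 ≤ 12 * h ∧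
    12 * l ≤ x ^ 2 + y ^ 2 + 1 + (x + y - 1) ^ 2

theorem IsPost4.dev_sum {r : Fin 4 → ℝ} (hr : IsPost4 r) :
    r 0 - 1 + (r 1 - 1) + (r 2 - 1) + (r 3 - 1) = 0 := by
  have := hr.sum_eq
  simp only [Fin.sum_univ_four] at this
  linarith

/-- The mean over the six pairs in the invariants. -/
theorem pairPolyMean_eq (k : Fin 12 → ℝ) {r : Fin 4 → ℝ} (hr : IsPost4 r) :
    (pairPoly k (r 0 - 1) (r 1 - 1) + pairPoly k (r 0 - 1) (r 2 - 1) +
      pairPoly k (r 0 - 1) (r 3 - 1) + pairPoly k (r 1 - 1) (r 2 - 1) +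
      pairPoly k (r 1 - 1) (r 3 - 1) + pairPoly k (r 2 - 1) (r 3 - 1)) / 6 =
      pairPolyMean k (sq4 r) (cube4 r) (quart4 r) := by
  have h := hr.dev_sum
  simp only [sq4, cube4, quart4, Fin.sum_univ_four]
  generalize r 0 - 1 = u0 at h ⊢
  generalize r 1 - 1 = u1 at h ⊢
  generalize r 2 - 1 = u2 at h ⊢
  generalize r 3 - 1 = u3 at h ⊢
  obtain rfl : u3 = -(u0 + u1 + u2) := by linarith
  simp only [pairPoly, pairPolyMean]
  ring

/-- A pair of a posterior lies in the domain of its `s`-interval. -/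
theorem pairDom_of_quad {l h a b c d : ℝ} (ha : -1 ≤ a) (hb : -1 ≤ b) (hc : -1 ≤ c) (hd : -1 ≤ d)
    (hsum : a + b + c + d = 0) (hl : 12 * l ≤ a ^ 2 + b ^ 2 + c ^ 2 + d ^ 2)
    (hh : a ^ 2 + b ^ 2 + c ^ 2 + d ^ 2 ≤ 12 * h) : PairDom l h a b := by
  obtain rfl : d = -(a + b + c) := by linarith
  refine ⟨ha, hb, by linarith, ?_, ?_⟩
  · nlinarith [sq_nonneg (a + b + 2 * c)]
  · nlinarith [mul_nonneg (show (0 : ℝ) ≤ 1 + c by linarith)
      (show (0 : ℝ) ≤ 1 + -(a + b + c) by linarith)]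

/-- The majorant of the class function. -/
theorem classFn_le_majorant {g l h : ℝ} {k : Fin 12 → ℝ} (hg : 2 * g ≤ 1)
    (hk : ∀ x y, PairDom l h x y → √(1 + x) * √(1 + y) ≤ pairPoly k x y)
    {r : Fin 4 → ℝ} (hr : IsPost4 r) (hl : l ≤ sq4 r) (hh : sq4 r ≤ h) :
    classFn g r ≤ classMajorant g k (sq4 r) (cube4 r) (quart4 r) := by
  have hsum := hr.dev_sum
  have hs : sq4 r * 12 = (r 0 - 1) ^ 2 + (r 1 - 1) ^ 2 + (r 2 - 1) ^ 2 + (r 3 - 1) ^ 2 := by
    simp only [sq4, Fin.sum_univ_four]; ring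
  have n : ∀ i, -1 ≤ r i - 1 := fun i => by linarith [hr.nonneg i]
  have key : ∀ i j p q : Fin 4, r i - 1 + (r j - 1) + (r p - 1) + (r q - 1) = 0 →
      sq4 r * 12 = (r i - 1) ^ 2 + (r j - 1) ^ 2 + (r p - 1) ^ 2 + (r q - 1) ^ 2 →
      √(r i) * √(r j) ≤ pairPoly k (r i - 1) (r j - 1) := by
    intro i j p q h1 h2
    have hd := hk _ _ (pairDom_of_quad (n i) (n j) (n p) (n q) h1
      (l := l) (h := h) (by linarith) (by linarith))
    rwa [add_sub_cancel, add_sub_cancel] at hd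
  have h01 := key 0 1 2 3 hsum hs
  have h02 := key 0 2 1 3 (by linarith) (by linarith)
  have h03 := key 0 3 1 2 (by linarith) (by linarith)
  have h12 := key 1 2 0 3 (by linarith) (by linarith)
  have h13 := key 1 3 0 2 (by linarith) (by linarith)
  have h23 := key 2 3 0 1 (by linarith) (by linarith)
  have hT : pairMean r ≤ pairPolyMean k (sq4 r) (cube4 r) (quart4 r) := by
    rw [← pairPolyMean_eq k hr, pairMean]
    linarith
  have hm := mul_le_mul_of_nonneg_left hT (show (0 : ℝ) ≤ 1 - 2 * g by linarith)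
  rw [classFn, classMajorant, esym3_eq r hr.sum_eq]
  linarith

end

/-! ### The criterion -/

/-- A deviation in terms of `a = √(1 + x)`. -/
def devEx (i : ℕ) : Ex := Ex.v i ^ 2 - 1

/-- `D` times `pairPoly (k / D)` minus `D a b`. -/
def pairEx (k : Fin 12 → ℤ) (D : ℕ) : Ex :=
  let x := devEx 0
  let y := devEx 1
  Ex.c (k 0) + Ex.c (k 1) * (x + y) + Ex.c (k 2) * (x * y) + Ex.c (k 3) * (x ^ 2 + y ^ 2) +
    Ex.c (k 4) * (x ^ 3 + y ^ 3) + Ex.c (k 5) * (x * y * (x + y)) +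
    Ex.c (k 6) * (x ^ 4 + y ^ 4) + Ex.c (k 7) * (x * y * (x ^ 2 + y ^ 2)) +
    Ex.c (k 8) * (x ^ 2 * y ^ 2) + Ex.c (k 9) * (x ^ 5 + y ^ 5) +
    Ex.c (k 10) * (x * y * (x ^ 3 + y ^ 3)) + Ex.c (k 11) * (x ^ 2 * y ^ 2 * (x + y)) -
    Ex.c (D : ℤ) * (Ex.v 0 * Ex.v 1)

/-- Leaf `0`: the inequality. Leaves `1`, `2`, `3`: strictly outside the pair domain, by
`x + y > 2`, `s > hn / N`, `s < ln / N`. -/
def pairAlts (k : Fin 12 → ℤ) (D : ℕ) (N : ℕ) (ln hn : ℤ) : List (List Ex) :=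
  let x := devEx 0
  let y := devEx 1
  [[pairEx k D], [1073741824 * (x + y - 2) - 1],
    [1073741824 * (Ex.c (N : ℤ) * (2 * x ^ 2 + 2 * y ^ 2 + (x + y) ^ 2) - 24 * Ex.c hn) - 1],
    [1073741824 * (12 * Ex.c ln - Ex.c (N : ℤ) * (x ^ 2 + y ^ 2 + 1 + (x + y - 1) ^ 2)) - 1]]

/-- The box of `(√(1 + x), √(1 + y))`. -/
def pairBox : List Iv := [⟨0, 2, 1⟩, ⟨0, 2, 1⟩]

/-- The criterion for the pair inequality. -/
theorem pairBound_of_check (k : Fin 12 → ℤ) (D N : ℕ) (ln hn : ℤ) (T : ACut) (hD : 0 < D)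
    (hN : 0 < N) (hc : checkAlt 2 (pairAlts k D N ln hn) T pairBox = true) (x y : ℝ)
    (hd : PairDom ((ln : ℝ) / N) ((hn : ℝ) / N) x y) :
    √(1 + x) * √(1 + y) ≤ pairPoly (fun i => (k i : ℝ) / D) x y := by
  obtain ⟨h1, h2, h3, h4, h5⟩ := hd
  have hNR : (0 : ℝ) < N := Nat.cast_pos.2 hN
  have hDR : (0 : ℝ) < D := Nat.cast_pos.2 hD
  rw [← mul_div_assoc, le_div_iff₀ hNR] at h4
  rw [← mul_div_assoc, div_le_iff₀ hNR] at h5
  obtain ⟨a, ha0, hax⟩ : ∃ a : ℝ, 0 ≤ a ∧ a ^ 2 = 1 + x :=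
    ⟨√(1 + x), Real.sqrt_nonneg _, Real.sq_sqrt (by linarith)⟩
  obtain ⟨b, hb0, hby⟩ : ∃ b : ℝ, 0 ≤ b ∧ b ^ 2 = 1 + y :=
    ⟨√(1 + y), Real.sqrt_nonneg _, Real.sq_sqrt (by linarith)⟩
  have ha2 : a ≤ 2 := by nlinarith
  have hb2 : b ≤ 2 := by nlinarith
  obtain ⟨es, hes, hev⟩ := checkAlt_sound 2 _ T pairBox (fun i => if i = 0 then a else b) hc
    (by simp [pairBox, BoxMem, Iv.Mem, ha0, hb0, ha2, hb2])
  simp only [pairAlts, List.mem_cons, List.not_mem_nil, or_false] at hes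
  have ex : a ^ 2 - 1 = x := by linarith
  have ey : b ^ 2 - 1 = y := by linarith
  rw [show √(1 + x) = a by rw [← hax, Real.sqrt_sq ha0],
    show √(1 + y) = b by rw [← hby, Real.sqrt_sq hb0]]
  rcases hes with rfl | rfl | rfl | rfl
  · have h := hev _ (List.mem_singleton.2 rfl)
    simp only [pairEx, devEx, eval_sub, eval_add, eval_mul, eval_pow, eval_c, eval_v, eval_ofNat,
      if_pos, one_ne_zero, if_false, Nat.cast_one, Int.cast_natCast, ex, ey] at h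
    refine le_of_mul_le_mul_left ?_ hDR
    simp only [pairPoly]
    field_simp
    linarith
  all_goals
    have h := hev _ (List.mem_singleton.2 rfl)
    simp only [devEx, eval_sub, eval_add, eval_mul, eval_pow, eval_c, eval_v, eval_ofNat,
      if_pos, one_ne_zero, if_false, Nat.cast_one, Int.cast_natCast, Nat.cast_ofNat, ex, ey] at h
    exfalso
    nlinarith

/-- The outside expressions: nonpositive on the pair domain. -/
def outEx (N : ℕ) (ln hn : ℤ) (j : Fin 3) : Ex :=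
  let x := devEx 0
  let y := devEx 1
  ![x + y - 2, Ex.c (N : ℤ) * (2 * x ^ 2 + 2 * y ^ 2 + (x + y) ^ 2) - 24 * Ex.c hn,
    12 * Ex.c ln - Ex.c (N : ℤ) * (x ^ 2 + y ^ 2 + 1 + (x + y - 1) ^ 2)] j

/-- `pairAlts` followed by the inequality relaxed by nonnegative multiples of outside
expressions. -/
def mulAlts (k : Fin 12 → ℤ) (D N : ℕ) (ln hn : ℤ) (mus : List (Fin 3 × ℕ)) : List (List Ex) :=
  pairAlts k D N ln hn ++
    mus.map fun m => [pairEx k D + Ex.c (m.2 : ℤ) * outEx N ln hn m.1]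

/-- The criterion with multipliers. -/
theorem pairBound_of_checkMul (k : Fin 12 → ℤ) (D N : ℕ) (ln hn : ℤ) (mus : List (Fin 3 × ℕ))
    (T : ACut) (hD : 0 < D) (hN : 0 < N)
    (hc : checkAlt 2 (mulAlts k D N ln hn mus) T pairBox = true) (x y : ℝ)
    (hd : PairDom ((ln : ℝ) / N) ((hn : ℝ) / N) x y) :
    √(1 + x) * √(1 + y) ≤ pairPoly (fun i => (k i : ℝ) / D) x y := by
  obtain ⟨h1, h2, h3, h4, h5⟩ := hd
  have hNR : (0 : ℝ) < N := Nat.cast_pos.2 hN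
  have hDR : (0 : ℝ) < D := Nat.cast_pos.2 hD
  rw [← mul_div_assoc, le_div_iff₀ hNR] at h4
  rw [← mul_div_assoc, div_le_iff₀ hNR] at h5
  obtain ⟨a, ha0, rfl⟩ : ∃ a : ℝ, 0 ≤ a ∧ x = a ^ 2 - 1 :=
    ⟨√(1 + x), Real.sqrt_nonneg _, by rw [Real.sq_sqrt (by linarith)]; ring⟩
  obtain ⟨b, hb0, rfl⟩ : ∃ b : ℝ, 0 ≤ b ∧ y = b ^ 2 - 1 :=
    ⟨√(1 + y), Real.sqrt_nonneg _, by rw [Real.sq_sqrt (by linarith)]; ring⟩
  rw [add_sub_cancel, add_sub_cancel, Real.sqrt_sq ha0, Real.sqrt_sq hb0]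
  have ha2 : a ≤ 2 := by nlinarith
  have hb2 : b ≤ 2 := by nlinarith
  obtain ⟨es, hes, hev⟩ := checkAlt_sound 2 _ T pairBox (fun i => if i = 0 then a else b) hc
    (by simp [pairBox, BoxMem, Iv.Mem, ha0, hb0, ha2, hb2])
  set pt : ℕ → ℝ := fun i => if i = 0 then a else b with hpt
  suffices h : 0 ≤ (pairEx k D).eval pt by
    simp only [hpt, pairEx, devEx, eval_sub, eval_add, eval_mul, eval_pow, eval_c, eval_v,
      eval_ofNat, if_pos, one_ne_zero, if_false, Nat.cast_one, Int.cast_natCast] at h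
    refine le_of_mul_le_mul_left ?_ hDR
    simp only [pairPoly]
    field_simp
    linarith
  simp only [mulAlts, List.mem_append, List.mem_map] at hes
  rcases hes with hes | ⟨⟨j, c⟩, -, rfl⟩
  · simp only [pairAlts, List.mem_cons, List.not_mem_nil, or_false] at hes
    rcases hes with rfl | rfl | rfl | rfl
    · exact hev _ (List.mem_singleton.2 rfl)
    all_goals
      have h := hev _ (List.mem_singleton.2 rfl)
      simp only [hpt, devEx, eval_sub, eval_add, eval_mul, eval_pow, eval_c, eval_v, eval_ofNat,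
        if_pos, one_ne_zero, if_false, Nat.cast_one, Int.cast_natCast, Nat.cast_ofNat] at h
      exfalso
      nlinarith
  · have h := hev _ (List.mem_singleton.2 rfl)
    have ho : (outEx N ln hn j).eval pt ≤ 0 := by
      fin_cases j <;>
        simp [hpt, outEx, devEx] <;> nlinarith
    rw [eval_add, eval_mul, eval_c, Int.cast_natCast] at h
    have := mul_nonpos_of_nonneg_of_nonpos (Nat.cast_nonneg (α := ℝ) c) ho
    linarith

/-- The majorant from a checked pair polynomial. -/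
theorem classFn_le_majorant_of_check {g : ℝ} (hg : 2 * g ≤ 1) (k : Fin 12 → ℤ) (D N : ℕ)
    (ln hn : ℤ) (T : ACut) (hD : 0 < D) (hN : 0 < N)
    (hc : checkAlt 2 (pairAlts k D N ln hn) T pairBox = true)
    {r : Fin 4 → ℝ} (hr : IsPost4 r) (hl : (ln : ℝ) / N ≤ sq4 r) (hh : sq4 r ≤ (hn : ℝ) / N) :
    classFn g r ≤ classMajorant g (fun i => (k i : ℝ) / D) (sq4 r) (cube4 r) (quart4 r) :=
  classFn_le_majorant hg (pairBound_of_check k D N ln hn T hD hN hc) hr hl hh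

/-! ### Intervals reaching down to zero

There the inequality is an equality of order four at `x = y = 0`; with `a = 1 + ρ`, `b = 1 + τ ρ`
it becomes `ρ ^ 4` times a polynomial. -/

/-- `16 / ρ ^ 4` times the inequality, when the coefficients up to order three are those of the
series. -/
def zeroEx (k : Fin 12 → ℤ) (D : ℕ) : Ex :=
  let p := Ex.v 0
  let t := Ex.v 1
  let X := 2 + p
  let Y := t * (2 + t * p)
  Ex.c (D : ℤ) * (10 + 6 * p + p ^ 2 + t ^ 4 * (10 + 6 * (t * p) + t ^ 2 * p ^ 2) +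
      t * (4 * t - 4 * (1 + t ^ 2) - 4 * (1 + t) ^ 2 - 2 * p * ((1 + t) * (1 + t + t ^ 2)) -
        p ^ 2 * (t * (1 + t ^ 2)))) +
    16 * (Ex.c (k 6) * (X ^ 4 + Y ^ 4) + Ex.c (k 7) * (X * Y * (X ^ 2 + Y ^ 2)) +
      Ex.c (k 8) * (X ^ 2 * Y ^ 2) + p * (Ex.c (k 9) * (X ^ 5 + Y ^ 5) +
      Ex.c (k 10) * (X * Y * (X ^ 3 + Y ^ 3)) + Ex.c (k 11) * (X ^ 2 * Y ^ 2 * (X + Y))))

/-- Leaf `0`: the inequality. Leaf `1`: strictly above `hn / N`. -/
def zeroAlts (k : Fin 12 → ℤ) (D N : ℕ) (hn : ℤ) : List (List Ex) :=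
  let p := Ex.v 0
  let t := Ex.v 1
  let x := p * (2 + p)
  let y := t * p * (2 + t * p)
  [[zeroEx k D],
    [1073741824 * (Ex.c (N : ℤ) * (2 * x ^ 2 + 2 * y ^ 2 + (x + y) ^ 2) - 24 * Ex.c hn) - 1]]

/-- The box of `(ρ, τ)`. -/
def zeroBox : List Iv := [⟨-1, 1, 1⟩, ⟨-1, 1, 1⟩]

/-- The coefficients up to order three are those of the series of the geometric mean. -/
def seriesHead (k : Fin 12 → ℤ) (D : ℕ) : Prop :=
  k 0 = D ∧ 2 * k 1 = D ∧ 4 * k 2 = D ∧ 8 * k 3 = -D ∧ 16 * k 4 = D ∧ 16 * k 5 = -D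

instance (k : Fin 12 → ℤ) (D : ℕ) : Decidable (seriesHead k D) := by
  unfold seriesHead; infer_instance

/-- The criterion for an interval reaching down to zero. -/
theorem pairBound_of_checkZero (k : Fin 12 → ℤ) (D N : ℕ) (ln hn : ℤ) (T : ACut) (hD : 0 < D)
    (hN : 0 < N) (hk : seriesHead k D)
    (hc : checkAlt 2 (zeroAlts k D N hn) T zeroBox = true) (x y : ℝ)
    (hd : PairDom ((ln : ℝ) / N) ((hn : ℝ) / N) x y) :
    √(1 + x) * √(1 + y) ≤ pairPoly (fun i => (k i : ℝ) / D) x y := by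
  obtain ⟨h1, h2, h3, h4, -⟩ := hd
  have hNR : (0 : ℝ) < N := Nat.cast_pos.2 hN
  have hDR : (0 : ℝ) < D := Nat.cast_pos.2 hD
  rw [← mul_div_assoc, le_div_iff₀ hNR] at h4
  obtain ⟨a, ha0, rfl⟩ : ∃ a : ℝ, 0 ≤ a ∧ x = a ^ 2 - 1 :=
    ⟨√(1 + x), Real.sqrt_nonneg _, by rw [Real.sq_sqrt (by linarith)]; ring⟩
  obtain ⟨b, hb0, rfl⟩ : ∃ b : ℝ, 0 ≤ b ∧ y = b ^ 2 - 1 :=
    ⟨√(1 + y), Real.sqrt_nonneg _, by rw [Real.sq_sqrt (by linarith)]; ring⟩
  rw [add_sub_cancel, add_sub_cancel, Real.sqrt_sq ha0, Real.sqrt_sq hb0]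
  obtain ⟨e0, e1, e2, e3, e4, e5⟩ := hk
  have c0 : (k 0 : ℝ) = D := by exact_mod_cast e0
  have c1 : 2 * (k 1 : ℝ) = D := by exact_mod_cast e1
  have c2 : 4 * (k 2 : ℝ) = D := by exact_mod_cast e2
  have c3 : 8 * (k 3 : ℝ) = -D := by exact_mod_cast e3
  have c4 : 16 * (k 4 : ℝ) = D := by exact_mod_cast e4
  have c5 : 16 * (k 5 : ℝ) = -D := by exact_mod_cast e5
  -- the case `|b - 1| ≤ |a - 1|`
  have key : ∀ a b : ℝ, 0 ≤ a → 0 ≤ b → a ^ 2 - 1 + (b ^ 2 - 1) ≤ 2 →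
      ((a ^ 2 - 1) ^ 2 + (b ^ 2 - 1) ^ 2 + (a ^ 2 - 1 + (b ^ 2 - 1)) ^ 2 / 2) * N ≤ 12 * hn →
      |b - 1| ≤ |a - 1| → a * b ≤ pairPoly (fun i => (k i : ℝ) / D) (a ^ 2 - 1) (b ^ 2 - 1) := by
    intro a b ha hb hab hq hle
    refine le_of_mul_le_mul_left ?_ hDR
    obtain ⟨p, rfl⟩ : ∃ p, a = 1 + p := ⟨a - 1, by ring⟩
    obtain ⟨q, rfl⟩ : ∃ q, b = 1 + q := ⟨b - 1, by ring⟩
    rw [add_sub_cancel_left, add_sub_cancel_left] at hle
    rcases eq_or_ne p 0 with rfl | hp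
    · obtain rfl : q = 0 := by simpa using hle
      simp only [pairPoly, c0]
      field_simp
      linarith
    obtain ⟨t, rfl⟩ : ∃ t, q = t * p := ⟨q / p, by field_simp⟩
    rw [abs_mul] at hle
    have ht : |t| ≤ 1 := (mul_le_iff_le_one_left (abs_pos.2 hp)).1 hle
    have hp1 : 1 + p ≤ 2 := by nlinarith
    obtain ⟨ht1, ht2⟩ := abs_le.1 ht
    obtain ⟨es, hes, hev⟩ := checkAlt_sound 2 _ T zeroBox (fun i => if i = 0 then p else t) hc
      (by simp [zeroBox, BoxMem, Iv.Mem]; exact ⟨⟨by linarith, by linarith⟩, ht1, ht2⟩)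
    simp only [zeroAlts, List.mem_cons, List.not_mem_nil, or_false] at hes
    rcases hes with rfl | rfl
    · have h := hev _ (List.mem_singleton.2 rfl)
      simp only [zeroEx, eval_sub, eval_add, eval_mul, eval_pow, eval_c, eval_v, eval_ofNat,
        if_pos, one_ne_zero, if_false, Int.cast_natCast, Nat.cast_ofNat, Nat.cast_one] at h
      have h' := mul_nonneg (show (0 : ℝ) ≤ p ^ 4 by positivity) h
      simp only [pairPoly]
      field_simp
      linear_combination h' / 16 - c0 -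
        ((1 + p) ^ 2 - 1 + ((1 + t * p) ^ 2 - 1)) / 2 * c1 -
        ((1 + p) ^ 2 - 1) * ((1 + t * p) ^ 2 - 1) / 4 * c2 -
        (((1 + p) ^ 2 - 1) ^ 2 + ((1 + t * p) ^ 2 - 1) ^ 2) / 8 * c3 -
        (((1 + p) ^ 2 - 1) ^ 3 + ((1 + t * p) ^ 2 - 1) ^ 3) / 16 * c4 -
        ((1 + p) ^ 2 - 1) * ((1 + t * p) ^ 2 - 1) *
          ((1 + p) ^ 2 - 1 + ((1 + t * p) ^ 2 - 1)) / 16 * c5
    · have h := hev _ (List.mem_singleton.2 rfl)
      simp only [eval_sub, eval_add, eval_mul, eval_pow, eval_c, eval_v, eval_ofNat,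
        if_pos, one_ne_zero, if_false, Int.cast_natCast, Nat.cast_ofNat, Nat.cast_one] at h
      exfalso
      nlinarith
  rcases le_total |b - 1| |a - 1| with h | h
  · exact key a b ha0 hb0 h3 h4 h
  · have hs := key b a hb0 ha0 (by linarith) (by linarith) h
    have e : pairPoly (fun i => (k i : ℝ) / D) (b ^ 2 - 1) (a ^ 2 - 1) =
        pairPoly (fun i => (k i : ℝ) / D) (a ^ 2 - 1) (b ^ 2 - 1) := by
      simp only [pairPoly]; ring
    rw [e, mul_comm b a] at hs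
    exact hs

end Vale.Agent.P154.Ferro4
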