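import Vale.Agent.P154.Ferro4.KMoments
import Vale.Agent.P154.Ferro4.Majorant

/-!
P154, four states: reduction of the closure slack to two-level points.

On a slice of given `s` the slack is, on each side, affine in `(c, e, T)` with nonnegative
coefficient of `T`, plus a nonpositive multiple of `c e₄`. Along the triple moves `e₃` and `e₄`
increase together, so this is midpoint concave there, and two-level points suffice.
-/

namespace Vale.Agent.P154.Ferro4

open Filter Topology Real Channel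

namespace KReduce

open Reduce

lemma strict_two_level {Φ : ℝ → ℝ → ℝ → ℝ}
    (hmid : ∀ a b c a' b' c' : ℝ, 0 ≤ (a - a') * (b - b') → Φ a b c + Φ a' b' c' ≤
      2 * Φ ((a + a') / 2) ((b + b') / 2) ((c + c') / 2))
    (hmono : ∀ a b c c' : ℝ, c < c' → Φ a b c < Φ a b c')
    {S : ℝ} {r : Fin 4 → ℝ} (hr : r ∈ slice S)
    (hmin : IsMinOn (fun r => Φ (esym3 r) (esym4 r) (pairMean r)) (slice S) r) : TwoLevel r := by
  intro i j k hi hj hk
  by_contra hcon
  push Not at hcon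
  obtain ⟨hij, hik, hjk⟩ := hcon
  -- sort the three values
  obtain ⟨a, b, c, hab, hbc, hapos, hdist⟩ : ∃ a b c : Fin 4, r a < r b ∧ r b < r c ∧ 0 < r a ∧
      a ≠ c := by
    rcases lt_or_gt_of_ne hij with h1 | h1 <;> rcases lt_or_gt_of_ne hjk with h2 | h2 <;>
      rcases lt_or_gt_of_ne hik with h3 | h3 <;>
      first
        | exact ⟨i, j, k, h1, h2, hi, fun e => by rw [e] at h3; linarith⟩
        | exact ⟨i, k, j, h3, h2, hi, fun e => by rw [e] at h1; linarith⟩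
        | exact ⟨j, i, k, h1, h3, hj, fun e => by rw [e] at h2; linarith⟩
        | exact ⟨j, k, i, h2, h3, hj, fun e => by rw [e] at h1; linarith⟩
        | exact ⟨k, i, j, h3, h1, hk, fun e => by rw [e] at h2; linarith⟩
        | exact ⟨k, j, i, h2, h1, hk, fun e => by rw [e] at h3; linarith⟩
  have hab' : a ≠ b := fun e => by rw [e] at hab; exact lt_irrefl _ hab
  have hbc' : b ≠ c := fun e => by rw [e] at hbc; exact lt_irrefl _ hbc
  obtain ⟨σ, s0, s1, s2⟩ : ∃ σ : Equiv.Perm (Fin 4), σ 0 = a ∧ σ 1 = b ∧ σ 2 = c := by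
    have key : ∀ a b c : Fin 4, a ≠ b → b ≠ c → a ≠ c →
        ∃ σ : Equiv.Perm (Fin 4), σ 0 = a ∧ σ 1 = b ∧ σ 2 = c := by decide
    exact key a b c hab' hbc' hdist
  set t := r ∘ σ with ht
  obtain ⟨x₁, y₁, z₁, x₂, y₂, z₂, px, py, pz, qx, qy, qz, u1, u2, v1, v2, w12, wne⟩ :=
    move hapos hab hbc
  have hsum : r a + r b + r c + t 3 = 4 := by
    have := (Equiv.sum_comp σ r).trans hr.2.1
    simpa [Fin.sum_univ_four, t, s0, s1, s2] using this
  have hsq : r a ^ 2 + r b ^ 2 + r c ^ 2 + t 3 ^ 2 = S := by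
    have := (Equiv.sum_comp σ fun i => r i ^ 2).trans hr.2.2
    simpa [Fin.sum_univ_four, t, s0, s1, s2] using this
  have hw : 0 ≤ t 3 := hr.1 _
  have hmem : ∀ x y z : ℝ, 0 < x → 0 < y → 0 < z → x + y + z = r a + r b + r c →
      x * y + y * z + z * x = r a * r b + r b * r c + r c * r a →
      ![x, y, z, t 3] ∈ slice S := by
    intro x y z hx hy hz e1 e2
    refine ⟨fun i => ?_, ?_, ?_⟩
    · fin_cases i <;> simp [hx.le, hy.le, hz.le, hw]
    · simp [Fin.sum_univ_four]; linarith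
    · have : x ^ 2 + y ^ 2 + z ^ 2 = r a ^ 2 + r b ^ 2 + r c ^ 2 := by
        have k : ∀ u v w : ℝ, u ^ 2 + v ^ 2 + w ^ 2 =
            (u + v + w) ^ 2 - 2 * (u * v + v * w + w * u) := fun u v w => by ring
        rw [k, k, e1, e2]
      simp [Fin.sum_univ_four]; linarith
  have m1 := hmin (hmem _ _ _ px py pz u1 v1)
  have m2 := hmin (hmem _ _ _ qx qy qz u2 v2)
  obtain ⟨hY, hX⟩ := concave px py pz qx qy qz hapos (hapos.trans hab) (hapos.trans (hab.trans hbc))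
    u1 u2 v1 v2 w12 wne
  simp only [Set.mem_ofPred_eq] at m1 m2
  obtain ⟨t3, t4, tT⟩ := sym_all r σ
  rw [← ht] at t3 t4 tT
  rw [← t3, ← t4, ← tT] at m1 m2
  set n₁ : Fin 4 → ℝ := ![x₁, y₁, z₁, t 3] with hn₁
  set n₂ : Fin 4 → ℝ := ![x₂, y₂, z₂, t 3] with hn₂
  have E3 : (esym3 n₁ + esym3 n₂) / 2 = esym3 t := by
    simp [esym3, n₁, n₂, t, s0, s1, s2]
    linear_combination w12 / 2 + r (σ 3) / 2 * v1 + r (σ 3) / 2 * v2
  have E4 : (esym4 n₁ + esym4 n₂) / 2 = esym4 t := by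
    simp [esym4, n₁, n₂, t, s0, s1, s2]
    linear_combination r (σ 3) / 2 * w12
  have ET : (pairMean n₁ + pairMean n₂) / 2 < pairMean t := by
    have key : ∀ x y z w : ℝ, 0 ≤ x → 0 ≤ y → 0 ≤ z →
        (√x * √y + √x * √z + √x * w + √y * √z + √y * w + √z * w) / 6 =
          (((√x + √y + √z) ^ 2 - (x + y + z)) / 2 + w * (√x + √y + √z)) / 6 := by
      intro x y z w hx hy hz
      linear_combination (sq_sqrt hx + sq_sqrt hy + sq_sqrt hz) * (-1 / 12 : ℝ)
    simp only [pairMean, n₁, n₂, t, Function.comp_apply, s0, s1, s2, Matrix.cons_val_zero,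
      Matrix.cons_val_one, Matrix.cons_val_two, Matrix.cons_val_three, Matrix.tail_cons,
      Matrix.head_cons]
    rw [key _ _ _ _ px.le py.le pz.le, key _ _ _ _ qx.le qy.le qz.le,
      key _ _ _ _ hapos.le (hapos.trans hab).le (hapos.trans (hab.trans hbc)).le]
    have fin : ∀ u v w W e e' e'' : ℝ, 0 ≤ W → u ^ 2 + v ^ 2 < 2 * w ^ 2 → u + v ≤ 2 * w →
        e = e'' → e' = e'' →
        (((u ^ 2 - e) / 2 + W * u) / 6 + ((v ^ 2 - e') / 2 + W * v) / 6) / 2 <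
          ((w ^ 2 - e'') / 2 + W * w) / 6 := fun u v w W e e' e'' hW hq hl he he' => by
      have := mul_le_mul_of_nonneg_left hl hW
      rw [mul_add] at this
      linarith
    exact fin _ _ _ _ _ _ _ (sqrt_nonneg _) hY hX u1 u2
  have hco : 0 ≤ (esym3 n₁ - esym3 n₂) * (esym4 n₁ - esym4 n₂) := by
    have e3 : esym3 n₁ - esym3 n₂ = x₁ * y₁ * z₁ - x₂ * y₂ * z₂ := by
      simp [esym3, n₁, n₂]
      linear_combination t 3 * v1 - t 3 * v2
    have e4 : esym4 n₁ - esym4 n₂ = (x₁ * y₁ * z₁ - x₂ * y₂ * z₂) * t 3 := by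
      simp [esym4, n₁, n₂]
      ring
    rw [e3, e4, ← mul_assoc]
    exact mul_nonneg (mul_self_nonneg _) hw
  have h := (hmid (esym3 n₁) (esym4 n₁) _ (esym3 n₂) (esym4 n₂) _ hco).trans_lt
    (mul_lt_mul_of_pos_left (hmono _ _ _ _ ET) two_pos)
  rw [E3, E4] at h
  linarith

end KReduce

open Reduce in
/-- A comonotonically midpoint concave continuous function of `(e₃, e₄, T)`, monotone in `T`, takes its least
value on a slice at two-level points. -/
theorem ge_of_twoLevel_comonotone {Φ : ℝ → ℝ → ℝ → ℝ}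
    (hcont : Continuous fun p : ℝ × ℝ × ℝ => Φ p.1 p.2.1 p.2.2)
    (hmid : ∀ a b c a' b' c' : ℝ, 0 ≤ (a - a') * (b - b') → Φ a b c + Φ a' b' c' ≤
      2 * Φ ((a + a') / 2) ((b + b') / 2) ((c + c') / 2))
    (hmono : ∀ a b c c' : ℝ, c ≤ c' → Φ a b c ≤ Φ a b c') {m S : ℝ}
    (h : ∀ r : Fin 4 → ℝ, (∀ i, 0 ≤ r i) → ∑ i, r i = 4 → ∑ i, r i ^ 2 = S → TwoLevel r →
      m ≤ Φ (esym3 r) (esym4 r) (pairMean r))
    {r : Fin 4 → ℝ} (h0 : ∀ i, 0 ≤ r i) (h1 : ∑ i, r i = 4) (h2 : ∑ i, r i ^ 2 = S) :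
    m ≤ Φ (esym3 r) (esym4 r) (pairMean r) := by
  refine le_of_forall_pos_le_add fun ε hε => ?_
  set η := ε / (pairMean r + 1) with hη
  have hT := pairMean_nonneg r
  have hη0 : 0 < η := by positivity
  set Ψ : ℝ → ℝ → ℝ → ℝ := fun a b c => Φ a b c + η * c with hΨ
  have hc : Continuous fun r : Fin 4 → ℝ => Ψ (esym3 r) (esym4 r) (pairMean r) := by
    have : Continuous fun r : Fin 4 → ℝ => (esym3 r, esym4 r, pairMean r) := by
      unfold esym3 esym4 pairMean; fun_prop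
    exact (hcont.comp this).add (continuous_const.mul (by unfold pairMean; fun_prop))
  obtain ⟨p, hp, hmin⟩ := (isCompact_slice S).exists_isMinOn ⟨r, h0, h1, h2⟩ hc.continuousOn
  have hmono' : ∀ a b c c' : ℝ, c < c' → Ψ a b c < Ψ a b c' := fun a b c c' hlt => by
    simp only [Ψ]; linarith [hmono a b c c' hlt.le, mul_lt_mul_of_pos_left hlt hη0]
  have hmid' : ∀ a b c a' b' c' : ℝ, 0 ≤ (a - a') * (b - b') → Ψ a b c + Ψ a' b' c' ≤
      2 * Ψ ((a + a') / 2) ((b + b') / 2) ((c + c') / 2) := fun a b c a' b' c' hab => by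
    simp only [Ψ]; linarith [hmid a b c a' b' c' hab]
  have htl := KReduce.strict_two_level hmid' hmono' hp hmin
  have := h p hp.1 hp.2.1 hp.2.2 htl
  have hpr : Ψ (esym3 p) (esym4 p) (pairMean p) ≤ Ψ (esym3 r) (esym4 r) (pairMean r) :=
    hmin ⟨h0, h1, h2⟩
  have hle : η * pairMean r ≤ ε := by
    rw [hη, div_mul_eq_mul_div, div_le_iff₀ (by positivity)]
    nlinarith
  simp only [Ψ] at hpr
  linarith [mul_nonneg hη0.le (pairMean_nonneg p)]

noncomputable section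

/-- The class function in the invariants. -/
def classInv (g s c T : ℝ) : ℝ :=
  s - (1 - g) + g * (1 - 3 * s + 2 * c) / (1 - s) + (1 - 2 * g) * T

theorem classFn_eq_classInv (g : ℝ) {r : Fin 4 → ℝ} (hr : IsPost4 r) :
    classFn g r = classInv g (sq4 r) (cube4 r) (pairMean r) := by
  rw [classFn, classInv, esym3_eq r hr.sum_eq]

/-- The slack of the closure certificate at invariants `(s, c, e, T)` and `(t, d, f, T')`. -/
def kSlack (g ν : ℝ) (φ : ℝ → ℝ) (q : Fin 6 → ℝ) (l : Fin 3 → ℝ) (s c e T t d f T' : ℝ) : ℝ :=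
  sqBound q s c e t d f - (1 - g) + g * ratioBound l s c e t d f + (1 - 2 * g) * (T * T') -
    φ t * classInv g s c T - φ s * classInv g t d T' -
    ν * (classInv g s c T * classInv g t d T')

/-- The coefficient of `T` in the slack, as a function of the other side. -/
def kTau (g ν : ℝ) (φ : ℝ → ℝ) (t d T' : ℝ) : ℝ :=
  (1 - 2 * g) * (T' - φ t - ν * classInv g t d T')

/-- The coefficient of `c e₄` in the slack. -/
def kQuad (g : ℝ) (l : Fin 3 → ℝ) (t d f : ℝ) : ℝ :=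
  -(2 * g * l 1 ^ 2 * ((1 - t) * (1 - 3 * t + 2 * d) -
    (1 - 6 * t + 8 * d + 18 * t ^ 2 - 21 * f)))

/-- Exchange of the two sides in the test vectors. -/
def swapQ (q : Fin 6 → ℝ) : Fin 6 → ℝ := ![q 2, q 3, q 0, q 1, q 4, q 5]

/-- Exchange of the two sides in the tangents. -/
def swapL (l : Fin 3 → ℝ) : Fin 3 → ℝ := ![l 0, l 2, l 1]

theorem kSlack_swap (g ν : ℝ) (φ : ℝ → ℝ) (q : Fin 6 → ℝ) (l : Fin 3 → ℝ)
    (s c e T t d f T' : ℝ) :
    kSlack g ν φ q l s c e T t d f T' = kSlack g ν φ (swapQ q) (swapL l) t d f T' s c e T := by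
  simp only [kSlack, sqBound, sqForm, momW, momA, momB, momC, ratioBound, ratForm, ratN, ratA,
    ratY, swapQ, swapL, Matrix.cons_val]
  ring

theorem kSlack_shape (g ν : ℝ) (φ : ℝ → ℝ) (q : Fin 6 → ℝ) (l : Fin 3 → ℝ)
    (t d f T' s : ℝ) : ∃ a0 a1 a2 : ℝ, ∀ c e T : ℝ,
      kSlack g ν φ q l s c e T t d f T' = a0 + a1 * c + a2 * e + kTau g ν φ t d T' * T +
        kQuad g l t d f * (c * (1 - 6 * s + 8 * c + 18 * s ^ 2 - 21 * e)) := by
  refine ⟨kSlack g ν φ q l s 0 0 0 t d f T',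
    kSlack g ν φ q l s 1 0 0 t d f T' - kSlack g ν φ q l s 0 0 0 t d f T' -
      kQuad g l t d f * (1 - 6 * s + 8 + 18 * s ^ 2),
    kSlack g ν φ q l s 0 1 0 t d f T' - kSlack g ν φ q l s 0 0 0 t d f T', fun c e T => ?_⟩
  simp only [kSlack, classInv, kTau, kQuad, sqBound, sqForm, momW, momA, momB, momC, ratioBound,
    ratForm, ratN, ratA, ratY, Matrix.cons_val]
  ring

/-- The quadratic coefficient is nonpositive: `(e₂ / 6) (e₃ / 4) ≥ e₄`. -/
theorem kQuad_nonpos {g : ℝ} (hg : 0 ≤ g) (l : Fin 3 → ℝ) {r : Fin 4 → ℝ} (hr : IsPost4 r) :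
    kQuad g l (sq4 r) (cube4 r) (quart4 r) ≤ 0 := by
  have h3 := esym3_eq r hr.sum_eq
  have h4 := esym4_eq hr.sum_eq
  have h2 : 1 - sq4 r = pairs4 r := by
    have := hr.sum_eq
    simp only [Fin.sum_univ_four] at this
    obtain e : r 3 = 4 - r 0 - r 1 - r 2 := by linarith
    simp only [sq4, pairs4, Fin.sum_univ_four, e]
    ring
  have key : 24 * esym4 r ≤ 6 * pairs4 r * esym3 r := by
    have hs := hr.sum_eq
    simp only [Fin.sum_univ_four] at hs
    have e4 : 24 * esym4 r = 6 * (r 0 + r 1 + r 2 + r 3) * esym4 r := by rw [hs]; ring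
    rw [e4]
    simp only [esym4, esym3, pairs4]
    have h := hr.nonneg
    nlinarith [mul_nonneg (h 0) (sq_nonneg (r 1 * r 2 - r 1 * r 3)),
      mul_nonneg (h 0) (sq_nonneg (r 1 * r 2 - r 2 * r 3)),
      mul_nonneg (h 0) (sq_nonneg (r 1 * r 3 - r 2 * r 3)),
      mul_nonneg (h 1) (sq_nonneg (r 0 * r 2 - r 0 * r 3)),
      mul_nonneg (h 1) (sq_nonneg (r 0 * r 2 - r 2 * r 3)),
      mul_nonneg (h 1) (sq_nonneg (r 0 * r 3 - r 2 * r 3)),
      mul_nonneg (h 2) (sq_nonneg (r 0 * r 1 - r 0 * r 3)),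
      mul_nonneg (h 2) (sq_nonneg (r 0 * r 1 - r 1 * r 3)),
      mul_nonneg (h 2) (sq_nonneg (r 0 * r 3 - r 1 * r 3)),
      mul_nonneg (h 3) (sq_nonneg (r 0 * r 1 - r 0 * r 2)),
      mul_nonneg (h 3) (sq_nonneg (r 0 * r 1 - r 1 * r 2)),
      mul_nonneg (h 3) (sq_nonneg (r 0 * r 2 - r 1 * r 2))]
  rw [kQuad, ← h3, ← h4, h2, neg_nonpos]
  exact mul_nonneg (mul_nonneg (by linarith) (sq_nonneg _)) (by linarith)

/-- An affine function of `(c, e, T)` increasing in `T`, plus a nonpositive multiple of `c e₄`,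
is bounded below at two-level points of a slice. -/
theorem side_twoLevel {s a0 a1 a2 a3 a4 : ℝ} (h3 : 0 ≤ a3) (h4 : a4 ≤ 0)
    (h : ∀ r, IsPost4 r → TwoLevel r → sq4 r = s → 0 ≤ a0 + a1 * cube4 r + a2 * quart4 r +
      a3 * pairMean r +
      a4 * (cube4 r * (1 - 6 * s + 8 * cube4 r + 18 * s ^ 2 - 21 * quart4 r)))
    {r : Fin 4 → ℝ} (hr : IsPost4 r) (hs : sq4 r = s) :
    0 ≤ a0 + a1 * cube4 r + a2 * quart4 r + a3 * pairMean r +
      a4 * (cube4 r * (1 - 6 * s + 8 * cube4 r + 18 * s ^ 2 - 21 * quart4 r)) := by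
  have key : ∀ v : Fin 4 → ℝ, ∑ i, v i = 4 → sq4 v = s →
      a0 + a1 * cube4 v + a2 * quart4 v + a3 * pairMean v +
        a4 * (cube4 v * (1 - 6 * s + 8 * cube4 v + 18 * s ^ 2 - 21 * quart4 v)) =
      a0 + a1 * ((esym3 v / 4 - 1 + 3 * s) / 2) +
        a2 * ((1 - 6 * s + 4 * (esym3 v / 4 - 1 + 3 * s) + 18 * s ^ 2 - esym4 v) / 21) +
        a3 * pairMean v + a4 * ((esym3 v / 4 - 1 + 3 * s) / 2 * esym4 v) := by
    intro v hv hsv
    rw [esym3_eq v hv, esym4_eq hv, hsv]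
    ring
  rw [key r hr.sum_eq hs]
  refine ge_of_twoLevel_comonotone (Φ := fun x y z => a0 + a1 * ((x / 4 - 1 + 3 * s) / 2) +
      a2 * ((1 - 6 * s + 4 * (x / 4 - 1 + 3 * s) + 18 * s ^ 2 - y) / 21) + a3 * z +
      a4 * ((x / 4 - 1 + 3 * s) / 2 * y))
    (S := 12 * s + 4) (by fun_prop) (fun a b c a' b' c' hab => ?_)
    (fun a b c c' hc => by linarith [mul_le_mul_of_nonneg_left hc h3]) ?_ hr.nonneg hr.sum_eq ?_
  · have := mul_nonpos_of_nonpos_of_nonneg h4 hab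
    linarith
  · intro v hv0 hv1 hv2 htl
    have hsv : sq4 v = s := by
      simp only [Fin.sum_univ_four] at hv1 hv2
      simp only [sq4, Fin.sum_univ_four]
      linarith
    rw [← key v hv1 hsv]
    exact h v ⟨hv0, hv1⟩ htl hsv
  · have hs' := hr.sum_eq
    simp only [Fin.sum_univ_four] at hs' ⊢
    simp only [sq4, Fin.sum_univ_four] at hs
    linarith

/-- The coefficient of `T` is nonnegative as soon as it is so at two-level points. -/
theorem kTau_of_twoLevel {g ν : ℝ} {φ : ℝ → ℝ} (hg : 2 * g ≤ 1) (hν : ν * (1 - 2 * g) ≤ 1)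
    {t : ℝ}
    (h : ∀ r, IsPost4 r → TwoLevel r → sq4 r = t → 0 ≤ kTau g ν φ t (cube4 r) (pairMean r))
    {r : Fin 4 → ℝ} (hr : IsPost4 r) (ht : sq4 r = t) :
    0 ≤ kTau g ν φ t (cube4 r) (pairMean r) := by
  have e : ∀ c e T : ℝ, kTau g ν φ t c T = kTau g ν φ t 0 0 +
      (kTau g ν φ t 1 0 - kTau g ν φ t 0 0) * c + 0 * e +
      (1 - 2 * g) * (1 - ν * (1 - 2 * g)) * T +
      0 * (c * (1 - 6 * t + 8 * c + 18 * t ^ 2 - 21 * e)) := fun c e T => by
    simp only [kTau, classInv]; ring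
  rw [e _ (quart4 r) _]
  refine side_twoLevel (mul_nonneg (by linarith) (by linarith)) le_rfl
    (fun v hv htl hvt => ?_) hr ht
  rw [← e]
  exact h v hv htl hvt

/-- Left reduction. -/
theorem kSlack_left {g ν : ℝ} {φ : ℝ → ℝ} (hg : 0 ≤ g) (q : Fin 6 → ℝ) (l : Fin 3 → ℝ)
    {r' : Fin 4 → ℝ} (hr' : IsPost4 r')
    (hτ : 0 ≤ kTau g ν φ (sq4 r') (cube4 r') (pairMean r')) {s : ℝ}
    (h : ∀ r, IsPost4 r → TwoLevel r → sq4 r = s →
      0 ≤ kSlack g ν φ q l s (cube4 r) (quart4 r) (pairMean r)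
        (sq4 r') (cube4 r') (quart4 r') (pairMean r'))
    {r : Fin 4 → ℝ} (hr : IsPost4 r) (hs : sq4 r = s) :
    0 ≤ kSlack g ν φ q l s (cube4 r) (quart4 r) (pairMean r)
        (sq4 r') (cube4 r') (quart4 r') (pairMean r') := by
  obtain ⟨a0, a1, a2, ha⟩ :=
    kSlack_shape g ν φ q l (sq4 r') (cube4 r') (quart4 r') (pairMean r') s
  rw [ha]
  refine side_twoLevel hτ (kQuad_nonpos hg l hr') (fun v hv htl hvs => ?_) hr hs
  rw [← ha]
  exact h v hv htl hvs

/-- The slack is nonnegative on a cell as soon as it is so at two-level points, provided the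
coefficient of `T` is nonnegative on both sides. -/
theorem kSlack_of_twoLevel {g ν : ℝ} {φ : ℝ → ℝ} {q : Fin 6 → ℝ} {l : Fin 3 → ℝ} (hg : 0 ≤ g)
    {S T : Set ℝ}
    (hτS : ∀ r, IsPost4 r → TwoLevel r → sq4 r ∈ S →
      0 ≤ kTau g ν φ (sq4 r) (cube4 r) (pairMean r))
    (hτT : ∀ r, IsPost4 r → sq4 r ∈ T → 0 ≤ kTau g ν φ (sq4 r) (cube4 r) (pairMean r))
    (h : ∀ r r', IsPost4 r → IsPost4 r' → TwoLevel r → TwoLevel r' → sq4 r ∈ S → sq4 r' ∈ T →
      0 ≤ kSlack g ν φ q l (sq4 r) (cube4 r) (quart4 r) (pairMean r)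
        (sq4 r') (cube4 r') (quart4 r') (pairMean r'))
    {r r' : Fin 4 → ℝ} (hr : IsPost4 r) (hr' : IsPost4 r') (hs : sq4 r ∈ S) (ht : sq4 r' ∈ T) :
    0 ≤ kSlack g ν φ q l (sq4 r) (cube4 r) (quart4 r) (pairMean r)
        (sq4 r') (cube4 r') (quart4 r') (pairMean r') := by
  refine kSlack_left hg q l hr' (hτT r' hr' ht) (fun v hv htl hvs => ?_) hr rfl
  rw [← hvs] at hs ⊢
  rw [kSlack_swap]
  refine kSlack_left hg (swapQ q) (swapL l) hv (hτS v hv htl hs) (fun v' hv' htl' hvt => ?_)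
    hr' rfl
  rw [← hvt] at ht ⊢
  rw [← kSlack_swap]
  exact h v v' hv hv' htl htl' hs ht

/-- Left reduction without a sign condition: where the coefficient of `T` is negative, `T` is
replaced by a majorant affine in `(c, e)`. -/
theorem kSlack_left_majorant {g ν : ℝ} {φ : ℝ → ℝ} (hg : 0 ≤ g) (q : Fin 6 → ℝ) (l : Fin 3 → ℝ)
    {r' : Fin 4 → ℝ} (hr' : IsPost4 r') {T' s m0 m1 m2 : ℝ}
    (hM : ∀ r, IsPost4 r → sq4 r = s → pairMean r ≤ m0 + m1 * cube4 r + m2 * quart4 r)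
    (h : ∀ r, IsPost4 r → TwoLevel r → sq4 r = s →
      0 ≤ kSlack g ν φ q l s (cube4 r) (quart4 r) (pairMean r)
        (sq4 r') (cube4 r') (quart4 r') T')
    (hh : ∀ r, IsPost4 r → TwoLevel r → sq4 r = s →
      0 ≤ kSlack g ν φ q l s (cube4 r) (quart4 r) (m0 + m1 * cube4 r + m2 * quart4 r)
        (sq4 r') (cube4 r') (quart4 r') T')
    {r : Fin 4 → ℝ} (hr : IsPost4 r) (hs : sq4 r = s) :
    0 ≤ kSlack g ν φ q l s (cube4 r) (quart4 r) (pairMean r)
        (sq4 r') (cube4 r') (quart4 r') T' := by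
  obtain ⟨a0, a1, a2, ha⟩ := kSlack_shape g ν φ q l (sq4 r') (cube4 r') (quart4 r') T' s
  rw [ha]
  set τ := kTau g ν φ (sq4 r') (cube4 r') T' with hτ
  have hQ := kQuad_nonpos hg l hr'
  rcases le_total 0 τ with hp | hn
  · refine side_twoLevel hp hQ (fun v hv htl hvs => ?_) hr hs
    rw [← ha]
    exact h v hv htl hvs
  · have hlow := side_twoLevel (a0 := a0 + τ * m0) (a1 := a1 + τ * m1) (a2 := a2 + τ * m2)
      (a3 := 0) (s := s) le_rfl hQ (fun v hv htl hvs => by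
        have := hh v hv htl hvs
        rw [ha] at this
        linarith) hr hs
    have := mul_le_mul_of_nonpos_left (hM r hr hs) hn
    linarith

/-- The slack is nonnegative on a cell as soon as it is so at two-level points for both `T` and
its majorants. -/
theorem kSlack_of_twoLevel_majorant {g ν : ℝ} {φ : ℝ → ℝ} {q : Fin 6 → ℝ} {l : Fin 3 → ℝ}
    (hg : 0 ≤ g) {S T : Set ℝ} {m n : ℝ → Fin 3 → ℝ}
    (hm : ∀ r, IsPost4 r → sq4 r ∈ S →
      pairMean r ≤ m (sq4 r) 0 + m (sq4 r) 1 * cube4 r + m (sq4 r) 2 * quart4 r)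
    (hn : ∀ r, IsPost4 r → sq4 r ∈ T →
      pairMean r ≤ n (sq4 r) 0 + n (sq4 r) 1 * cube4 r + n (sq4 r) 2 * quart4 r)
    (h : ∀ r r', IsPost4 r → IsPost4 r' → TwoLevel r → TwoLevel r' → sq4 r ∈ S → sq4 r' ∈ T →
      ∀ X ∈ ({pairMean r, m (sq4 r) 0 + m (sq4 r) 1 * cube4 r + m (sq4 r) 2 * quart4 r} : Set ℝ),
      ∀ Y ∈ ({pairMean r', n (sq4 r') 0 + n (sq4 r') 1 * cube4 r' + n (sq4 r') 2 * quart4 r'} :
        Set ℝ),
      0 ≤ kSlack g ν φ q l (sq4 r) (cube4 r) (quart4 r) X (sq4 r') (cube4 r') (quart4 r') Y)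
    {r r' : Fin 4 → ℝ} (hr : IsPost4 r) (hr' : IsPost4 r') (hs : sq4 r ∈ S) (ht : sq4 r' ∈ T) :
    0 ≤ kSlack g ν φ q l (sq4 r) (cube4 r) (quart4 r) (pairMean r)
        (sq4 r') (cube4 r') (quart4 r') (pairMean r') := by
  have right : ∀ v, IsPost4 v → TwoLevel v → sq4 v ∈ S →
      ∀ X ∈ ({pairMean v, m (sq4 v) 0 + m (sq4 v) 1 * cube4 v + m (sq4 v) 2 * quart4 v} : Set ℝ),
      0 ≤ kSlack g ν φ q l (sq4 v) (cube4 v) (quart4 v) X
        (sq4 r') (cube4 r') (quart4 r') (pairMean r') := by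
    intro v hv htl hvS X hX
    rw [kSlack_swap]
    refine kSlack_left_majorant hg (swapQ q) (swapL l) hv (T' := X) (m0 := n (sq4 r') 0)
      (m1 := n (sq4 r') 1) (m2 := n (sq4 r') 2)
      (fun w hw hwt => ?_) (fun w hw htl' hwt => ?_) (fun w hw htl' hwt => ?_) hr' rfl
    all_goals rw [← hwt] at ht ⊢
    · exact hn w hw ht
    · rw [← kSlack_swap]
      exact h v w hv hw htl htl' hvS ht X hX _ (Set.mem_insert _ _)
    · rw [← kSlack_swap]
      exact h v w hv hw htl htl' hvS ht X hX _ (Set.mem_insert_of_mem _ rfl)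
  refine kSlack_left_majorant hg q l hr' (m0 := m (sq4 r) 0) (m1 := m (sq4 r) 1)
    (m2 := m (sq4 r) 2) (fun w hw hws => ?_)
    (fun w hw htl hws => ?_) (fun w hw htl hws => ?_) hr rfl
  all_goals rw [← hws] at hs ⊢
  · exact hm w hw hs
  · exact right w hw htl hs _ (Set.mem_insert _ _)
  · exact right w hw htl hs _ (Set.mem_insert_of_mem _ rfl)

/-- The three coefficients of a pair polynomial majorant on a slice. -/
def majCoef (k : Fin 12 → ℝ) (s : ℝ) : Fin 3 → ℝ :=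
  ![k 0 + (6 * k 3 - k 2) * s + 12 * k 8 * s ^ 2,
    12 * k 4 - 4 * k 5 + (120 * k 9 - 40 * k 10 + 8 * k 11) * s,
    42 * k 6 - 14 * k 7 - 7 * k 8]

/-- A majorant of the pair mean from a pair bound. -/
theorem pairMean_le_majCoef {l h : ℝ} {k : Fin 12 → ℝ}
    (hk : ∀ x y, PairDom l h x y → √(1 + x) * √(1 + y) ≤ pairPoly k x y)
    {r : Fin 4 → ℝ} (hr : IsPost4 r) (hl : l ≤ sq4 r) (hh : sq4 r ≤ h) :
    pairMean r ≤
      majCoef k (sq4 r) 0 + majCoef k (sq4 r) 1 * cube4 r + majCoef k (sq4 r) 2 * quart4 r := by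
  have := classFn_le_majorant (g := 0) (by norm_num) hk hr hl hh
  simp only [classFn, classMajorant, pairPolyMean, zero_mul, zero_div] at this
  simp only [majCoef, Matrix.cons_val]
  linarith

/-- A nonnegative slack gives the pointwise closure inequality. -/
theorem hK_of_kSlack {g ν : ℝ} {φ : ℝ → ℝ} (hg : 0 ≤ g) (q : Fin 6 → ℝ) (l : Fin 3 → ℝ)
    {r r' : Fin 4 → ℝ} (hr : IsPost4 r) (hr' : IsPost4 r')
    (h : 0 ≤ kSlack g ν φ q l (sq4 r) (cube4 r) (quart4 r) (pairMean r)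
      (sq4 r') (cube4 r') (quart4 r') (pairMean r')) :
    φ (sq4 r') * classFn g r + φ (sq4 r) * classFn g r' + ν * (classFn g r * classFn g r') ≤
      avg24 (classFn g) r r' := by
  have hb := avg24_classFn_ge hg hr hr' q l
  rw [classFn_eq_classInv g hr, classFn_eq_classInv g hr']
  simp only [kSlack] at h
  linarith

end

end Vale.Agent.P154.Ferro4
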