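import Vale.Agent.P154.Ferro4.KMoments2
import Vale.Agent.P154.Ferro4.KReduce

/-!
P154, four states: the closure slack with product tangents, and its reduction to two-level points.

The coefficient of `c e₄` of the slack on one side is `-(g / 12) l₁ ^ 2 M` with `M = kM` of the
other side. Where `M` may be negative a penalty `k (C - c) (E - e₄) ≥ 0`, with `M + k ≥ 0`, is
subtracted, which makes the slack concave along comonotone moves.
-/

namespace Vale.Agent.P154.Ferro4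

open Channel PermSum

noncomputable section

/-- `e₄` in the invariants. -/
def e4Inv (s c e : ℝ) : ℝ := 1 - 6 * s + 8 * c + 18 * s ^ 2 - 21 * e

theorem e4Inv_eq {r : Fin 4 → ℝ} (hr : IsPost4 r) :
    e4Inv (sq4 r) (cube4 r) (quart4 r) = esym4 r :=
  (esym4_eq hr.sum_eq).symm

/-- The slack of the closure certificate, product tangents. -/
def kSlack2 (g ν : ℝ) (φ : ℝ → ℝ) (q : Fin 6 → ℝ) (l : Fin 2 → ℝ) (s c e T t d f T' : ℝ) : ℝ :=
  sqBound q s c e t d f - (1 - g) + g * ratioBound2 l s c e t d f + (1 - 2 * g) * (T * T') -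
    φ t * classInv g s c T - φ s * classInv g t d T' -
    ν * (classInv g s c T * classInv g t d T')

/-- The other-side factor in the coefficient of `c e₄`. -/
def kM (t d f : ℝ) : ℝ :=
  24 * (1 - t) * ((1 - 3 * t + 2 * d) - e4Inv t d f) - 72 * t * e4Inv t d f +
    48 * d * e4Inv t d f

/-- A minorant of `kM`, affine in `(d, f)`, exact where `d = C` or `e₄ = E`. -/
def kMLow (C E t d f : ℝ) : ℝ :=
  24 * (1 - t) * ((1 - 3 * t + 2 * d) - e4Inv t d f) - 72 * t * e4Inv t d f +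
    48 * (C * e4Inv t d f + E * d - C * E)

/-- The corner product. -/
def kCorner (C E s c e : ℝ) : ℝ := (C - c) * (E - e4Inv s c e)

/-- The penalised slack; `p = (kS, CS, ES)`, `p' = (kT, CT, ET)`. -/
def kSlackPen (g ν : ℝ) (φ : ℝ → ℝ) (q : Fin 6 → ℝ) (l : Fin 2 → ℝ) (p p' : Fin 3 → ℝ)
    (s c e T t d f T' : ℝ) : ℝ :=
  kSlack2 g ν φ q l s c e T t d f T' -
    g / 12 * l 1 ^ 2 *
      (p' 0 * kCorner (p 1) (p 2) s c e + p 0 * kCorner (p' 1) (p' 2) t d f)

theorem kSlackPen_swap (g ν : ℝ) (φ : ℝ → ℝ) (q : Fin 6 → ℝ) (l : Fin 2 → ℝ) (p p' : Fin 3 → ℝ)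
    (s c e T t d f T' : ℝ) :
    kSlackPen g ν φ q l p p' s c e T t d f T' =
      kSlackPen g ν φ (swapQ q) l p' p t d f T' s c e T := by
  simp only [kSlackPen, kSlack2, kCorner, e4Inv, sqBound, sqForm, momW, momA, momB, momC,
    ratioBound2, ratForm2, ratN, ratA, ratY, swapQ, Matrix.cons_val]
  ring

theorem kSlackPen_shape (g ν : ℝ) (φ : ℝ → ℝ) (q : Fin 6 → ℝ) (l : Fin 2 → ℝ) (p p' : Fin 3 → ℝ)
    (t d f T' s : ℝ) : ∃ a0 a1 a2 : ℝ, ∀ c e T : ℝ,
      kSlackPen g ν φ q l p p' s c e T t d f T' = a0 + a1 * c + a2 * e + kTau g ν φ t d T' * T +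
        -(g / 12 * l 1 ^ 2 * (kM t d f + p' 0)) *
          (c * (1 - 6 * s + 8 * c + 18 * s ^ 2 - 21 * e)) := by
  refine ⟨kSlackPen g ν φ q l p p' s 0 0 0 t d f T',
    kSlackPen g ν φ q l p p' s 1 0 0 t d f T' - kSlackPen g ν φ q l p p' s 0 0 0 t d f T' -
      -(g / 12 * l 1 ^ 2 * (kM t d f + p' 0)) * (1 - 6 * s + 8 + 18 * s ^ 2),
    kSlackPen g ν φ q l p p' s 0 1 0 t d f T' - kSlackPen g ν φ q l p p' s 0 0 0 t d f T',
    fun c e T => ?_⟩
  simp only [kSlackPen, kSlack2, kCorner, e4Inv, classInv, kTau, kM, sqBound, sqForm, momW, momA,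
    momB, momC, ratioBound2, ratForm2, ratN, ratA, ratY, Matrix.cons_val]
  ring

/-- An affine bound on a slice holds as soon as it holds at two-level points. -/
theorem affine_of_twoLevel {s a0 a1 a2 : ℝ}
    (h : ∀ r, IsPost4 r → TwoLevel r → sq4 r = s → 0 ≤ a0 + a1 * cube4 r + a2 * quart4 r)
    {r : Fin 4 → ℝ} (hr : IsPost4 r) (hs : sq4 r = s) :
    0 ≤ a0 + a1 * cube4 r + a2 * quart4 r := by
  have := side_twoLevel (a0 := a0) (a1 := a1) (a2 := a2) (a3 := 0) (a4 := 0) (s := s) le_rfl le_rfl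
    (fun v hv htl hvs => by linarith [h v hv htl hvs]) hr hs
  linarith

/-- The corner product is nonnegative when `C` and `E` bound `c` and `e₄` at two-level points. -/
theorem kCorner_nonneg {C E s : ℝ}
    (h : ∀ r, IsPost4 r → TwoLevel r → sq4 r = s →
      cube4 r ≤ C ∧ e4Inv s (cube4 r) (quart4 r) ≤ E)
    {r : Fin 4 → ℝ} (hr : IsPost4 r) (hs : sq4 r = s) :
    0 ≤ kCorner C E s (cube4 r) (quart4 r) := by
  refine mul_nonneg ?_ ?_
  · have := affine_of_twoLevel (a0 := C) (a1 := -1) (a2 := 0) (s := s)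
      (fun v hv htl hvs => by linarith [(h v hv htl hvs).1]) hr hs
    linarith
  · have := affine_of_twoLevel (a0 := E - 1 + 6 * s - 18 * s ^ 2) (a1 := -8) (a2 := 21) (s := s)
      (fun v hv htl hvs => by
        have := (h v hv htl hvs).2
        simp only [e4Inv] at this
        linarith) hr hs
    simp only [e4Inv]
    linarith

/-- `kM + k ≥ 0` on a slice from two-level points of its minorant. -/
theorem kM_nonneg_of_twoLevel {C E k t : ℝ}
    (hcor : ∀ r, IsPost4 r → sq4 r = t → 0 ≤ kCorner C E t (cube4 r) (quart4 r))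
    (h : ∀ r, IsPost4 r → TwoLevel r → sq4 r = t →
      0 ≤ kMLow C E t (cube4 r) (quart4 r) + k)
    {r : Fin 4 → ℝ} (hr : IsPost4 r) (ht : sq4 r = t) :
    0 ≤ kM t (cube4 r) (quart4 r) + k := by
  have e : ∀ c x : ℝ, kMLow C E t c x + k = (kMLow C E t 0 0 + k) +
      (kMLow C E t 1 0 - kMLow C E t 0 0) * c + (kMLow C E t 0 1 - kMLow C E t 0 0) * x :=
    fun c x => by simp only [kMLow, e4Inv]; ring
  have hlow : 0 ≤ kMLow C E t (cube4 r) (quart4 r) + k := by
    rw [e]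
    refine affine_of_twoLevel (fun v hv htl hvt => ?_) hr ht
    rw [← e]
    exact h v hv htl hvt
  have hc := hcor r hr ht
  simp only [kM, kMLow, kCorner] at *
  linarith

/-- Left reduction without a sign condition on the coefficient of `T`. -/
theorem kSlackPen_left {g ν : ℝ} {φ : ℝ → ℝ} (hg : 0 ≤ g) {q : Fin 6 → ℝ} {l : Fin 2 → ℝ}
    {p p' : Fin 3 → ℝ} {t d f T' s : ℝ} (hM : 0 ≤ kM t d f + p' 0) {m : Fin 3 → ℝ}
    (hm : ∀ r, IsPost4 r → sq4 r = s → kTau g ν φ t d T' < 0 →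
      pairMean r ≤ m 0 + m 1 * cube4 r + m 2 * quart4 r)
    (h : ∀ r, IsPost4 r → TwoLevel r → sq4 r = s →
      0 ≤ kSlackPen g ν φ q l p p' s (cube4 r) (quart4 r) (pairMean r) t d f T')
    (hh : ∀ r, IsPost4 r → TwoLevel r → sq4 r = s → kTau g ν φ t d T' < 0 →
      0 ≤ kSlackPen g ν φ q l p p' s (cube4 r) (quart4 r)
        (m 0 + m 1 * cube4 r + m 2 * quart4 r) t d f T')
    {r : Fin 4 → ℝ} (hr : IsPost4 r) (hs : sq4 r = s) :
    0 ≤ kSlackPen g ν φ q l p p' s (cube4 r) (quart4 r) (pairMean r) t d f T' := by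
  obtain ⟨a0, a1, a2, ha⟩ := kSlackPen_shape g ν φ q l p p' t d f T' s
  rw [ha]
  set τ := kTau g ν φ t d T' with hτ
  have hQ : -(g / 12 * l 1 ^ 2 * (kM t d f + p' 0)) ≤ 0 :=
    neg_nonpos.2 (mul_nonneg (mul_nonneg (by linarith) (sq_nonneg _)) hM)
  rcases le_or_gt 0 τ with hp | hn
  · refine side_twoLevel hp hQ (fun v hv htl hvs => ?_) hr hs
    rw [← ha]
    exact h v hv htl hvs
  · have hlow := side_twoLevel (a0 := a0 + τ * m 0) (a1 := a1 + τ * m 1) (a2 := a2 + τ * m 2)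
      (a3 := 0) (s := s) le_rfl hQ (fun v hv htl hvs => by
        have := hh v hv htl hvs hn
        rw [ha] at this
        linarith) hr hs
    have := mul_le_mul_of_nonpos_left (hm r hr hs hn) hn.le
    linarith

/-- The slack is nonnegative on a pair of slices as soon as the penalised slack is so at two-level
points, for both values of `T` where its coefficient is not known to be nonnegative. -/
theorem kSlack2_of_twoLevel {g ν : ℝ} {φ : ℝ → ℝ} (hg : 0 ≤ g) {q : Fin 6 → ℝ} {l : Fin 2 → ℝ}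
    {p p' m n : Fin 3 → ℝ} {s t : ℝ} (hp : 0 ≤ p 0) (hp' : 0 ≤ p' 0)
    (hcS : ∀ r, IsPost4 r → sq4 r = s → 0 ≤ kCorner (p 1) (p 2) s (cube4 r) (quart4 r))
    (hcT : ∀ r, IsPost4 r → sq4 r = t → 0 ≤ kCorner (p' 1) (p' 2) t (cube4 r) (quart4 r))
    (hMS : ∀ r, IsPost4 r → TwoLevel r → sq4 r = s → 0 ≤ kM s (cube4 r) (quart4 r) + p 0)
    (hMT : ∀ r, IsPost4 r → sq4 r = t → 0 ≤ kM t (cube4 r) (quart4 r) + p' 0)
    (hm : ∀ r, IsPost4 r → sq4 r = s → pairMean r ≤ m 0 + m 1 * cube4 r + m 2 * quart4 r)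
    (hn : ∀ r, IsPost4 r → sq4 r = t → pairMean r ≤ n 0 + n 1 * cube4 r + n 2 * quart4 r)
    (h : ∀ r r', IsPost4 r → IsPost4 r' → TwoLevel r → TwoLevel r' → sq4 r = s → sq4 r' = t →
      ∀ X ∈ ({pairMean r, m 0 + m 1 * cube4 r + m 2 * quart4 r} : Set ℝ),
      ∀ Y ∈ ({pairMean r', n 0 + n 1 * cube4 r' + n 2 * quart4 r'} : Set ℝ),
      0 ≤ kSlackPen g ν φ q l p p' s (cube4 r) (quart4 r) X t (cube4 r') (quart4 r') Y)
    {r r' : Fin 4 → ℝ} (hr : IsPost4 r) (hr' : IsPost4 r') (hs : sq4 r = s) (ht : sq4 r' = t) :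
    0 ≤ kSlack2 g ν φ q l s (cube4 r) (quart4 r) (pairMean r)
        t (cube4 r') (quart4 r') (pairMean r') := by
  have right : ∀ v, IsPost4 v → TwoLevel v → sq4 v = s →
      ∀ X ∈ ({pairMean v, m 0 + m 1 * cube4 v + m 2 * quart4 v} : Set ℝ),
      0 ≤ kSlackPen g ν φ q l p p' s (cube4 v) (quart4 v) X
        t (cube4 r') (quart4 r') (pairMean r') := by
    intro v hv htl hvs X hX
    rw [kSlackPen_swap]
    refine kSlackPen_left hg (hMS v hv htl hvs) (fun w hw hwt _ => hn w hw hwt)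
      (fun w hw htl' hwt => ?_) (fun w hw htl' hwt _ => ?_) hr' ht
    · rw [← kSlackPen_swap]
      exact h v w hv hw htl htl' hvs hwt X hX _ (Set.mem_insert _ _)
    · rw [← kSlackPen_swap]
      exact h v w hv hw htl htl' hvs hwt X hX _ (Set.mem_insert_of_mem _ rfl)
  have hmain := kSlackPen_left (q := q) (l := l) (p := p) (ν := ν) (φ := φ)
    (T' := pairMean r') hg (hMT r' hr' ht) (m := m)
    (fun w hw hws _ => hm w hw hws)
    (fun w hw htl hws => right w hw htl hws _ (Set.mem_insert _ _))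
    (fun w hw htl hws _ => right w hw htl hws _ (Set.mem_insert_of_mem _ rfl)) hr hs
  have hpen : 0 ≤ g / 12 * l 1 ^ 2 * (p' 0 * kCorner (p 1) (p 2) s (cube4 r) (quart4 r) +
      p 0 * kCorner (p' 1) (p' 2) t (cube4 r') (quart4 r')) :=
    mul_nonneg (mul_nonneg (by linarith) (sq_nonneg _))
      (add_nonneg (mul_nonneg hp' (hcS r hr hs)) (mul_nonneg hp (hcT r' hr' ht)))
  simp only [kSlackPen] at hmain
  linarith

/-- The same, when both coefficients of `T` are nonnegative. -/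
theorem kSlack2_of_twoLevel_tau {g ν : ℝ} {φ : ℝ → ℝ} (hg : 0 ≤ g) {q : Fin 6 → ℝ}
    {l : Fin 2 → ℝ} {p p' : Fin 3 → ℝ} {s t : ℝ} (hp : 0 ≤ p 0) (hp' : 0 ≤ p' 0)
    (hcS : ∀ r, IsPost4 r → sq4 r = s → 0 ≤ kCorner (p 1) (p 2) s (cube4 r) (quart4 r))
    (hcT : ∀ r, IsPost4 r → sq4 r = t → 0 ≤ kCorner (p' 1) (p' 2) t (cube4 r) (quart4 r))
    (hMS : ∀ r, IsPost4 r → TwoLevel r → sq4 r = s → 0 ≤ kM s (cube4 r) (quart4 r) + p 0)
    (hMT : ∀ r, IsPost4 r → sq4 r = t → 0 ≤ kM t (cube4 r) (quart4 r) + p' 0)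
    (hτS : ∀ r, IsPost4 r → TwoLevel r → sq4 r = s →
      0 ≤ kTau g ν φ s (cube4 r) (pairMean r))
    (hτT : ∀ r, IsPost4 r → sq4 r = t → 0 ≤ kTau g ν φ t (cube4 r) (pairMean r))
    (h : ∀ r r', IsPost4 r → IsPost4 r' → TwoLevel r → TwoLevel r' → sq4 r = s → sq4 r' = t →
      0 ≤ kSlackPen g ν φ q l p p' s (cube4 r) (quart4 r) (pairMean r)
        t (cube4 r') (quart4 r') (pairMean r'))
    {r r' : Fin 4 → ℝ} (hr : IsPost4 r) (hr' : IsPost4 r') (hs : sq4 r = s) (ht : sq4 r' = t) :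
    0 ≤ kSlack2 g ν φ q l s (cube4 r) (quart4 r) (pairMean r)
        t (cube4 r') (quart4 r') (pairMean r') := by
  have hmain := kSlackPen_left (q := q) (l := l) (p := p) (ν := ν) (φ := φ)
    (T' := pairMean r') hg (hMT r' hr' ht) (m := 0)
    (fun w hw hws hn => absurd (hτT r' hr' ht) (not_le.2 hn))
    (fun v hv htl hvs => by
      rw [kSlackPen_swap]
      refine kSlackPen_left hg (hMS v hv htl hvs) (m := 0)
        (fun w hw hwt hn => absurd (hτS v hv htl hvs) (not_le.2 hn))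
        (fun w hw htl' hwt => ?_)
        (fun w hw htl' hwt hn => absurd (hτS v hv htl hvs) (not_le.2 hn)) hr' ht
      rw [← kSlackPen_swap]
      exact h v w hv hw htl htl' hvs hwt)
    (fun v hv htl hvs hn => absurd (hτT r' hr' ht) (not_le.2 hn)) hr hs
  have hpen : 0 ≤ g / 12 * l 1 ^ 2 * (p' 0 * kCorner (p 1) (p 2) s (cube4 r) (quart4 r) +
      p 0 * kCorner (p' 1) (p' 2) t (cube4 r') (quart4 r')) :=
    mul_nonneg (mul_nonneg (by linarith) (sq_nonneg _))
      (add_nonneg (mul_nonneg hp' (hcS r hr hs)) (mul_nonneg hp (hcT r' hr' ht)))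
  simp only [kSlackPen] at hmain
  linarith

/-- A nonnegative slack gives the pointwise closure inequality. -/
theorem hK_of_kSlack2 {g ν : ℝ} {φ : ℝ → ℝ} (hg : 0 ≤ g) (q : Fin 6 → ℝ) (l : Fin 2 → ℝ)
    {r r' : Fin 4 → ℝ} (hr : IsPost4 r) (hr' : IsPost4 r')
    (h : 0 ≤ kSlack2 g ν φ q l (sq4 r) (cube4 r) (quart4 r) (pairMean r)
      (sq4 r') (cube4 r') (quart4 r') (pairMean r')) :
    φ (sq4 r') * classFn g r + φ (sq4 r) * classFn g r' + ν * (classFn g r * classFn g r') ≤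
      avg24 (classFn g) r r' := by
  have hb := avg24_classFn_ge2 hg hr hr' q l
  rw [classFn_eq_classInv g hr, classFn_eq_classInv g hr']
  simp only [kSlack2] at h
  linarith

end

end Vale.Agent.P154.Ferro4
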