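import Mathlib

/-!
P154, four states: reduction of a symmetric inequality on the simplex to two-level points.

On a slice `∑ r = 4`, `∑ r ^ 2 = S`, a concave function of `(e₃, e₄, T)` that is monotone in
`T = mean √(r i r j)` is bounded below by its values at points with at most two distinct
nonzero coordinates: three distinct positive coordinates can be moved with fixed first two
power sums, and both `√x + √y + √z` and its square are strictly concave in `x y z`.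
-/

namespace Vale.Agent.P154.Ferro4

open Filter Topology Real

/-- Third elementary symmetric function. -/
def esym3 (r : Fin 4 → ℝ) : ℝ :=
  r 0 * r 1 * r 2 + r 0 * r 1 * r 3 + r 0 * r 2 * r 3 + r 1 * r 2 * r 3

/-- Fourth elementary symmetric function. -/
def esym4 (r : Fin 4 → ℝ) : ℝ := r 0 * r 1 * r 2 * r 3

/-- Mean of the six geometric means of pairs. -/
noncomputable def pairMean (r : Fin 4 → ℝ) : ℝ :=
  (√(r 0) * √(r 1) + √(r 0) * √(r 2) + √(r 0) * √(r 3) + √(r 1) * √(r 2) + √(r 1) * √(r 3) +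
    √(r 2) * √(r 3)) / 6

/-- At most two distinct positive values. -/
def TwoLevel (r : Fin 4 → ℝ) : Prop :=
  ∀ i j k, 0 < r i → 0 < r j → 0 < r k → r i = r j ∨ r i = r k ∨ r j = r k

lemma pairMean_nonneg (r : Fin 4 → ℝ) : 0 ≤ pairMean r := by
  unfold pairMean; positivity

namespace Reduce

lemma sym_all (r : Fin 4 → ℝ) (σ : Equiv.Perm (Fin 4)) :
    esym3 (r ∘ σ) = esym3 r ∧ esym4 (r ∘ σ) = esym4 r ∧ pairMean (r ∘ σ) = pairMean r := by
  have h1 := Equiv.sum_comp σ r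
  have h2 := Equiv.sum_comp σ (fun i => r i ^ 2)
  have h3 := Equiv.sum_comp σ (fun i => r i ^ 3)
  have h4 := Equiv.prod_comp σ r
  have h5 := Equiv.sum_comp σ (fun i => √(r i))
  have h6 := Equiv.sum_comp σ (fun i => √(r i) ^ 2)
  simp only [Fin.sum_univ_four, Fin.prod_univ_four] at h1 h2 h3 h4 h5 h6
  have k3 : ∀ a b c d : ℝ, a * b * c + a * b * d + a * c * d + b * c * d =
      ((a + b + c + d) ^ 3 - 3 * (a + b + c + d) * (a ^ 2 + b ^ 2 + c ^ 2 + d ^ 2) +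
        2 * (a ^ 3 + b ^ 3 + c ^ 3 + d ^ 3)) / 6 := fun a b c d => by ring
  have k2 : ∀ a b c d : ℝ, (a * b + a * c + a * d + b * c + b * d + c * d) / 6 =
      ((a + b + c + d) ^ 2 - (a ^ 2 + b ^ 2 + c ^ 2 + d ^ 2)) / 12 := fun a b c d => by ring
  refine ⟨?_, ?_, ?_⟩
  · simp only [esym3, Function.comp_apply]; rw [k3, k3, h1, h2, h3]
  · simpa [esym4] using h4
  · simp only [pairMean, Function.comp_apply]; rw [k2, k2, h5, h6]

/-- The inverse of `x y z ↦ (√x + √y + √z) ^ 2` at fixed first two symmetric functions. -/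
noncomputable def inv (e1 e2 Y : ℝ) : ℝ := ((Y - e1) ^ 2 - 4 * e2) ^ 2 / (64 * Y)

lemma inv_eq {x y z e1 e2 : ℝ} (hx : 0 < x) (hy : 0 < y) (hz : 0 < z) (he1 : x + y + z = e1)
    (he2 : x * y + y * z + z * x = e2) :
    inv e1 e2 ((√x + √y + √z) ^ 2) = x * y * z ∧ e1 < (√x + √y + √z) ^ 2 ∧
      0 ≤ ((√x + √y + √z) ^ 2 - e1) ^ 2 - 4 * e2 := by
  subst he1 he2
  obtain ⟨a, ha, rfl⟩ : ∃ a, 0 < a ∧ x = a ^ 2 := ⟨√x, sqrt_pos.2 hx, (sq_sqrt hx.le).symm⟩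
  obtain ⟨b, hb, rfl⟩ : ∃ b, 0 < b ∧ y = b ^ 2 := ⟨√y, sqrt_pos.2 hy, (sq_sqrt hy.le).symm⟩
  obtain ⟨c, hc, rfl⟩ : ∃ c, 0 < c ∧ z = c ^ 2 := ⟨√z, sqrt_pos.2 hz, (sq_sqrt hz.le).symm⟩
  simp only [sqrt_sq ha.le, sqrt_sq hb.le, sqrt_sq hc.le]
  have hd : ((a + b + c) ^ 2 - (a ^ 2 + b ^ 2 + c ^ 2)) ^ 2 -
      4 * (a ^ 2 * b ^ 2 + b ^ 2 * c ^ 2 + c ^ 2 * a ^ 2) = 8 * (a * b * c) * (a + b + c) := by
    ring
  refine ⟨?_, ?_, ?_⟩
  · rw [inv, hd]; field_simp; ring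
  · nlinarith [mul_pos ha hb, mul_pos hb hc, mul_pos hc ha]
  · rw [hd]; positivity

lemma region_mid {e1 e2 a b : ℝ} (ha : e1 < a) (hb : e1 < b)
    (qa : 0 ≤ (a - e1) ^ 2 - 4 * e2) (qb : 0 ≤ (b - e1) ^ 2 - 4 * e2) :
    0 ≤ ((a + b) / 2 - e1) ^ 2 - 4 * e2 := by
  rcases le_total a b with h | h
  · nlinarith
  · nlinarith

lemma inv_mono {e1 e2 a b : ℝ} (he1 : 0 < e1) (he2 : 0 ≤ e2) (ha : e1 < a) (hab : a < b)
    (qa : 0 ≤ (a - e1) ^ 2 - 4 * e2) : inv e1 e2 a < inv e1 e2 b := by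
  have ha0 : 0 < a := he1.trans ha
  have hb0 : 0 < b := ha0.trans hab
  unfold inv
  rw [div_lt_div_iff₀ (by positivity) (by positivity)]
  set Qa := (a - e1) ^ 2 - 4 * e2
  set Qb := (b - e1) ^ 2 - 4 * e2
  have h1 : Qa * b < Qb * a := by
    have : Qb * a - Qa * b = (b - a) * (a * b - e1 ^ 2 + 4 * e2) := by simp only [Qa, Qb]; ring
    have : 0 < a * b - e1 ^ 2 + 4 * e2 := by nlinarith
    nlinarith [mul_pos (sub_pos.2 hab) this]
  have h0 : 0 ≤ Qa * b := mul_nonneg qa hb0.le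
  have h2 := mul_lt_mul'' h1 h1 h0 h0
  have h3 : Qb ^ 2 * a * a ≤ Qb ^ 2 * a * b :=
    mul_le_mul_of_nonneg_left hab.le (by positivity)
  nlinarith [mul_pos ha0 hb0]

lemma inv_convex {e1 e2 a b : ℝ} (he1 : 0 < e1) (ha : e1 < a) (hb : e1 < b) (hab : a ≠ b)
    (qa : 0 ≤ (a - e1) ^ 2 - 4 * e2) (qb : 0 ≤ (b - e1) ^ 2 - 4 * e2) :
    inv e1 e2 ((a + b) / 2) < (inv e1 e2 a + inv e1 e2 b) / 2 := by
  have ha0 : 0 < a := he1.trans ha
  have hb0 : 0 < b := he1.trans hb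
  have hqm := region_mid ha hb qa qb
  unfold inv
  set Qa := (a - e1) ^ 2 - 4 * e2 with hQa
  set Qb := (b - e1) ^ 2 - 4 * e2 with hQb
  set Qm := ((a + b) / 2 - e1) ^ 2 - 4 * e2 with hQm
  have hm : 2 * Qm < Qa + Qb := by
    have hd : 0 < (a - b) ^ 2 := by have := sub_ne_zero.2 hab; positivity
    have : 2 * Qm = Qa + Qb - (a - b) ^ 2 / 2 := by simp only [Qa, Qb, Qm]; ring
    linarith
  have h1 : (2 * Qm) ^ 2 < (Qa + Qb) ^ 2 := pow_lt_pow_left₀ hm (by linarith) two_ne_zero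
  have h2 : (Qa + Qb) ^ 2 / (a + b) ≤ Qa ^ 2 / a + Qb ^ 2 / b := by
    rw [div_add_div _ _ ha0.ne' hb0.ne', div_le_div_iff₀ (by positivity) (by positivity)]
    nlinarith [sq_nonneg (Qa * b - Qb * a)]
  have h3 : (2 * Qm) ^ 2 / (a + b) < (Qa + Qb) ^ 2 / (a + b) :=
    div_lt_div_of_pos_right h1 (by positivity)
  have h4 : Qm ^ 2 / (64 * ((a + b) / 2)) = (2 * Qm) ^ 2 / (a + b) / 128 := by
    field_simp; ring
  have h5 : (Qa ^ 2 / (64 * a) + Qb ^ 2 / (64 * b)) / 2 = (Qa ^ 2 / a + Qb ^ 2 / b) / 128 := by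
    field_simp; ring
  rw [h4, h5]
  linarith

/-- Strict midpoint concavity of `(√x + √y + √z) ^ 2` and `√x + √y + √z` in `x y z`. -/
lemma concave {x y z x' y' z' x₀ y₀ z₀ : ℝ} (hx : 0 < x) (hy : 0 < y) (hz : 0 < z)
    (hx' : 0 < x') (hy' : 0 < y') (hz' : 0 < z') (hx₀ : 0 < x₀) (hy₀ : 0 < y₀) (hz₀ : 0 < z₀)
    (h1 : x + y + z = x₀ + y₀ + z₀) (h1' : x' + y' + z' = x₀ + y₀ + z₀)
    (h2 : x * y + y * z + z * x = x₀ * y₀ + y₀ * z₀ + z₀ * x₀)
    (h2' : x' * y' + y' * z' + z' * x' = x₀ * y₀ + y₀ * z₀ + z₀ * x₀)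
    (h3 : x * y * z + x' * y' * z' = 2 * (x₀ * y₀ * z₀)) (hne : x * y * z ≠ x' * y' * z') :
    (√x + √y + √z) ^ 2 + (√x' + √y' + √z') ^ 2 < 2 * (√x₀ + √y₀ + √z₀) ^ 2 ∧
      (√x + √y + √z) + (√x' + √y' + √z') ≤ 2 * (√x₀ + √y₀ + √z₀) := by
  have he2 : 0 ≤ x₀ * y₀ + y₀ * z₀ + z₀ * x₀ := by positivity
  have he1 : 0 < x₀ + y₀ + z₀ := by positivity
  obtain ⟨i1, r1, q1⟩ := inv_eq hx hy hz h1 h2
  obtain ⟨i2, r2, q2⟩ := inv_eq hx' hy' hz' h1' h2'
  obtain ⟨i0, r0, q0⟩ := inv_eq hx₀ hy₀ hz₀ rfl rfl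
  generalize hgX : √x + √y + √z = X at *
  generalize hgX' : √x' + √y' + √z' = X' at *
  generalize hgX₀ : √x₀ + √y₀ + √z₀ = X₀ at *
  have hne' : X ^ 2 ≠ X' ^ 2 := fun h => hne (by rw [← i1, ← i2, h])
  have hc := inv_convex he1 r1 r2 hne' q1 q2
  rw [i1, i2, h3] at hc
  have hlt : (X ^ 2 + X' ^ 2) / 2 < X₀ ^ 2 := by
    by_contra hcon
    rcases (not_lt.1 hcon).eq_or_lt with h | h
    · rw [← h, i0] at hc; linarith
    · have := inv_mono he1 he2 r0 h q0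
      rw [i0] at this
      linarith
  refine ⟨by linarith, ?_⟩
  have hX0 : 0 ≤ X₀ := by rw [← hgX₀]; positivity
  by_contra hcon
  have : (2 * X₀) ^ 2 < (X + X') ^ 2 := pow_lt_pow_left₀ (not_le.1 hcon) (by linarith) two_ne_zero
  nlinarith [sq_nonneg (X - X')]

/-- Roots of the cubic with first two coefficients fixed. -/
lemma roots {p q k A B C D : ℝ} (hAB : A < B) (hBC : B < C) (hCD : C < D)
    (hA : A ^ 3 - p * A ^ 2 + q * A - k < 0) (hB : 0 < B ^ 3 - p * B ^ 2 + q * B - k)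
    (hC : C ^ 3 - p * C ^ 2 + q * C - k < 0) (hD : 0 < D ^ 3 - p * D ^ 2 + q * D - k) :
    ∃ x y z, A < x ∧ x < B ∧ B < y ∧ y < C ∧ C < z ∧ z < D ∧ x + y + z = p ∧
      x * y + y * z + z * x = q ∧ x * y * z = k := by
  have hc : Continuous fun t : ℝ => t ^ 3 - p * t ^ 2 + q * t - k := by fun_prop
  obtain ⟨x, hx, ex⟩ := intermediate_value_Ioo hAB.le hc.continuousOn ⟨hA, hB⟩
  obtain ⟨y, hy, ey⟩ := intermediate_value_Ioo' hBC.le hc.continuousOn ⟨hC, hB⟩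
  obtain ⟨z, hz, ez⟩ := intermediate_value_Ioo hCD.le hc.continuousOn ⟨hC, hD⟩
  simp only at ex ey ez
  have hxy : x < y := hx.2.trans hy.1
  have hyz : y < z := hy.2.trans hz.1
  have e1 : (x ^ 2 + x * y + y ^ 2) - p * (x + y) + q = 0 := by
    refine (mul_eq_zero.1 (show (x - y) * _ = 0 from ?_)).resolve_left (sub_neg.2 hxy).ne
    linear_combination ex - ey
  have e2 : (y ^ 2 + y * z + z ^ 2) - p * (y + z) + q = 0 := by
    refine (mul_eq_zero.1 (show (y - z) * _ = 0 from ?_)).resolve_left (sub_neg.2 hyz).ne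
    linear_combination ey - ez
  have e3 : x + y + z - p = 0 := by
    refine (mul_eq_zero.1 (show (x - z) * _ = 0 from ?_)).resolve_left
      (sub_neg.2 (hxy.trans hyz)).ne
    linear_combination e1 - e2
  have hp : x + y + z = p := by linarith
  have hq : x * y + y * z + z * x = q := by
    subst hp; linear_combination (-1) * e1
  refine ⟨x, y, z, hx.1, hx.2, hy.1, hy.2, hz.1, hz.2, hp, hq, ?_⟩
  subst hp; subst hq; linear_combination ex

/-- A triple of distinct positive numbers can be moved in both directions. -/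
lemma move {x y z : ℝ} (hx : 0 < x) (hxy : x < y) (hyz : y < z) :
    ∃ x₁ y₁ z₁ x₂ y₂ z₂ : ℝ, 0 < x₁ ∧ 0 < y₁ ∧ 0 < z₁ ∧ 0 < x₂ ∧ 0 < y₂ ∧ 0 < z₂ ∧
      x₁ + y₁ + z₁ = x + y + z ∧ x₂ + y₂ + z₂ = x + y + z ∧
      x₁ * y₁ + y₁ * z₁ + z₁ * x₁ = x * y + y * z + z * x ∧
      x₂ * y₂ + y₂ * z₂ + z₂ * x₂ = x * y + y * z + z * x ∧
      x₁ * y₁ * z₁ + x₂ * y₂ * z₂ = 2 * (x * y * z) ∧ x₁ * y₁ * z₁ ≠ x₂ * y₂ * z₂ := by
  set p := x + y + z
  set q := x * y + y * z + z * x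
  set k := x * y * z
  set P : ℝ → ℝ := fun t => t ^ 3 - p * t ^ 2 + q * t - k with hP
  have hf : ∀ t, P t = (t - x) * (t - y) * (t - z) := fun t => by
    simp only [P, p, q, k]; ring
  obtain ⟨A, hA0, hAx⟩ := exists_between hx
  obtain ⟨B, hxB, hBy⟩ := exists_between hxy
  obtain ⟨C, hyC, hCz⟩ := exists_between hyz
  have sA : P A < 0 := by
    rw [hf]; exact mul_neg_of_pos_of_neg (mul_pos_of_neg_of_neg (by linarith) (by linarith))
      (by linarith)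
  have sB : 0 < P B := by
    rw [hf]; exact mul_pos_of_neg_of_neg (mul_neg_of_pos_of_neg (by linarith) (by linarith))
      (by linarith)
  have sC : P C < 0 := by
    rw [hf]; exact mul_neg_of_pos_of_neg (mul_pos (by linarith) (by linarith)) (by linarith)
  have sD : 0 < P (z + 1) := by
    rw [hf]; exact mul_pos (mul_pos (by linarith) (by linarith)) (by linarith)
  set δ := min (min (-P A) (P B)) (min (-P C) (P (z + 1))) / 2 with hδ
  have b1 : 0 < δ := by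
    have : 0 < min (min (-P A) (P B)) (min (-P C) (P (z + 1))) :=
      lt_min (lt_min (neg_pos.2 sA) sB) (lt_min (neg_pos.2 sC) sD)
    rw [hδ]; linarith
  have dA : δ < -P A := by
    have := min_le_left (min (-P A) (P B)) (min (-P C) (P (z + 1)))
    have := min_le_left (-P A) (P B)
    rw [hδ]; linarith
  have dB : δ < P B := by
    have := min_le_left (min (-P A) (P B)) (min (-P C) (P (z + 1)))
    have := min_le_right (-P A) (P B)
    rw [hδ]; linarith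
  have dC : δ < -P C := by
    have := min_le_right (min (-P A) (P B)) (min (-P C) (P (z + 1)))
    have := min_le_left (-P C) (P (z + 1))
    rw [hδ]; linarith
  have dD : δ < P (z + 1) := by
    have := min_le_right (min (-P A) (P B)) (min (-P C) (P (z + 1)))
    have := min_le_right (-P C) (P (z + 1))
    rw [hδ]; linarith
  simp only [P] at dA dB dC dD
  obtain ⟨x₁, y₁, z₁, a1, a2, a3, a4, a5, -, u1, v1, w1⟩ :=
    roots (p := p) (q := q) (k := k + δ) (A := A) (B := B) (C := C) (D := z + 1)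
      (by linarith) (by linarith) (by linarith)
      (by linarith) (by linarith) (by linarith) (by linarith)
  obtain ⟨x₂, y₂, z₂, c1, c2, c3, c4, c5, -, u2, v2, w2⟩ :=
    roots (p := p) (q := q) (k := k - δ) (A := A) (B := B) (C := C) (D := z + 1)
      (by linarith) (by linarith) (by linarith)
      (by linarith) (by linarith) (by linarith) (by linarith)
  exact ⟨x₁, y₁, z₁, x₂, y₂, z₂, by linarith, by linarith, by linarith, by linarith, by linarith,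
    by linarith, u1, u2, v1, v2, by rw [w1, w2]; ring, by rw [w1, w2]; intro h; linarith⟩

/-- The slice with given second power sum. -/
def slice (S : ℝ) : Set (Fin 4 → ℝ) :=
  {r | (∀ i, 0 ≤ r i) ∧ ∑ i, r i = 4 ∧ ∑ i, r i ^ 2 = S}

lemma isCompact_slice (S : ℝ) : IsCompact (slice S) := by
  refine IsCompact.of_isClosed_subset
    (isCompact_univ_pi fun _ : Fin 4 => isCompact_Icc (a := (0 : ℝ)) (b := 4)) ?_ ?_
  · have h : slice S = (⋂ i, {r : Fin 4 → ℝ | 0 ≤ r i}) ∩ {r | ∑ i, r i = 4} ∩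
        {r | ∑ i, r i ^ 2 = S} := by
      ext r; simp [slice, and_assoc]
    rw [h]
    exact ((isClosed_iInter fun i => isClosed_le continuous_const (continuous_apply i)).inter
      (isClosed_eq (by fun_prop) continuous_const)).inter
      (isClosed_eq (by fun_prop) continuous_const)
  · intro r hr i _
    exact ⟨hr.1 i, (Finset.single_le_sum (fun j _ => hr.1 j) (Finset.mem_univ i)).trans hr.2.1.le⟩

lemma strict_two_level {Φ : ℝ → ℝ → ℝ → ℝ}
    (hmid : ∀ a b c a' b' c' : ℝ, Φ a b c + Φ a' b' c' ≤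
      2 * Φ ((a + a') / 2) ((b + b') / 2) ((c + c') / 2))
    (hmono : ∀ a b c c' : ℝ, c < c' → Φ a b c < Φ a b c')
    {S : ℝ} {r : Fin 4 → ℝ} (hr : r ∈ slice S)
    (hmin : IsMinOn (fun r => Φ (esym3 r) (esym4 r) (pairMean r)) (slice S) r) : TwoLevel r := by
  intro i j k hi hj hk
  by_contra hcon
  push Not at hcon
  obtain ⟨hij, hik, hjk⟩ := hcon
  -- sort the three values
  obtain ⟨a, b, c, hab, hbc, hapos, hdist⟩ : ∃ a b c : Fin 4, r a < r b ∧ r b < r c ∧ 0 < r a ∧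
      a ≠ c := by
    rcases lt_or_gt_of_ne hij with h1 | h1 <;> rcases lt_or_gt_of_ne hjk with h2 | h2 <;>
      rcases lt_or_gt_of_ne hik with h3 | h3 <;>
      first
        | exact ⟨i, j, k, h1, h2, hi, fun e => by rw [e] at h3; linarith⟩
        | exact ⟨i, k, j, h3, h2, hi, fun e => by rw [e] at h1; linarith⟩
        | exact ⟨j, i, k, h1, h3, hj, fun e => by rw [e] at h2; linarith⟩
        | exact ⟨j, k, i, h2, h3, hj, fun e => by rw [e] at h1; linarith⟩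
        | exact ⟨k, i, j, h3, h1, hk, fun e => by rw [e] at h2; linarith⟩
        | exact ⟨k, j, i, h2, h1, hk, fun e => by rw [e] at h3; linarith⟩
  have hab' : a ≠ b := fun e => by rw [e] at hab; exact lt_irrefl _ hab
  have hbc' : b ≠ c := fun e => by rw [e] at hbc; exact lt_irrefl _ hbc
  obtain ⟨σ, s0, s1, s2⟩ : ∃ σ : Equiv.Perm (Fin 4), σ 0 = a ∧ σ 1 = b ∧ σ 2 = c := by
    have key : ∀ a b c : Fin 4, a ≠ b → b ≠ c → a ≠ c →
        ∃ σ : Equiv.Perm (Fin 4), σ 0 = a ∧ σ 1 = b ∧ σ 2 = c := by decide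
    exact key a b c hab' hbc' hdist
  set t := r ∘ σ with ht
  obtain ⟨x₁, y₁, z₁, x₂, y₂, z₂, px, py, pz, qx, qy, qz, u1, u2, v1, v2, w12, wne⟩ :=
    move hapos hab hbc
  have hsum : r a + r b + r c + t 3 = 4 := by
    have := (Equiv.sum_comp σ r).trans hr.2.1
    simpa [Fin.sum_univ_four, t, s0, s1, s2] using this
  have hsq : r a ^ 2 + r b ^ 2 + r c ^ 2 + t 3 ^ 2 = S := by
    have := (Equiv.sum_comp σ fun i => r i ^ 2).trans hr.2.2
    simpa [Fin.sum_univ_four, t, s0, s1, s2] using this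
  have hw : 0 ≤ t 3 := hr.1 _
  have hmem : ∀ x y z : ℝ, 0 < x → 0 < y → 0 < z → x + y + z = r a + r b + r c →
      x * y + y * z + z * x = r a * r b + r b * r c + r c * r a →
      ![x, y, z, t 3] ∈ slice S := by
    intro x y z hx hy hz e1 e2
    refine ⟨fun i => ?_, ?_, ?_⟩
    · fin_cases i <;> simp [hx.le, hy.le, hz.le, hw]
    · simp [Fin.sum_univ_four]; linarith
    · have : x ^ 2 + y ^ 2 + z ^ 2 = r a ^ 2 + r b ^ 2 + r c ^ 2 := by
        have k : ∀ u v w : ℝ, u ^ 2 + v ^ 2 + w ^ 2 =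
            (u + v + w) ^ 2 - 2 * (u * v + v * w + w * u) := fun u v w => by ring
        rw [k, k, e1, e2]
      simp [Fin.sum_univ_four]; linarith
  have m1 := hmin (hmem _ _ _ px py pz u1 v1)
  have m2 := hmin (hmem _ _ _ qx qy qz u2 v2)
  obtain ⟨hY, hX⟩ := concave px py pz qx qy qz hapos (hapos.trans hab) (hapos.trans (hab.trans hbc))
    u1 u2 v1 v2 w12 wne
  simp only [Set.mem_ofPred_eq] at m1 m2
  obtain ⟨t3, t4, tT⟩ := sym_all r σ
  rw [← ht] at t3 t4 tT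
  rw [← t3, ← t4, ← tT] at m1 m2
  set n₁ : Fin 4 → ℝ := ![x₁, y₁, z₁, t 3] with hn₁
  set n₂ : Fin 4 → ℝ := ![x₂, y₂, z₂, t 3] with hn₂
  have E3 : (esym3 n₁ + esym3 n₂) / 2 = esym3 t := by
    simp [esym3, n₁, n₂, t, s0, s1, s2]
    linear_combination w12 / 2 + r (σ 3) / 2 * v1 + r (σ 3) / 2 * v2
  have E4 : (esym4 n₁ + esym4 n₂) / 2 = esym4 t := by
    simp [esym4, n₁, n₂, t, s0, s1, s2]
    linear_combination r (σ 3) / 2 * w12
  have ET : (pairMean n₁ + pairMean n₂) / 2 < pairMean t := by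
    have key : ∀ x y z w : ℝ, 0 ≤ x → 0 ≤ y → 0 ≤ z →
        (√x * √y + √x * √z + √x * w + √y * √z + √y * w + √z * w) / 6 =
          (((√x + √y + √z) ^ 2 - (x + y + z)) / 2 + w * (√x + √y + √z)) / 6 := by
      intro x y z w hx hy hz
      linear_combination (sq_sqrt hx + sq_sqrt hy + sq_sqrt hz) * (-1 / 12 : ℝ)
    simp only [pairMean, n₁, n₂, t, Function.comp_apply, s0, s1, s2, Matrix.cons_val_zero,
      Matrix.cons_val_one, Matrix.cons_val_two, Matrix.cons_val_three, Matrix.tail_cons,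
      Matrix.head_cons]
    rw [key _ _ _ _ px.le py.le pz.le, key _ _ _ _ qx.le qy.le qz.le,
      key _ _ _ _ hapos.le (hapos.trans hab).le (hapos.trans (hab.trans hbc)).le]
    have fin : ∀ u v w W e e' e'' : ℝ, 0 ≤ W → u ^ 2 + v ^ 2 < 2 * w ^ 2 → u + v ≤ 2 * w →
        e = e'' → e' = e'' →
        (((u ^ 2 - e) / 2 + W * u) / 6 + ((v ^ 2 - e') / 2 + W * v) / 6) / 2 <
          ((w ^ 2 - e'') / 2 + W * w) / 6 := fun u v w W e e' e'' hW hq hl he he' => by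
      have := mul_le_mul_of_nonneg_left hl hW
      rw [mul_add] at this
      linarith
    exact fin _ _ _ _ _ _ _ (sqrt_nonneg _) hY hX u1 u2
  have h := (hmid (esym3 n₁) (esym4 n₁) _ (esym3 n₂) (esym4 n₂) _).trans_lt
    (mul_lt_mul_of_pos_left (hmono _ _ _ _ ET) two_pos)
  rw [E3, E4] at h
  linarith

end Reduce

open Reduce in
/-- A midpoint concave continuous function of `(e₃, e₄, T)`, monotone in `T`, takes its least
value on a slice at two-level points. -/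
theorem ge_of_twoLevel {Φ : ℝ → ℝ → ℝ → ℝ}
    (hcont : Continuous fun p : ℝ × ℝ × ℝ => Φ p.1 p.2.1 p.2.2)
    (hmid : ∀ a b c a' b' c' : ℝ, Φ a b c + Φ a' b' c' ≤
      2 * Φ ((a + a') / 2) ((b + b') / 2) ((c + c') / 2))
    (hmono : ∀ a b c c' : ℝ, c ≤ c' → Φ a b c ≤ Φ a b c') {m S : ℝ}
    (h : ∀ r : Fin 4 → ℝ, (∀ i, 0 ≤ r i) → ∑ i, r i = 4 → ∑ i, r i ^ 2 = S → TwoLevel r →
      m ≤ Φ (esym3 r) (esym4 r) (pairMean r))
    {r : Fin 4 → ℝ} (h0 : ∀ i, 0 ≤ r i) (h1 : ∑ i, r i = 4) (h2 : ∑ i, r i ^ 2 = S) :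
    m ≤ Φ (esym3 r) (esym4 r) (pairMean r) := by
  refine le_of_forall_pos_le_add fun ε hε => ?_
  set η := ε / (pairMean r + 1) with hη
  have hT := pairMean_nonneg r
  have hη0 : 0 < η := by positivity
  set Ψ : ℝ → ℝ → ℝ → ℝ := fun a b c => Φ a b c + η * c with hΨ
  have hc : Continuous fun r : Fin 4 → ℝ => Ψ (esym3 r) (esym4 r) (pairMean r) := by
    have : Continuous fun r : Fin 4 → ℝ => (esym3 r, esym4 r, pairMean r) := by
      unfold esym3 esym4 pairMean; fun_prop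
    exact (hcont.comp this).add (continuous_const.mul (by unfold pairMean; fun_prop))
  obtain ⟨p, hp, hmin⟩ := (isCompact_slice S).exists_isMinOn ⟨r, h0, h1, h2⟩ hc.continuousOn
  have hmono' : ∀ a b c c' : ℝ, c < c' → Ψ a b c < Ψ a b c' := fun a b c c' hlt => by
    simp only [Ψ]; linarith [hmono a b c c' hlt.le, mul_lt_mul_of_pos_left hlt hη0]
  have hmid' : ∀ a b c a' b' c' : ℝ, Ψ a b c + Ψ a' b' c' ≤
      2 * Ψ ((a + a') / 2) ((b + b') / 2) ((c + c') / 2) := fun a b c a' b' c' => by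
    simp only [Ψ]; linarith [hmid a b c a' b' c']
  have htl := strict_two_level hmid' hmono' hp hmin
  have := h p hp.1 hp.2.1 hp.2.2 htl
  have hpr : Ψ (esym3 p) (esym4 p) (pairMean p) ≤ Ψ (esym3 r) (esym4 r) (pairMean r) :=
    hmin ⟨h0, h1, h2⟩
  have hle : η * pairMean r ≤ ε := by
    rw [hη, div_mul_eq_mul_div, div_le_iff₀ (by positivity)]
    nlinarith
  simp only [Ψ] at hpr
  linarith [mul_nonneg hη0.le (pairMean_nonneg p)]

/-- A two-level point is, up to a permutation, in one of four families. -/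
theorem TwoLevel.normal_form {r : Fin 4 → ℝ} (h : TwoLevel r) (h0 : ∀ i, 0 ≤ r i) :
    ∃ (σ : Equiv.Perm (Fin 4)) (a b : ℝ), 0 ≤ a ∧ 0 ≤ b ∧
      (r ∘ σ = ![a, a, a, b] ∨ r ∘ σ = ![a, a, b, b] ∨ r ∘ σ = ![a, a, b, 0] ∨
        r ∘ σ = ![a, b, 0, 0]) := by
  obtain ⟨τ, hτ⟩ : ∃ τ : Equiv.Perm (Fin 4), Monotone (r ∘ τ) := ⟨Tuple.sort r, Tuple.monotone_sort r⟩
  set t := r ∘ τ with ht
  have t01 : t 0 ≤ t 1 := hτ (by decide)
  have t12 : t 1 ≤ t 2 := hτ (by decide)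
  have t23 : t 2 ≤ t 3 := hτ (by decide)
  have hn : ∀ i, 0 ≤ t i := fun i => h0 _
  have H : ∀ i j k, 0 < t i → t i ≤ t j → t j ≤ t k → t i = t j ∨ t j = t k := by
    intro i j k hi hij hjk
    rcases h _ _ _ hi (hi.trans_le hij) (hi.trans_le (hij.trans hjk)) with e | e | e
    · exact .inl e
    · exact .inl (le_antisymm hij (hjk.trans (le_of_eq e.symm)))
    · exact .inr e
  have fin : ∀ (ρ : Equiv.Perm (Fin 4)) (v : Fin 4 → ℝ),
      t (ρ 0) = v 0 → t (ρ 1) = v 1 → t (ρ 2) = v 2 → t (ρ 3) = v 3 → r ∘ (ρ.trans τ) = v := by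
    intro ρ v e0 e1 e2 e3
    funext i
    fin_cases i <;> assumption
  obtain ⟨ρ₁, a0, a1, a2, a3⟩ : ∃ ρ : Equiv.Perm (Fin 4), ρ 0 = 0 ∧ ρ 1 = 1 ∧ ρ 2 = 2 ∧ ρ 3 = 3 :=
    by decide
  obtain ⟨ρ₂, b0, b1, b2, b3⟩ : ∃ ρ : Equiv.Perm (Fin 4), ρ 0 = 1 ∧ ρ 1 = 2 ∧ ρ 2 = 3 ∧ ρ 3 = 0 :=
    by decide
  obtain ⟨ρ₃, c0, c1, c2, c3⟩ : ∃ ρ : Equiv.Perm (Fin 4), ρ 0 = 2 ∧ ρ 1 = 3 ∧ ρ 2 = 1 ∧ ρ 3 = 0 :=
    by decide
  rcases (hn 0).eq_or_lt with z0 | p0
  · rcases (hn 1).eq_or_lt with z1 | p1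
    · exact ⟨ρ₃.trans τ, t 2, t 3, hn 2, hn 3, .inr (.inr (.inr (fin ρ₃ _ (by simp [c0])
        (by simp [c1]) (by simp [c2, ← z1]) (by simp [c3, ← z0]))))⟩
    · rcases H 1 2 3 p1 t12 t23 with e | e
      · exact ⟨ρ₂.trans τ, t 1, t 3, hn 1, hn 3, .inr (.inr (.inl (fin ρ₂ _ (by simp [b0])
          (by simp [b1, ← e]) (by simp [b2]) (by simp [b3, ← z0]))))⟩
      · exact ⟨ρ₃.trans τ, t 2, t 1, hn 2, hn 1, .inr (.inr (.inl (fin ρ₃ _ (by simp [c0])
          (by simp [c1, ← e]) (by simp [c2]) (by simp [c3, ← z0]))))⟩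
  · rcases H 0 1 2 p0 t01 t12 with e | e
    · rcases H 0 2 3 p0 (t01.trans t12) t23 with e' | e'
      · exact ⟨ρ₁.trans τ, t 0, t 3, hn 0, hn 3, .inl (fin ρ₁ _ (by simp [a0])
          (by simp [a1, ← e]) (by simp [a2, ← e']) (by simp [a3]))⟩
      · exact ⟨ρ₁.trans τ, t 0, t 2, hn 0, hn 2, .inr (.inl (fin ρ₁ _ (by simp [a0])
          (by simp [a1, ← e]) (by simp [a2]) (by simp [a3, ← e'])))⟩
    · rcases H 0 2 3 p0 (t01.trans t12) t23 with e' | e'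
      · have : t 0 = t 1 := le_antisymm t01 (t12.trans (le_of_eq e'.symm))
        exact ⟨ρ₁.trans τ, t 0, t 3, hn 0, hn 3, .inl (fin ρ₁ _ (by simp [a0])
          (by simp [a1, ← this]) (by simp [a2, ← e']) (by simp [a3]))⟩
      · exact ⟨ρ₂.trans τ, t 1, t 0, hn 1, hn 0, .inl (fin ρ₂ _ (by simp [b0])
          (by simp [b1, e]) (by simp [b2, e, e']) (by simp [b3]))⟩

end Vale.Agent.P154.Ferro4
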