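import Mathlib

/-!
P154, four states: sums over relative permutations of powers of `∑ i, u i * v (σ i)`, written
in monomial symmetric functions of the two sides (no constraint on `u` or `v`).
-/

namespace Vale.Agent.P154.Ferro4.PermSum

noncomputable section

/-- The sum over the twenty-four arrangements of `0, 1, 2, 3`. -/
def arrSum (G : Fin 4 → Fin 4 → Fin 4 → Fin 4 → ℝ) : ℝ :=
  G 0 1 2 3 + G 0 1 3 2 + G 0 2 1 3 + G 0 2 3 1 +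
  G 0 3 1 2 + G 0 3 2 1 + G 1 0 2 3 + G 1 0 3 2 +
  G 1 2 0 3 + G 1 2 3 0 + G 1 3 0 2 + G 1 3 2 0 +
  G 2 0 1 3 + G 2 0 3 1 + G 2 1 0 3 + G 2 1 3 0 +
  G 2 3 0 1 + G 2 3 1 0 + G 3 0 1 2 + G 3 0 2 1 +
  G 3 1 0 2 + G 3 1 2 0 + G 3 2 0 1 + G 3 2 1 0

/-- A sum over permutations as a sum over arrangements. -/
theorem sum_perm (G : Fin 4 → Fin 4 → Fin 4 → Fin 4 → ℝ) :
    ∑ σ : Equiv.Perm (Fin 4), G (σ 0) (σ 1) (σ 2) (σ 3) = arrSum G := by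
  have hinj : Set.InjOn (fun σ : Equiv.Perm (Fin 4) => (σ 0, σ 1, σ 2, σ 3))
      (Finset.univ : Finset (Equiv.Perm (Fin 4))) := by
    intro σ _ τ _ h
    simp only [Prod.mk.injEq] at h
    ext i
    fin_cases i <;> simp [h]
  have himg : (Finset.univ : Finset (Equiv.Perm (Fin 4))).image
      (fun σ => (σ 0, σ 1, σ 2, σ 3)) = {(0, 1, 2, 3), (0, 1, 3, 2), (0, 2, 1, 3), (0, 2, 3, 1), (0, 3, 1, 2), (0, 3, 2, 1),
      (1, 0, 2, 3), (1, 0, 3, 2), (1, 2, 0, 3), (1, 2, 3, 0), (1, 3, 0, 2), (1, 3, 2, 0),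
      (2, 0, 1, 3), (2, 0, 3, 1), (2, 1, 0, 3), (2, 1, 3, 0), (2, 3, 0, 1), (2, 3, 1, 0),
      (3, 0, 1, 2), (3, 0, 2, 1), (3, 1, 0, 2), (3, 1, 2, 0), (3, 2, 0, 1), (3, 2, 1, 0)} := by decide
  have h := (Finset.sum_image (f := fun t => G t.1 t.2.1 t.2.2.1 t.2.2.2) hinj).symm
  rw [himg] at h
  refine h.trans ?_
  simp only [Finset.sum_insert, Finset.sum_singleton, Finset.mem_insert, Finset.mem_singleton,
    Prod.mk.injEq, Fin.reduceEq, and_false, and_true, or_self,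
    not_false_eq_true, arrSum]
  ring

/-- `u` paired with an arrangement of `v`. -/
def dotArr (u v : Fin 4 → ℝ) (i j k l : Fin 4) : ℝ := u 0 * v i + u 1 * v j + u 2 * v k + u 3 * v l

/-- Monomial symmetric function of shape (1, 0, 0, 0). -/
def m1 (x : Fin 4 → ℝ) : ℝ :=
  x 0 + x 1 + x 2 + x 3

/-- Monomial symmetric function of shape (2, 0, 0, 0). -/
def m2 (x : Fin 4 → ℝ) : ℝ :=
  x 0 ^ 2 + x 1 ^ 2 + x 2 ^ 2 + x 3 ^ 2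

/-- Monomial symmetric function of shape (1, 1, 0, 0). -/
def m11 (x : Fin 4 → ℝ) : ℝ :=
  x 0 * x 1 + x 0 * x 2 + x 0 * x 3 + x 1 * x 2 + x 1 * x 3 + x 2 * x 3

/-- Monomial symmetric function of shape (3, 0, 0, 0). -/
def m3 (x : Fin 4 → ℝ) : ℝ :=
  x 0 ^ 3 + x 1 ^ 3 + x 2 ^ 3 + x 3 ^ 3

/-- Monomial symmetric function of shape (2, 1, 0, 0). -/
def m21 (x : Fin 4 → ℝ) : ℝ :=
  x 0 ^ 2 * x 1 + x 0 ^ 2 * x 2 + x 0 ^ 2 * x 3 + x 0 * x 1 ^ 2 + x 0 * x 2 ^ 2 + x 0 * x 3 ^ 2 + x 1 ^ 2 * x 2 + x 1 ^ 2 * x 3 + x 1 * x 2 ^ 2 + x 1 * x 3 ^ 2 + x 2 ^ 2 * x 3 + x 2 * x 3 ^ 2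

/-- Monomial symmetric function of shape (1, 1, 1, 0). -/
def m111 (x : Fin 4 → ℝ) : ℝ :=
  x 0 * x 1 * x 2 + x 0 * x 1 * x 3 + x 0 * x 2 * x 3 + x 1 * x 2 * x 3

/-- Monomial symmetric function of shape (4, 0, 0, 0). -/
def m4 (x : Fin 4 → ℝ) : ℝ :=
  x 0 ^ 4 + x 1 ^ 4 + x 2 ^ 4 + x 3 ^ 4

/-- Monomial symmetric function of shape (3, 1, 0, 0). -/
def m31 (x : Fin 4 → ℝ) : ℝ :=
  x 0 ^ 3 * x 1 + x 0 ^ 3 * x 2 + x 0 ^ 3 * x 3 + x 0 * x 1 ^ 3 + x 0 * x 2 ^ 3 + x 0 * x 3 ^ 3 + x 1 ^ 3 * x 2 + x 1 ^ 3 * x 3 + x 1 * x 2 ^ 3 + x 1 * x 3 ^ 3 + x 2 ^ 3 * x 3 + x 2 * x 3 ^ 3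

/-- Monomial symmetric function of shape (2, 2, 0, 0). -/
def m22 (x : Fin 4 → ℝ) : ℝ :=
  x 0 ^ 2 * x 1 ^ 2 + x 0 ^ 2 * x 2 ^ 2 + x 0 ^ 2 * x 3 ^ 2 + x 1 ^ 2 * x 2 ^ 2 + x 1 ^ 2 * x 3 ^ 2 + x 2 ^ 2 * x 3 ^ 2

/-- Monomial symmetric function of shape (2, 1, 1, 0). -/
def m211 (x : Fin 4 → ℝ) : ℝ :=
  x 0 ^ 2 * x 1 * x 2 + x 0 ^ 2 * x 1 * x 3 + x 0 ^ 2 * x 2 * x 3 + x 0 * x 1 ^ 2 * x 2 + x 0 * x 1 ^ 2 * x 3 + x 0 * x 1 * x 2 ^ 2 + x 0 * x 1 * x 3 ^ 2 + x 0 * x 2 ^ 2 * x 3 + x 0 * x 2 * x 3 ^ 2 + x 1 ^ 2 * x 2 * x 3 + x 1 * x 2 ^ 2 * x 3 + x 1 * x 2 * x 3 ^ 2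

/-- Monomial symmetric function of shape (1, 1, 1, 1). -/
def m1111 (x : Fin 4 → ℝ) : ℝ :=
  x 0 * x 1 * x 2 * x 3

/-- Monomial symmetric function of shape (5, 0, 0, 0). -/
def m5 (x : Fin 4 → ℝ) : ℝ :=
  x 0 ^ 5 + x 1 ^ 5 + x 2 ^ 5 + x 3 ^ 5

/-- Monomial symmetric function of shape (4, 1, 0, 0). -/
def m41 (x : Fin 4 → ℝ) : ℝ :=
  x 0 ^ 4 * x 1 + x 0 ^ 4 * x 2 + x 0 ^ 4 * x 3 + x 0 * x 1 ^ 4 + x 0 * x 2 ^ 4 + x 0 * x 3 ^ 4 + x 1 ^ 4 * x 2 + x 1 ^ 4 * x 3 + x 1 * x 2 ^ 4 + x 1 * x 3 ^ 4 + x 2 ^ 4 * x 3 + x 2 * x 3 ^ 4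

/-- Monomial symmetric function of shape (3, 2, 0, 0). -/
def m32 (x : Fin 4 → ℝ) : ℝ :=
  x 0 ^ 3 * x 1 ^ 2 + x 0 ^ 3 * x 2 ^ 2 + x 0 ^ 3 * x 3 ^ 2 + x 0 ^ 2 * x 1 ^ 3 + x 0 ^ 2 * x 2 ^ 3 + x 0 ^ 2 * x 3 ^ 3 + x 1 ^ 3 * x 2 ^ 2 + x 1 ^ 3 * x 3 ^ 2 + x 1 ^ 2 * x 2 ^ 3 + x 1 ^ 2 * x 3 ^ 3 + x 2 ^ 3 * x 3 ^ 2 + x 2 ^ 2 * x 3 ^ 3

/-- Monomial symmetric function of shape (3, 1, 1, 0). -/
def m311 (x : Fin 4 → ℝ) : ℝ :=
  x 0 ^ 3 * x 1 * x 2 + x 0 ^ 3 * x 1 * x 3 + x 0 ^ 3 * x 2 * x 3 + x 0 * x 1 ^ 3 * x 2 + x 0 * x 1 ^ 3 * x 3 + x 0 * x 1 * x 2 ^ 3 + x 0 * x 1 * x 3 ^ 3 + x 0 * x 2 ^ 3 * x 3 + x 0 * x 2 * x 3 ^ 3 + x 1 ^ 3 * x 2 * x 3 + x 1 * x 2 ^ 3 * x 3 + x 1 * x 2 * x 3 ^ 3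

/-- Monomial symmetric function of shape (2, 2, 1, 0). -/
def m221 (x : Fin 4 → ℝ) : ℝ :=
  x 0 ^ 2 * x 1 ^ 2 * x 2 + x 0 ^ 2 * x 1 ^ 2 * x 3 + x 0 ^ 2 * x 1 * x 2 ^ 2 + x 0 ^ 2 * x 1 * x 3 ^ 2 + x 0 ^ 2 * x 2 ^ 2 * x 3 + x 0 ^ 2 * x 2 * x 3 ^ 2 + x 0 * x 1 ^ 2 * x 2 ^ 2 + x 0 * x 1 ^ 2 * x 3 ^ 2 + x 0 * x 2 ^ 2 * x 3 ^ 2 + x 1 ^ 2 * x 2 ^ 2 * x 3 + x 1 ^ 2 * x 2 * x 3 ^ 2 + x 1 * x 2 ^ 2 * x 3 ^ 2

/-- Monomial symmetric function of shape (2, 1, 1, 1). -/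
def m2111 (x : Fin 4 → ℝ) : ℝ :=
  x 0 ^ 2 * x 1 * x 2 * x 3 + x 0 * x 1 ^ 2 * x 2 * x 3 + x 0 * x 1 * x 2 ^ 2 * x 3 + x 0 * x 1 * x 2 * x 3 ^ 2

theorem ips1 (u v : Fin 4 → ℝ) :
    arrSum (fun i j k l => (dotArr u v i j k l) ^ 1) =
      6 * m1 u * m1 v := by
  simp only [arrSum, dotArr, m1]
  ring

theorem ips2 (u v : Fin 4 → ℝ) :
    arrSum (fun i j k l => (dotArr u v i j k l) ^ 2) =
      6 * m2 u * m2 v +
      8 * m11 u * m11 v := by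
  simp only [arrSum, dotArr, m11, m2]
  ring

theorem ips3 (u v : Fin 4 → ℝ) :
    arrSum (fun i j k l => (dotArr u v i j k l) ^ 3) =
      6 * m3 u * m3 v +
      6 * m21 u * m21 v +
      36 * m111 u * m111 v := by
  simp only [arrSum, dotArr, m111, m21, m3]
  ring

theorem ips4 (u v : Fin 4 → ℝ) :
    arrSum (fun i j k l => (dotArr u v i j k l) ^ 4) =
      6 * m4 u * m4 v +
      8 * m31 u * m31 v +
      24 * m22 u * m22 v +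
      24 * m211 u * m211 v +
      576 * m1111 u * m1111 v := by
  simp only [arrSum, dotArr, m1111, m211, m22, m31, m4]
  ring

theorem ips5 (u v : Fin 4 → ℝ) :
    arrSum (fun i j k l => (dotArr u v i j k l) ^ 5) =
      6 * m5 u * m5 v +
      10 * m41 u * m41 v +
      20 * m32 u * m32 v +
      40 * m311 u * m311 v +
      60 * m221 u * m221 v +
      360 * m2111 u * m2111 v := by
  simp only [arrSum, dotArr, m2111, m221, m311, m32, m41, m5]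
  ring

theorem ipa0 (u v : Fin 4 → ℝ) :
    arrSum (fun i j k l => dotArr (fun i => u i ^ 2) (fun i => v i ^ 1) i j k l) =
      6 * m2 u * m1 v := by
  simp only [arrSum, dotArr, m1, m2]
  ring

theorem ipa1 (u v : Fin 4 → ℝ) :
    arrSum (fun i j k l => (dotArr u v i j k l) ^ 1 * dotArr (fun i => u i ^ 2) (fun i => v i ^ 1) i j k l) =
      6 * m3 u * m2 v +
      4 * m21 u * m11 v := by
  simp only [arrSum, dotArr, m11, m2, m21, m3]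
  ring

theorem ipa2 (u v : Fin 4 → ℝ) :
    arrSum (fun i j k l => (dotArr u v i j k l) ^ 2 * dotArr (fun i => u i ^ 2) (fun i => v i ^ 1) i j k l) =
      6 * m4 u * m3 v +
      4 * m22 u * m21 v +
      4 * m31 u * m21 v +
      12 * m211 u * m111 v := by
  simp only [arrSum, dotArr, m111, m21, m211, m22, m3, m31, m4]
  ring

theorem ipa3 (u v : Fin 4 → ℝ) :
    arrSum (fun i j k l => (dotArr u v i j k l) ^ 3 * dotArr (fun i => u i ^ 2) (fun i => v i ^ 1) i j k l) =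
      6 * m5 u * m4 v +
      2 * m32 u * m31 v +
      6 * m41 u * m31 v +
      12 * m32 u * m22 v +
      12 * m221 u * m211 v +
      12 * m311 u * m211 v +
      144 * m2111 u * m1111 v := by
  simp only [arrSum, dotArr, m1111, m211, m2111, m22, m221, m31, m311, m32, m4, m41, m5]
  ring

theorem ipb0 (u v : Fin 4 → ℝ) :
    arrSum (fun i j k l => dotArr (fun i => u i ^ 1) (fun i => v i ^ 2) i j k l) =
      6 * m1 u * m2 v := by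
  simp only [arrSum, dotArr, m1, m2]
  ring

theorem ipb1 (u v : Fin 4 → ℝ) :
    arrSum (fun i j k l => (dotArr u v i j k l) ^ 1 * dotArr (fun i => u i ^ 1) (fun i => v i ^ 2) i j k l) =
      6 * m2 u * m3 v +
      4 * m11 u * m21 v := by
  simp only [arrSum, dotArr, m11, m2, m21, m3]
  ring

theorem ipb2 (u v : Fin 4 → ℝ) :
    arrSum (fun i j k l => (dotArr u v i j k l) ^ 2 * dotArr (fun i => u i ^ 1) (fun i => v i ^ 2) i j k l) =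
      6 * m3 u * m4 v +
      4 * m21 u * m22 v +
      4 * m21 u * m31 v +
      12 * m111 u * m211 v := by
  simp only [arrSum, dotArr, m111, m21, m211, m22, m3, m31, m4]
  ring

theorem ipb3 (u v : Fin 4 → ℝ) :
    arrSum (fun i j k l => (dotArr u v i j k l) ^ 3 * dotArr (fun i => u i ^ 1) (fun i => v i ^ 2) i j k l) =
      6 * m4 u * m5 v +
      2 * m31 u * m32 v +
      6 * m31 u * m41 v +
      12 * m22 u * m32 v +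
      12 * m211 u * m221 v +
      12 * m211 u * m311 v +
      144 * m1111 u * m2111 v := by
  simp only [arrSum, dotArr, m1111, m211, m2111, m22, m221, m31, m311, m32, m4, m41, m5]
  ring

theorem ipc0 (u v : Fin 4 → ℝ) :
    arrSum (fun i j k l => dotArr (fun i => u i ^ 2) (fun i => v i ^ 2) i j k l) =
      6 * m2 u * m2 v := by
  simp only [arrSum, dotArr, m2]
  ring

theorem ipc1 (u v : Fin 4 → ℝ) :
    arrSum (fun i j k l => (dotArr u v i j k l) ^ 1 * dotArr (fun i => u i ^ 2) (fun i => v i ^ 2) i j k l) =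
      6 * m3 u * m3 v +
      2 * m21 u * m21 v := by
  simp only [arrSum, dotArr, m21, m3]
  ring

theorem ipc2 (u v : Fin 4 → ℝ) :
    arrSum (fun i j k l => (dotArr u v i j k l) ^ 2 * dotArr (fun i => u i ^ 2) (fun i => v i ^ 2) i j k l) =
      6 * m4 u * m4 v +
      8 * m22 u * m22 v +
      4 * m31 u * m31 v +
      4 * m211 u * m211 v := by
  simp only [arrSum, dotArr, m211, m22, m31, m4]
  ring

theorem ipc3 (u v : Fin 4 → ℝ) :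
    arrSum (fun i j k l => (dotArr u v i j k l) ^ 3 * dotArr (fun i => u i ^ 2) (fun i => v i ^ 2) i j k l) =
      6 * m5 u * m5 v +
      8 * m32 u * m32 v +
      6 * m41 u * m41 v +
      12 * m221 u * m221 v +
      12 * m311 u * m311 v +
      36 * m2111 u * m2111 v := by
  simp only [arrSum, dotArr, m2111, m221, m311, m32, m41, m5]
  ring

end

end Vale.Agent.P154.Ferro4.PermSum
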