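import Vale.Agent.P154.Ferro4.XDefs
import Vale.Agent.P154.Ferro4.XPermSum

/-!
P154, four states: closed forms of the permutation averages of `B w ^ k`, the bound on the
average of `sq4` from a cubic minorant of `1 / (1 + w)`, and a family of such minorants.
-/

namespace Vale.Agent.P154.Ferro4

open Channel PermSum

noncomputable section

/-- The deviation of a normalised posterior. -/
def dev (r : Fin 4 → ℝ) : Fin 4 → ℝ := fun i => r i - 1

section Values

variable {r : Fin 4 → ℝ} (hr : ∑ i, r i = 4)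
include hr

theorem three_eq : r 3 = 4 - r 0 - r 1 - r 2 := by
  rw [Fin.sum_univ_four] at hr
  linarith

theorem m1_dev : m1 (dev r) = 0 := by
  simp only [m1, dev, three_eq hr]
  ring

theorem m2_dev : m2 (dev r) = 12 * sq4 r := by
  simp only [m2, dev, sq4, Fin.sum_univ_four, three_eq hr]
  ring

theorem m11_dev : m11 (dev r) = -6 * sq4 r := by
  simp only [m11, dev, sq4, Fin.sum_univ_four, three_eq hr]
  ring

theorem m3_dev : m3 (dev r) = 24 * cube4 r := by
  simp only [m3, dev, cube4, Fin.sum_univ_four, three_eq hr]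
  ring

theorem m21_dev : m21 (dev r) = -24 * cube4 r := by
  simp only [m21, dev, cube4, Fin.sum_univ_four, three_eq hr]
  ring

theorem m111_dev : m111 (dev r) = 8 * cube4 r := by
  simp only [m111, dev, cube4, Fin.sum_univ_four, three_eq hr]
  ring

theorem m4_dev : m4 (dev r) = 84 * quart4 r := by
  simp only [m4, dev, quart4, Fin.sum_univ_four, three_eq hr]
  ring

theorem m31_dev : m31 (dev r) = -84 * quart4 r := by
  simp only [m31, dev, quart4, Fin.sum_univ_four, three_eq hr]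
  ring

theorem m22_dev : m22 (dev r) = -42 * quart4 r + 72 * sq4 r ^ 2 := by
  simp only [m22, dev, quart4, sq4, Fin.sum_univ_four, three_eq hr]
  ring

theorem m211_dev : m211 (dev r) = 84 * quart4 r - 72 * sq4 r ^ 2 := by
  simp only [m211, dev, quart4, sq4, Fin.sum_univ_four, three_eq hr]
  ring

theorem m1111_dev : m1111 (dev r) = -21 * quart4 r + 18 * sq4 r ^ 2 := by
  simp only [m1111, dev, quart4, sq4, Fin.sum_univ_four, three_eq hr]
  ring

theorem m5_dev : m5 (dev r) = 240 * (sq4 r * cube4 r) := by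
  simp only [m5, dev, sq4, cube4, Fin.sum_univ_four, three_eq hr]
  ring

theorem m41_dev : m41 (dev r) = -240 * (sq4 r * cube4 r) := by
  simp only [m41, dev, sq4, cube4, Fin.sum_univ_four, three_eq hr]
  ring

theorem m32_dev : m32 (dev r) = 48 * (sq4 r * cube4 r) := by
  simp only [m32, dev, sq4, cube4, Fin.sum_univ_four, three_eq hr]
  ring

theorem m311_dev : m311 (dev r) = 96 * (sq4 r * cube4 r) := by
  simp only [m311, dev, sq4, cube4, Fin.sum_univ_four, three_eq hr]
  ring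

theorem m221_dev : m221 (dev r) = -48 * (sq4 r * cube4 r) := by
  simp only [m221, dev, sq4, cube4, Fin.sum_univ_four, three_eq hr]
  ring

theorem m2111_dev : m2111 (dev r) = 0 := by
  simp only [m2111, dev, three_eq hr]
  ring

end Values

/-- Total weight of a combination, with sum constraints used. -/
theorem mass4_comb {r r' : Fin 4 → ℝ} (hr : ∑ i, r i = 4) (hr' : ∑ i, r' i = 4)
    (σ : Equiv.Perm (Fin 4)) :
    mass4 (fun i => r i * r' (σ i)) = 1 + dotArr (dev r) (dev r') (σ 0) (σ 1) (σ 2) (σ 3) / 4 := by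
  have h' : r' (σ 0) + r' (σ 1) + r' (σ 2) + r' (σ 3) = 4 := by
    rw [← hr', ← Equiv.sum_comp σ r', Fin.sum_univ_four]
  rw [Fin.sum_univ_four] at hr
  simp only [mass4, dotArr, dev, Fin.sum_univ_four]
  linear_combination hr / 4 + h' / 4

/-- The sum of pair products of a combination, in deviations. -/
theorem pairs4_comb {r r' : Fin 4 → ℝ} (hr : ∑ i, r i = 4) (hr' : ∑ i, r' i = 4)
    (σ : Equiv.Perm (Fin 4)) :
    12 * pairs4 (fun i => r i * r' (σ i)) =
      12 - 12 * sq4 r - 12 * sq4 r' + 4 * dotArr (dev r) (dev r') (σ 0) (σ 1) (σ 2) (σ 3) +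
        dotArr (dev r) (dev r') (σ 0) (σ 1) (σ 2) (σ 3) ^ 2 -
        2 * dotArr (fun i => dev r i ^ 2) (fun i => dev r' i ^ 1) (σ 0) (σ 1) (σ 2) (σ 3) -
        2 * dotArr (fun i => dev r i ^ 1) (fun i => dev r' i ^ 2) (σ 0) (σ 1) (σ 2) (σ 3) -
        dotArr (fun i => dev r i ^ 2) (fun i => dev r' i ^ 2) (σ 0) (σ 1) (σ 2) (σ 3) := by
  have h' : r' (σ 0) + r' (σ 1) + r' (σ 2) + r' (σ 3) = 4 := by
    rw [← hr', ← Equiv.sum_comp σ r', Fin.sum_univ_four]
  have hs : 12 * sq4 r' = (r' (σ 0) - 1) ^ 2 + (r' (σ 1) - 1) ^ 2 + (r' (σ 2) - 1) ^ 2 +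
      (r' (σ 3) - 1) ^ 2 := by
    have e := Equiv.sum_comp σ fun i => (r' i - 1) ^ 2
    simp only [sq4, Fin.sum_univ_four] at e ⊢
    linarith
  rw [Fin.sum_univ_four] at hr
  have hm : r 0 * r' (σ 0) + r 1 * r' (σ 1) + r 2 * r' (σ 2) + r 3 * r' (σ 3) =
      4 + dotArr (dev r) (dev r') (σ 0) (σ 1) (σ 2) (σ 3) := by
    simp only [dotArr, dev]
    linear_combination hr + h'
  have hp : ∀ a : Fin 4 → ℝ, 12 * pairs4 a =
      (a 0 + a 1 + a 2 + a 3) ^ 2 - (a 0 ^ 2 + a 1 ^ 2 + a 2 ^ 2 + a 3 ^ 2) := fun a => by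
    simp only [pairs4]; ring
  rw [hp, hm, hs]
  simp only [dotArr, dev, sq4, Fin.sum_univ_four, pow_one]
  linear_combination (-2) * hr + (-2) * h'

/-- The average of `B w ^ k` in terms of the elementary sums over arrangements. -/
theorem avgBW_expand {r r' : Fin 4 → ℝ} (hr : ∑ i, r i = 4) (hr' : ∑ i, r' i = 4) (k : ℕ) :
    avgBW k r r' = ((12 - 12 * sq4 r - 12 * sq4 r') *
          arrSum (fun i j l n => dotArr (dev r) (dev r') i j l n ^ k) +
        4 * arrSum (fun i j l n => dotArr (dev r) (dev r') i j l n ^ (k + 1)) +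
        arrSum (fun i j l n => dotArr (dev r) (dev r') i j l n ^ (k + 2)) -
        2 * arrSum (fun i j l n => dotArr (dev r) (dev r') i j l n ^ k *
          dotArr (fun i => dev r i ^ 2) (fun i => dev r' i ^ 1) i j l n) -
        2 * arrSum (fun i j l n => dotArr (dev r) (dev r') i j l n ^ k *
          dotArr (fun i => dev r i ^ 1) (fun i => dev r' i ^ 2) i j l n) -
        arrSum (fun i j l n => dotArr (dev r) (dev r') i j l n ^ k *
          dotArr (fun i => dev r i ^ 2) (fun i => dev r' i ^ 2) i j l n)) / (288 * 4 ^ k) := by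
  simp only [← sum_perm, Finset.mul_sum, ← Finset.sum_add_distrib, ← Finset.sum_sub_distrib]
  rw [avgBW, Finset.sum_div, Finset.sum_div]
  refine Finset.sum_congr rfl fun σ _ => ?_
  rw [mass4_comb hr hr' σ, add_sub_cancel_left, div_pow]
  have h := pairs4_comb hr hr' σ
  field_simp
  simp only [pow_one] at h ⊢
  linear_combination 24 * (dotArr (dev r) (dev r') (σ 0) (σ 1) (σ 2) (σ 3)) ^ k * h

variable {r r' : Fin 4 → ℝ}

theorem arrSum_one (u v : Fin 4 → ℝ) :
    arrSum (fun i j k l => dotArr u v i j k l ^ 0) = 24 := by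
  simp only [arrSum, pow_zero]; norm_num

theorem avgBW_zero (hr : ∑ i, r i = 4) (hr' : ∑ i, r' i = 4) :
    avgBW 0 r r' = mom0 (sq4 r) (sq4 r') := by
  simp only [avgBW_expand hr hr', Nat.reduceAdd, arrSum_one, ips1, ips2]
  simp only [pow_zero, one_mul, ipa0, ipb0, ipc0, m1_dev hr, m11_dev hr, m2_dev hr, m1_dev hr', m11_dev hr', m2_dev hr', mom0]
  ring

theorem avgBW_one (hr : ∑ i, r i = 4) (hr' : ∑ i, r' i = 4) :
    avgBW 1 r r' = mom1 (sq4 r) (cube4 r) (sq4 r') (cube4 r') := by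
  simp only [avgBW_expand hr hr', Nat.reduceAdd, ips1, ips2, ips3, ipa1, ipb1, ipc1, m1_dev hr, m11_dev hr, m111_dev hr, m2_dev hr, m21_dev hr, m3_dev hr, m1_dev hr',
    m11_dev hr', m111_dev hr', m2_dev hr', m21_dev hr', m3_dev hr', mom1]
  ring

theorem avgBW_two (hr : ∑ i, r i = 4) (hr' : ∑ i, r' i = 4) :
    avgBW 2 r r' = mom2 (sq4 r) (cube4 r) (quart4 r) (sq4 r') (cube4 r') (quart4 r') := by
  simp only [avgBW_expand hr hr', Nat.reduceAdd, ips2, ips3, ips4, ipa2, ipb2, ipc2, m11_dev hr, m111_dev hr, m1111_dev hr, m2_dev hr, m21_dev hr, m211_dev hr, m22_dev hr,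
    m3_dev hr, m31_dev hr, m4_dev hr, m11_dev hr', m111_dev hr', m1111_dev hr', m2_dev hr',
    m21_dev hr', m211_dev hr', m22_dev hr', m3_dev hr', m31_dev hr', m4_dev hr', mom2]
  ring

theorem avgBW_three (hr : ∑ i, r i = 4) (hr' : ∑ i, r' i = 4) :
    avgBW 3 r r' = mom3 (sq4 r) (cube4 r) (quart4 r) (sq4 r') (cube4 r') (quart4 r') := by
  simp only [avgBW_expand hr hr', Nat.reduceAdd, ips3, ips4, ips5, ipa3, ipb3, ipc3, m111_dev hr, m1111_dev hr, m21_dev hr, m211_dev hr, m2111_dev hr, m22_dev hr,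
    m221_dev hr, m3_dev hr, m31_dev hr, m311_dev hr, m32_dev hr, m4_dev hr, m41_dev hr,
    m5_dev hr, m111_dev hr', m1111_dev hr', m21_dev hr', m211_dev hr', m2111_dev hr',
    m22_dev hr', m221_dev hr', m3_dev hr', m31_dev hr', m311_dev hr', m32_dev hr',
    m4_dev hr', m41_dev hr', m5_dev hr', mom3]
  ring

/-- The permutation average of the weight is one. -/
theorem sum_mass4_comb (hr : ∑ i, r i = 4) (hr' : ∑ i, r' i = 4) :
    ∑ σ : Equiv.Perm (Fin 4), mass4 (fun i => r i * r' (σ i)) = 24 := by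
  have h : ∀ σ : Equiv.Perm (Fin 4), mass4 (fun i => r i * r' (σ i)) =
      (fun i j l n => 1 + dotArr (dev r) (dev r') i j l n ^ 1 / 4) (σ 0) (σ 1) (σ 2) (σ 3) :=
    fun σ => by simp only [pow_one]; exact mass4_comb hr hr' σ
  rw [Finset.sum_congr rfl fun σ _ => h σ, Finset.sum_add_distrib, ← Finset.sum_div,
    sum_perm (fun i j l n => dotArr (dev r) (dev r') i j l n ^ 1), ips1, m1_dev hr]
  simp [Finset.card_univ, Fintype.card_perm]
  norm_num [Nat.factorial]

/-- For one combination, the minorant bounds the homogeneous extension of `sq4`. -/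
theorem homExt_sq4_le {a : Fin 4 → ℝ} {p : Fin 4 → ℝ} (ha : ∀ i, 0 ≤ a i) (h4 : mass4 a ≤ 4)
    (hp : InvMinorant p) :
    homExt sq4 a ≤ mass4 a - pairs4 a * (p 0 + p 1 * (mass4 a - 1) + p 2 * (mass4 a - 1) ^ 2 +
      p 3 * (mass4 a - 1) ^ 3) := by
  have hB : 0 ≤ pairs4 a := by
    have h0 := ha 0; have h1 := ha 1; have h2 := ha 2; have h3 := ha 3
    unfold pairs4; positivity
  have hZ : 0 ≤ mass4 a := div_nonneg (Finset.sum_nonneg fun i _ => ha i) (by norm_num)
  have hP := hp (mass4 a - 1) (by linarith) (by linarith)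
  rw [add_sub_cancel] at hP
  generalize p 0 + p 1 * (mass4 a - 1) + p 2 * (mass4 a - 1) ^ 2 + p 3 * (mass4 a - 1) ^ 3 = P at hP ⊢
  rw [homExt]
  split_ifs with h
  · have hs : ∑ i, a i = 0 := by
      rcases div_eq_zero_iff.1 h with h | h
      · exact h
      · norm_num at h
    have hz : ∀ i, a i = 0 := fun i =>
      (Finset.sum_eq_zero_iff_of_nonneg fun j _ => ha j).1 hs i (Finset.mem_univ i)
    simp [pairs4, hz, h]
  · have hpos : 0 < mass4 a := lt_of_le_of_ne hZ (Ne.symm h)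
    have e : mass4 a * sq4 (fun i => a i / mass4 a) = mass4 a - pairs4 a / mass4 a := by
      have hsum : a 0 + a 1 + a 2 + a 3 = 4 * mass4 a := by
        simp only [mass4, Fin.sum_univ_four]; ring
      simp only [sq4, pairs4, Fin.sum_univ_four]
      generalize mass4 a = Z at hsum hpos ⊢
      field_simp
      linear_combination 6 * (a 0 + a 1 + a 2 + a 3 + 2 * Z) * hsum
    have hle : pairs4 a * P ≤ pairs4 a / mass4 a := by
      rw [le_div_iff₀ hpos]
      calc pairs4 a * P * mass4 a = pairs4 a * (mass4 a * P) := by ring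
        _ ≤ pairs4 a * 1 := mul_le_mul_of_nonneg_left hP hB
        _ = pairs4 a := mul_one _
    linarith

/-- Upper bound for the average of `sq4` from a minorant of the inverse. -/
theorem avg24_sq4_le {p : Fin 4 → ℝ} (hr : IsPost4 r) (hr' : IsPost4 r') (hp : InvMinorant p) :
    avg24 sq4 r r' ≤
      1 - invBound p (sq4 r) (cube4 r) (quart4 r) (sq4 r') (cube4 r') (quart4 r') := by
  have ha : ∀ (σ : Equiv.Perm (Fin 4)) i, 0 ≤ r i * r' (σ i) :=
    fun σ i => mul_nonneg (hr.nonneg i) (hr'.nonneg _)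
  have h4 : ∀ σ : Equiv.Perm (Fin 4), mass4 (fun i => r i * r' (σ i)) ≤ 4 := fun σ => by
    have hi : ∀ i, r i * r' (σ i) ≤ r i * 4 := fun i => by
      refine mul_le_mul_of_nonneg_left ?_ (hr.nonneg i)
      exact (Finset.single_le_sum (fun j _ => hr'.nonneg j) (Finset.mem_univ _)).trans hr'.sum_eq.le
    have := Finset.sum_le_sum fun i (_ : i ∈ Finset.univ) => hi i
    rw [← Finset.sum_mul, hr.sum_eq] at this
    simp only [mass4]
    linarith
  have hsum := Finset.sum_le_sum fun σ (_ : σ ∈ Finset.univ) => homExt_sq4_le (ha σ) (h4 σ) hp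
  have e : avg24 sq4 r r' * 24 ≤ 24 - 24 * (p 0 * avgBW 0 r r' + p 1 * avgBW 1 r r' +
      p 2 * avgBW 2 r r' + p 3 * avgBW 3 r r') := by
    rw [avg24, div_mul_cancel₀ _ (by norm_num : (24 : ℝ) ≠ 0)]
    refine hsum.trans (le_of_eq ?_)
    rw [Finset.sum_sub_distrib, sum_mass4_comb hr.sum_eq hr'.sum_eq]
    congr 1
    simp only [avgBW, ← mul_div_assoc, Finset.mul_sum, Finset.sum_div, ← Finset.sum_add_distrib]
    refine Finset.sum_congr rfl fun σ _ => ?_
    ring
  rw [avgBW_zero hr.sum_eq hr'.sum_eq, avgBW_one hr.sum_eq hr'.sum_eq,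
    avgBW_two hr.sum_eq hr'.sum_eq, avgBW_three hr.sum_eq hr'.sum_eq] at e
  simp only [invBound]
  linarith

/-- Coefficients in `w = z - 1` of `(1 - (1 - z / k₁) ^ 2 * (1 - z / k₂) ^ 2) / z`. -/
def invCoef (k1 k2 : ℝ) : Fin 4 → ℝ :=
  let a := 1 / k1
  let b := 1 / k2
  let c0 := 2 * (a + b)
  let c1 := -(a ^ 2 + 4 * a * b + b ^ 2)
  let c2 := 2 * a * b * (a + b)
  let c3 := -(a ^ 2 * b ^ 2)
  ![c0 + c1 + c2 + c3, c1 + 2 * c2 + 3 * c3, c2 + 3 * c3, c3]

/-- Every `invCoef` is a minorant of the inverse. -/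
theorem invMinorant_invCoef (k1 k2 : ℝ) : InvMinorant (invCoef k1 k2) := by
  intro w _ _
  simp only [invCoef, Matrix.cons_val_zero, Matrix.cons_val_one, Matrix.cons_val_two,
    Matrix.cons_val_three, Matrix.tail_cons, Matrix.head_cons]
  generalize 1 / k1 = a
  generalize 1 / k2 = b
  nlinarith [sq_nonneg ((1 - (1 + w) * a) * (1 - (1 + w) * b))]

end

end Vale.Agent.P154.Ferro4
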