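import Vale.Agent.P154.Ferro4.XReduce
import Vale.Agent.P154.Ferro4.XMoments

/-!
P154, four states: cells of the subadditivity certificate give the pointwise inequality `hX` of
`ferroCert_four_of_point`, with `ν' = 0` and exponent `2`.
-/

namespace Vale.Agent.P154.Ferro4

open Channel

noncomputable section

/-- The multiplier as a function of a posterior. -/
def psiFn (psi : Fin 7 → ℝ) (r : Fin 4 → ℝ) : ℝ :=
  xPsi psi (sq4 r) (cube4 r) (quart4 r)

/-- The subadditivity inequality from minorants, majorants and nonnegative slacks. -/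
theorem hX_of_slack {g eps : ℝ} {psi : Fin 7 → ℝ} (heps : 0 ≤ eps)
    (hpsi : ∀ r, IsPost4 r → 0 ≤ psiFn psi r)
    (hcell : ∀ r r', IsPost4 r → IsPost4 r' →
      ∃ (p : Fin 4 → ℝ) (k k' : Fin 12 → ℝ), InvMinorant p ∧
        classFn g r ≤ classMajorant g k (sq4 r) (cube4 r) (quart4 r) ∧
        classFn g r' ≤ classMajorant g k' (sq4 r') (cube4 r') (quart4 r') ∧
        0 ≤ xSlack g eps psi k k' p (sq4 r) (cube4 r) (quart4 r) (sq4 r') (cube4 r') (quart4 r'))
    (r r' : Fin 4 → ℝ) (hr : IsPost4 r) (hr' : IsPost4 r') :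
    avg24 sq4 r r' ≤ sq4 r + sq4 r' - psiFn psi r' * classFn g r - psiFn psi r * classFn g r' -
      0 * (classFn g r * classFn g r') - eps * sq4 r ^ 2 * sq4 r' := by
  obtain ⟨p, k, k', hp, hk, hk', hS⟩ := hcell r r' hr hr'
  have h1 := avg24_sq4_le hr hr' hp
  have h2 := mul_le_mul_of_nonneg_left hk (hpsi r' hr')
  have h3 := mul_le_mul_of_nonneg_left hk' (hpsi r hr)
  have h4 : 0 ≤ eps * (sq4 r * sq4 r' ^ 2) :=
    mul_nonneg heps (mul_nonneg (sq4_nonneg r) (sq_nonneg _))
  simp only [xSlack, psiFn] at hS h2 h3 ⊢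
  linarith

end

end Vale.Agent.P154.Ferro4
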