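import Vale.Agent.P154.Cert.DenseCheck
import Vale.Agent.P154.Ferro4.XCheck
import Vale.Agent.P154.Ferro4.XData

/-!
P154, four states: checks of the cells of the subadditivity certificate. The first family is
split at `x = 0`, where `s` vanishes. In the first cell the slack vanishes to order six at the
origin; there one substitutes `y = r x` or `x = r y` with `r ∈ [-1, 1]`.
-/

namespace Vale.Agent.P154.Ferro4

open Channel PolyCheck XReduce XCheck

/-- The parts of the parameter ranges: a family and an interval. -/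
def xPart : Fin 5 → Fin 4 × Iv :=
  ![(0, ⟨-1, 0, 1⟩), (0, ⟨0, 1, 3⟩), (1, famBox 1), (2, famBox 2), (3, famBox 3)]

/-- The slack of cell `(I, J)` on a pair of families, as an expression. -/
def xCellPoly (I J : Fin 19) (i j : Fin 4) (a b : RE) : Ex :=
  (rPoly xG xEpsQ xPsiQ (xKQ I) (xKQ J) (xPQ I J) i j a b).ex

/-- The alternatives of cell `(I, J)` on a pair of parts. -/
def xPartExs (I J : Fin 19) (a b : Fin 5) : List Ex :=
  (cellAlts xG xEpsQ xPsiQ (xKQ I) (xKQ J) (xPQ I J) (xLo I) (xHi I) (xLo J) (xHi J)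
    (xPart a).1 (xPart b).1).flatten

/-- The check of cell `(I, J)` on a pair of parts. -/
def xPartOK (I J : Fin 19) (a b : Fin 5) (T : ACut) : Bool :=
  checkDense (xPartExs I J a b) T [(xPart a).2, (xPart b).2]

/-- All parts of a cell. -/
def xCellOK (I J : Fin 19) (T : Fin 5 → Fin 5 → ACut) : Bool :=
  (List.finRange 5).all fun a => (List.finRange 5).all fun b => xPartOK I J a b (T a b)

theorem exists_part {i : Fin 4} {x : ℝ} (hx : (famBox i).Mem x) :
    ∃ a, (xPart a).1 = i ∧ (xPart a).2.Mem x := by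
  fin_cases i
  · rcases le_total x 0 with h | h
    · refine ⟨0, rfl, ?_⟩
      obtain ⟨h1, h2⟩ := hx
      simp [famBox, xPart, Iv.Mem] at h1 h2 ⊢
      constructor <;> linarith
    · refine ⟨1, rfl, ?_⟩
      obtain ⟨h1, h2⟩ := hx
      simp [famBox, xPart, Iv.Mem] at h1 h2 ⊢
      constructor <;> linarith
  · exact ⟨2, rfl, hx⟩
  · exact ⟨3, rfl, hx⟩
  · exact ⟨4, rfl, hx⟩

theorem part_sound {I J : Fin 19} {a b : Fin 5} {T : ACut} (hc : xPartOK I J a b T = true)
    {x y : ℝ} (hx : (xPart a).2.Mem x) (hy : (xPart b).2.Mem y)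
    (hs : famS (xPart a).1 x ∈ Set.Icc (xLo I : ℝ) (xHi I : ℝ))
    (ht : famS (xPart b).1 y ∈ Set.Icc (xLo J : ℝ) (xHi J : ℝ)) :
    0 ≤ famPoly xG xEpsQ (fun n => xPsiQ n) (fun n => xKQ I n) (fun n => xKQ J n)
      (fun n => xPQ I J n) (xPart a).1 (xPart b).1 x y := by
  unfold xPartOK xPartExs at hc
  generalize (xPart a).1 = i at *
  generalize (xPart b).1 = j at *
  generalize (xPart a).2 = A at *
  generalize (xPart b).2 = B at *
  obtain ⟨e, he, hpos⟩ := checkDense_sound _ T [A, B] (pt [x, y]) hc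
    ⟨by simpa [pt] using hx, by simpa [pt] using hy, trivial⟩
  simp only [cellAlts, List.flatten_cons, List.flatten_nil, List.cons_append, List.nil_append,
    List.mem_cons, List.not_mem_nil, or_false] at he
  have e0 : pt [x, y] 0 = x := by simp [pt]
  have e1 : pt [x, y] 1 = y := by simp [pt]
  have sx : (rS i (.v 0)).eval (pt [x, y]) = famS i x := by
    rw [(eval_fam i _ _).1, XCheck.eval_v, e0]
  have sy : (rS j (.v 1)).eval (pt [x, y]) = famS j y := by
    rw [(eval_fam j _ _).1, XCheck.eval_v, e1]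
  rcases he with rfl | rfl | rfl | rfl | rfl <;> have hh := ex_sound hpos
  · rw [eval_rPoly, e0, e1] at hh; exact hh
  all_goals
    simp only [XCheck.eval_sub, XCheck.eval_mul, eval_cq, XCheck.eval_ofNat, sx, sy] at hh
    push_cast at hh
    linarith [hs.1, hs.2, ht.1, ht.2]

/-- The slack on a cell from its families. -/
theorem xSlack_of_cell {I J : Fin 19}
    (h : ∀ i j x y, (famBox i).Mem x → (famBox j).Mem y →
      famS i x ∈ Set.Icc (xLo I : ℝ) (xHi I : ℝ) → famS j y ∈ Set.Icc (xLo J : ℝ) (xHi J : ℝ) →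
      0 ≤ famPoly xG xEpsQ (fun n => xPsiQ n) (fun n => xKQ I n) (fun n => xKQ J n)
        (fun n => xPQ I J n) i j x y)
    {r r' : Fin 4 → ℝ} (hr : IsPost4 r) (hr' : IsPost4 r')
    (hs : sq4 r ∈ Set.Icc (xLo I : ℝ) (xHi I : ℝ))
    (ht : sq4 r' ∈ Set.Icc (xLo J : ℝ) (xHi J : ℝ)) :
    0 ≤ xSlack xG xEpsQ (fun n => xPsiQ n) (fun n => xKQ I n) (fun n => xKQ J n)
      (fun n => xPQ I J n) (sq4 r) (cube4 r) (quart4 r) (sq4 r') (cube4 r') (quart4 r') :=
  xSlack_of_poly h hr hr' hs ht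

/-- A checked cell. -/
theorem poly_of_cellOK {I J : Fin 19} {T : Fin 5 → Fin 5 → ACut} (hc : xCellOK I J T = true)
    (i j : Fin 4) (x y : ℝ) (hx : (famBox i).Mem x) (hy : (famBox j).Mem y)
    (hs : famS i x ∈ Set.Icc (xLo I : ℝ) (xHi I : ℝ))
    (ht : famS j y ∈ Set.Icc (xLo J : ℝ) (xHi J : ℝ)) :
    0 ≤ famPoly xG xEpsQ (fun n => xPsiQ n) (fun n => xKQ I n) (fun n => xKQ J n)
      (fun n => xPQ I J n) i j x y := by
  obtain ⟨a, rfl, hxa⟩ := exists_part hx
  obtain ⟨b, rfl, hyb⟩ := exists_part hy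
  refine part_sound (T := T a b) ?_ hxa hyb hs ht
  simp only [xCellOK, List.all_eq_true, List.mem_finRange, true_implies] at hc
  exact hc a b

/-- The small interval of a family in the first cell, with sign split. -/
def xSmall : Fin 3 → Fin 4 × Iv := ![(0, ⟨-1, 0, 40⟩), (0, ⟨0, 1, 40⟩), (1, ⟨0, 1, 23⟩)]

/-- The two halves of the range of the ratio. -/
def xRatio : Fin 2 → Iv := ![⟨-1, 0, 1⟩, ⟨0, 1, 1⟩]

/-- The checks of the first cell with `y = r x` (for `a`) and with `x = r y` (for `b`). -/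
def xCell00OK (T T' : Fin 3 → Fin 2 → Fin 2 → Cut) : Bool :=
  (List.finRange 3).all fun a => (List.finRange 2).all fun j => (List.finRange 2).all fun h =>
    check 2 (xCellPoly 0 0 (xSmall a).1 j.castSucc.castSucc (.v 0) (.v 0 * .v 1))
        [(xSmall a).2, xRatio h] (T a j h) &&
      check 2 (xCellPoly 0 0 j.castSucc.castSucc (xSmall a).1 (.v 0 * .v 1) (.v 0))
        [(xSmall a).2, xRatio h] (T' a j h)

theorem eval_rPoly_gen (g eps : ℚ) (psi : Fin 7 → ℚ) (k k' : Fin 12 → ℚ) (p : Fin 4 → ℚ)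
    (i j : Fin 4) (a b : RE) (x : ℕ → ℝ) :
    (rPoly g eps psi k k' p i j a b).eval x =
      famPoly g eps (fun n => psi n) (fun n => k n) (fun n => k' n) (fun n => p n) i j
        (a.eval x) (b.eval x) := by
  obtain ⟨a1, a2, a3, a4, a5⟩ := eval_fam i a x
  obtain ⟨b1, b2, b3, b4, b5⟩ := eval_fam j b x
  simp only [rPoly, rInv, rPsi, rMean, famPoly, invBound, mom0, mom1, mom2, mom3, xPsi,
    pairPolyMean, XCheck.eval_add, XCheck.eval_sub, XCheck.eval_mul, XCheck.eval_pow, eval_cq,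
    XCheck.eval_ofNat, a1, a2, a3, a4, a5, b1, b2, b3, b4, b5]
  push_cast
  ring

theorem exists_small {i : Fin 4} {x : ℝ} (hx : (famBox i).Mem x)
    (hs : famS i x ∈ Set.Icc (xLo 0 : ℝ) (xHi 0 : ℝ)) :
    ∃ a, (xSmall a).1 = i ∧ (xSmall a).2.Mem x := by
  obtain ⟨h1, h2⟩ := hx
  obtain ⟨-, hh⟩ := hs
  fin_cases i <;>
    simp [famBox, famS, xHi, xEdge] at h1 h2 hh
  · rcases le_total x 0 with h | h
    · refine ⟨0, rfl, ?_⟩
      simp [xSmall, Iv.Mem]
      constructor <;> nlinarith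
    · refine ⟨1, rfl, ?_⟩
      simp [xSmall, Iv.Mem]
      constructor <;> nlinarith
  · refine ⟨2, rfl, ?_⟩
    simp [xSmall, Iv.Mem]
    constructor <;> nlinarith
  · nlinarith [sq_nonneg (3 * x - 1)]
  · nlinarith [sq_nonneg x]

theorem exists_ratio {x y : ℝ} (h : |y| ≤ |x|) :
    ∃ (r : ℝ) (n : Fin 2), (xRatio n).Mem r ∧ y = x * r := by
  rcases eq_or_ne x 0 with rfl | hx
  · refine ⟨0, 0, by simp [xRatio, Iv.Mem], ?_⟩
    simpa using h
  · have hr : |y / x| ≤ 1 := by rw [abs_div, div_le_one (abs_pos.2 hx)]; exact h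
    obtain ⟨r1, r2⟩ := abs_le.1 hr
    have e : y = x * (y / x) := by field_simp
    rcases le_total (y / x) 0 with hn | hn
    · exact ⟨y / x, 0, by simp [xRatio, Iv.Mem]; constructor <;> linarith, e⟩
    · exact ⟨y / x, 1, by simp [xRatio, Iv.Mem]; constructor <;> linarith, e⟩

/-- The first cell. -/
theorem poly_of_cell00OK {T T' : Fin 3 → Fin 2 → Fin 2 → Cut} (hc : xCell00OK T T' = true)
    (i j : Fin 4) (x y : ℝ) (hx : (famBox i).Mem x) (hy : (famBox j).Mem y)
    (hs : famS i x ∈ Set.Icc (xLo 0 : ℝ) (xHi 0 : ℝ))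
    (ht : famS j y ∈ Set.Icc (xLo 0 : ℝ) (xHi 0 : ℝ)) :
    0 ≤ famPoly xG xEpsQ (fun n => xPsiQ n) (fun n => xKQ 0 n) (fun n => xKQ 0 n)
      (fun n => xPQ 0 0 n) i j x y := by
  obtain ⟨a, rfl, hxa⟩ := exists_small hx hs
  obtain ⟨b, rfl, hyb⟩ := exists_small hy ht
  simp only [xCell00OK, List.all_eq_true, List.mem_finRange, Bool.and_eq_true,
    true_implies] at hc
  have fam : ∀ c : Fin 3, ∃ q : Fin 2, q.castSucc.castSucc = (xSmall c).1 := by decide
  rcases le_total |y| |x| with h | h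
  · obtain ⟨r, n, hr, e⟩ := exists_ratio h
    obtain ⟨q, hq⟩ := fam b
    have hh := ex_sound (nonneg_of_check _ _ _ (hc a q n).1 (pt [x, r])
      ⟨by simpa [pt] using hxa, by simpa [pt] using hr, trivial⟩)
    rw [eval_rPoly_gen, hq] at hh
    simpa [pt, e] using hh
  · obtain ⟨r, n, hr, e⟩ := exists_ratio h
    obtain ⟨q, hq⟩ := fam a
    have hh := ex_sound (nonneg_of_check _ _ _ (hc b q n).2 (pt [y, r])
      ⟨by simpa [pt] using hyb, by simpa [pt] using hr, trivial⟩)
    rw [eval_rPoly_gen, hq] at hh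
    simpa [pt, e] using hh

/-- The slack is symmetric in the two sides. -/
theorem xSlack_swap (g eps : ℝ) (psi : Fin 7 → ℝ) (k k' : Fin 12 → ℝ) (p : Fin 4 → ℝ)
    (s c e t d f : ℝ) :
    xSlack g eps psi k k' p s c e t d f = xSlack g eps psi k' k p t d f s c e := by
  simp only [xSlack, invBound, mom0, mom1, mom2, mom3]
  ring

end Vale.Agent.P154.Ferro4
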