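import Vale.Agent.P154.Ferro4.XCells.Part0
import Vale.Agent.P154.Ferro4.XCells.Part1
import Vale.Agent.P154.Ferro4.XCells.Part2
import Vale.Agent.P154.Ferro4.XCells.Part3
import Vale.Agent.P154.Ferro4.XCells.Part4
import Vale.Agent.P154.Ferro4.XCells.Part5
import Vale.Agent.P154.Ferro4.XCells.Part6
import Vale.Agent.P154.Ferro4.XCells.Part7
import Vale.Agent.P154.Ferro4.XCells.Part8
import Vale.Agent.P154.Ferro4.XCells.Part9
import Vale.Agent.P154.Ferro4.XCells.Part10
import Vale.Agent.P154.Ferro4.XCells.Part11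
import Vale.Agent.P154.Ferro4.XCells.Part12
import Vale.Agent.P154.Ferro4.XCells.Part13
import Vale.Agent.P154.Ferro4.XCells.Part14
import Vale.Agent.P154.Ferro4.XCells.Part15
import Vale.Agent.P154.Ferro4.XCells.Part16
import Vale.Agent.P154.Ferro4.XCells.Part17
import Vale.Agent.P154.Ferro4.XCells.Part18
import Vale.Agent.P154.Ferro4.XCells.Part19
import Vale.Agent.P154.Ferro4.XCells.Part20
import Vale.Agent.P154.Ferro4.XCells.Part21
import Vale.Agent.P154.Ferro4.XCells.Part22
import Vale.Agent.P154.Ferro4.XCells.Part23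
import Vale.Agent.P154.Ferro4.XCells.Part24
import Vale.Agent.P154.Ferro4.XCells.Part25
import Vale.Agent.P154.Ferro4.XCells.Part26
import Vale.Agent.P154.Ferro4.XCells.Part27
import Vale.Agent.P154.Ferro4.XAssembly

/-!
P154, four states: the checked cells cover everything; the subadditivity inequality follows from
the majorants of the intervals.
-/

namespace Vale.Agent.P154.Ferro4

open Channel PolyCheck XReduce XCheck

/-- The slack of cell `(I, J)` is nonnegative on the families. -/
def XCellPoly (I J : Fin 19) : Prop :=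
  ∀ (i j : Fin 4) (x y : ℝ), (famBox i).Mem x → (famBox j).Mem y →
    famS i x ∈ Set.Icc (xLo I : ℝ) (xHi I : ℝ) → famS j y ∈ Set.Icc (xLo J : ℝ) (xHi J : ℝ) →
    0 ≤ famPoly xG xEpsQ (fun n => xPsiQ n) (fun n => xKQ I n) (fun n => xKQ J n)
      (fun n => xPQ I J n) i j x y

theorem xRow_0 : ∀ J : Fin 19, (0 : Fin 19) ≤ J → XCellPoly 0 J := by
  intro J hJ
  fin_cases J
  · exact poly_of_cell00OK xCell_0_0
  · exact poly_of_cellOK xCell_0_1
  · exact poly_of_cellOK xCell_0_2
  · exact poly_of_cellOK xCell_0_3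
  · exact poly_of_cellOK xCell_0_4
  · exact poly_of_cellOK xCell_0_5
  · exact poly_of_cellOK xCell_0_6
  · exact poly_of_cellOK xCell_0_7
  · exact poly_of_cellOK xCell_0_8
  · exact poly_of_cellOK xCell_0_9
  · exact poly_of_cellOK xCell_0_10
  · exact poly_of_cellOK xCell_0_11
  · exact poly_of_cellOK xCell_0_12
  · exact poly_of_cellOK xCell_0_13
  · exact poly_of_cellOK xCell_0_14
  · exact poly_of_cellOK xCell_0_15
  · exact poly_of_cellOK xCell_0_16
  · exact poly_of_cellOK xCell_0_17
  · exact poly_of_cellOK xCell_0_18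

theorem xRow_1 : ∀ J : Fin 19, (1 : Fin 19) ≤ J → XCellPoly 1 J := by
  intro J hJ
  fin_cases J
  · exact absurd hJ (by decide)
  · exact poly_of_cellOK xCell_1_1
  · exact poly_of_cellOK xCell_1_2
  · exact poly_of_cellOK xCell_1_3
  · exact poly_of_cellOK xCell_1_4
  · exact poly_of_cellOK xCell_1_5
  · exact poly_of_cellOK xCell_1_6
  · exact poly_of_cellOK xCell_1_7
  · exact poly_of_cellOK xCell_1_8
  · exact poly_of_cellOK xCell_1_9
  · exact poly_of_cellOK xCell_1_10
  · exact poly_of_cellOK xCell_1_11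
  · exact poly_of_cellOK xCell_1_12
  · exact poly_of_cellOK xCell_1_13
  · exact poly_of_cellOK xCell_1_14
  · exact poly_of_cellOK xCell_1_15
  · exact poly_of_cellOK xCell_1_16
  · exact poly_of_cellOK xCell_1_17
  · exact poly_of_cellOK xCell_1_18

theorem xRow_2 : ∀ J : Fin 19, (2 : Fin 19) ≤ J → XCellPoly 2 J := by
  intro J hJ
  fin_cases J
  · exact absurd hJ (by decide)
  · exact absurd hJ (by decide)
  · exact poly_of_cellOK xCell_2_2
  · exact poly_of_cellOK xCell_2_3
  · exact poly_of_cellOK xCell_2_4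
  · exact poly_of_cellOK xCell_2_5
  · exact poly_of_cellOK xCell_2_6
  · exact poly_of_cellOK xCell_2_7
  · exact poly_of_cellOK xCell_2_8
  · exact poly_of_cellOK xCell_2_9
  · exact poly_of_cellOK xCell_2_10
  · exact poly_of_cellOK xCell_2_11
  · exact poly_of_cellOK xCell_2_12
  · exact poly_of_cellOK xCell_2_13
  · exact poly_of_cellOK xCell_2_14
  · exact poly_of_cellOK xCell_2_15
  · exact poly_of_cellOK xCell_2_16
  · exact poly_of_cellOK xCell_2_17
  · exact poly_of_cellOK xCell_2_18

theorem xRow_3 : ∀ J : Fin 19, (3 : Fin 19) ≤ J → XCellPoly 3 J := by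
  intro J hJ
  fin_cases J
  · exact absurd hJ (by decide)
  · exact absurd hJ (by decide)
  · exact absurd hJ (by decide)
  · exact poly_of_cellOK xCell_3_3
  · exact poly_of_cellOK xCell_3_4
  · exact poly_of_cellOK xCell_3_5
  · exact poly_of_cellOK xCell_3_6
  · exact poly_of_cellOK xCell_3_7
  · exact poly_of_cellOK xCell_3_8
  · exact poly_of_cellOK xCell_3_9
  · exact poly_of_cellOK xCell_3_10
  · exact poly_of_cellOK xCell_3_11
  · exact poly_of_cellOK xCell_3_12
  · exact poly_of_cellOK xCell_3_13
  · exact poly_of_cellOK xCell_3_14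
  · exact poly_of_cellOK xCell_3_15
  · exact poly_of_cellOK xCell_3_16
  · exact poly_of_cellOK xCell_3_17
  · exact poly_of_cellOK xCell_3_18

theorem xRow_4 : ∀ J : Fin 19, (4 : Fin 19) ≤ J → XCellPoly 4 J := by
  intro J hJ
  fin_cases J
  · exact absurd hJ (by decide)
  · exact absurd hJ (by decide)
  · exact absurd hJ (by decide)
  · exact absurd hJ (by decide)
  · exact poly_of_cellOK xCell_4_4
  · exact poly_of_cellOK xCell_4_5
  · exact poly_of_cellOK xCell_4_6
  · exact poly_of_cellOK xCell_4_7
  · exact poly_of_cellOK xCell_4_8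
  · exact poly_of_cellOK xCell_4_9
  · exact poly_of_cellOK xCell_4_10
  · exact poly_of_cellOK xCell_4_11
  · exact poly_of_cellOK xCell_4_12
  · exact poly_of_cellOK xCell_4_13
  · exact poly_of_cellOK xCell_4_14
  · exact poly_of_cellOK xCell_4_15
  · exact poly_of_cellOK xCell_4_16
  · exact poly_of_cellOK xCell_4_17
  · exact poly_of_cellOK xCell_4_18

theorem xRow_5 : ∀ J : Fin 19, (5 : Fin 19) ≤ J → XCellPoly 5 J := by
  intro J hJ
  fin_cases J
  · exact absurd hJ (by decide)
  · exact absurd hJ (by decide)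
  · exact absurd hJ (by decide)
  · exact absurd hJ (by decide)
  · exact absurd hJ (by decide)
  · exact poly_of_cellOK xCell_5_5
  · exact poly_of_cellOK xCell_5_6
  · exact poly_of_cellOK xCell_5_7
  · exact poly_of_cellOK xCell_5_8
  · exact poly_of_cellOK xCell_5_9
  · exact poly_of_cellOK xCell_5_10
  · exact poly_of_cellOK xCell_5_11
  · exact poly_of_cellOK xCell_5_12
  · exact poly_of_cellOK xCell_5_13
  · exact poly_of_cellOK xCell_5_14
  · exact poly_of_cellOK xCell_5_15
  · exact poly_of_cellOK xCell_5_16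
  · exact poly_of_cellOK xCell_5_17
  · exact poly_of_cellOK xCell_5_18

theorem xRow_6 : ∀ J : Fin 19, (6 : Fin 19) ≤ J → XCellPoly 6 J := by
  intro J hJ
  fin_cases J
  · exact absurd hJ (by decide)
  · exact absurd hJ (by decide)
  · exact absurd hJ (by decide)
  · exact absurd hJ (by decide)
  · exact absurd hJ (by decide)
  · exact absurd hJ (by decide)
  · exact poly_of_cellOK xCell_6_6
  · exact poly_of_cellOK xCell_6_7
  · exact poly_of_cellOK xCell_6_8
  · exact poly_of_cellOK xCell_6_9
  · exact poly_of_cellOK xCell_6_10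
  · exact poly_of_cellOK xCell_6_11
  · exact poly_of_cellOK xCell_6_12
  · exact poly_of_cellOK xCell_6_13
  · exact poly_of_cellOK xCell_6_14
  · exact poly_of_cellOK xCell_6_15
  · exact poly_of_cellOK xCell_6_16
  · exact poly_of_cellOK xCell_6_17
  · exact poly_of_cellOK xCell_6_18

theorem xRow_7 : ∀ J : Fin 19, (7 : Fin 19) ≤ J → XCellPoly 7 J := by
  intro J hJ
  fin_cases J
  · exact absurd hJ (by decide)
  · exact absurd hJ (by decide)
  · exact absurd hJ (by decide)
  · exact absurd hJ (by decide)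
  · exact absurd hJ (by decide)
  · exact absurd hJ (by decide)
  · exact absurd hJ (by decide)
  · exact poly_of_cellOK xCell_7_7
  · exact poly_of_cellOK xCell_7_8
  · exact poly_of_cellOK xCell_7_9
  · exact poly_of_cellOK xCell_7_10
  · exact poly_of_cellOK xCell_7_11
  · exact poly_of_cellOK xCell_7_12
  · exact poly_of_cellOK xCell_7_13
  · exact poly_of_cellOK xCell_7_14
  · exact poly_of_cellOK xCell_7_15
  · exact poly_of_cellOK xCell_7_16
  · exact poly_of_cellOK xCell_7_17
  · exact poly_of_cellOK xCell_7_18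

theorem xRow_8 : ∀ J : Fin 19, (8 : Fin 19) ≤ J → XCellPoly 8 J := by
  intro J hJ
  fin_cases J
  · exact absurd hJ (by decide)
  · exact absurd hJ (by decide)
  · exact absurd hJ (by decide)
  · exact absurd hJ (by decide)
  · exact absurd hJ (by decide)
  · exact absurd hJ (by decide)
  · exact absurd hJ (by decide)
  · exact absurd hJ (by decide)
  · exact poly_of_cellOK xCell_8_8
  · exact poly_of_cellOK xCell_8_9
  · exact poly_of_cellOK xCell_8_10
  · exact poly_of_cellOK xCell_8_11
  · exact poly_of_cellOK xCell_8_12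
  · exact poly_of_cellOK xCell_8_13
  · exact poly_of_cellOK xCell_8_14
  · exact poly_of_cellOK xCell_8_15
  · exact poly_of_cellOK xCell_8_16
  · exact poly_of_cellOK xCell_8_17
  · exact poly_of_cellOK xCell_8_18

theorem xRow_9 : ∀ J : Fin 19, (9 : Fin 19) ≤ J → XCellPoly 9 J := by
  intro J hJ
  fin_cases J
  · exact absurd hJ (by decide)
  · exact absurd hJ (by decide)
  · exact absurd hJ (by decide)
  · exact absurd hJ (by decide)
  · exact absurd hJ (by decide)
  · exact absurd hJ (by decide)
  · exact absurd hJ (by decide)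
  · exact absurd hJ (by decide)
  · exact absurd hJ (by decide)
  · exact poly_of_cellOK xCell_9_9
  · exact poly_of_cellOK xCell_9_10
  · exact poly_of_cellOK xCell_9_11
  · exact poly_of_cellOK xCell_9_12
  · exact poly_of_cellOK xCell_9_13
  · exact poly_of_cellOK xCell_9_14
  · exact poly_of_cellOK xCell_9_15
  · exact poly_of_cellOK xCell_9_16
  · exact poly_of_cellOK xCell_9_17
  · exact poly_of_cellOK xCell_9_18

theorem xRow_10 : ∀ J : Fin 19, (10 : Fin 19) ≤ J → XCellPoly 10 J := by
  intro J hJ
  fin_cases J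
  · exact absurd hJ (by decide)
  · exact absurd hJ (by decide)
  · exact absurd hJ (by decide)
  · exact absurd hJ (by decide)
  · exact absurd hJ (by decide)
  · exact absurd hJ (by decide)
  · exact absurd hJ (by decide)
  · exact absurd hJ (by decide)
  · exact absurd hJ (by decide)
  · exact absurd hJ (by decide)
  · exact poly_of_cellOK xCell_10_10
  · exact poly_of_cellOK xCell_10_11
  · exact poly_of_cellOK xCell_10_12
  · exact poly_of_cellOK xCell_10_13
  · exact poly_of_cellOK xCell_10_14
  · exact poly_of_cellOK xCell_10_15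
  · exact poly_of_cellOK xCell_10_16
  · exact poly_of_cellOK xCell_10_17
  · exact poly_of_cellOK xCell_10_18

theorem xRow_11 : ∀ J : Fin 19, (11 : Fin 19) ≤ J → XCellPoly 11 J := by
  intro J hJ
  fin_cases J
  · exact absurd hJ (by decide)
  · exact absurd hJ (by decide)
  · exact absurd hJ (by decide)
  · exact absurd hJ (by decide)
  · exact absurd hJ (by decide)
  · exact absurd hJ (by decide)
  · exact absurd hJ (by decide)
  · exact absurd hJ (by decide)
  · exact absurd hJ (by decide)
  · exact absurd hJ (by decide)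
  · exact absurd hJ (by decide)
  · exact poly_of_cellOK xCell_11_11
  · exact poly_of_cellOK xCell_11_12
  · exact poly_of_cellOK xCell_11_13
  · exact poly_of_cellOK xCell_11_14
  · exact poly_of_cellOK xCell_11_15
  · exact poly_of_cellOK xCell_11_16
  · exact poly_of_cellOK xCell_11_17
  · exact poly_of_cellOK xCell_11_18

theorem xRow_12 : ∀ J : Fin 19, (12 : Fin 19) ≤ J → XCellPoly 12 J := by
  intro J hJ
  fin_cases J
  · exact absurd hJ (by decide)
  · exact absurd hJ (by decide)
  · exact absurd hJ (by decide)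
  · exact absurd hJ (by decide)
  · exact absurd hJ (by decide)
  · exact absurd hJ (by decide)
  · exact absurd hJ (by decide)
  · exact absurd hJ (by decide)
  · exact absurd hJ (by decide)
  · exact absurd hJ (by decide)
  · exact absurd hJ (by decide)
  · exact absurd hJ (by decide)
  · exact poly_of_cellOK xCell_12_12
  · exact poly_of_cellOK xCell_12_13
  · exact poly_of_cellOK xCell_12_14
  · exact poly_of_cellOK xCell_12_15
  · exact poly_of_cellOK xCell_12_16
  · exact poly_of_cellOK xCell_12_17
  · exact poly_of_cellOK xCell_12_18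

theorem xRow_13 : ∀ J : Fin 19, (13 : Fin 19) ≤ J → XCellPoly 13 J := by
  intro J hJ
  fin_cases J
  · exact absurd hJ (by decide)
  · exact absurd hJ (by decide)
  · exact absurd hJ (by decide)
  · exact absurd hJ (by decide)
  · exact absurd hJ (by decide)
  · exact absurd hJ (by decide)
  · exact absurd hJ (by decide)
  · exact absurd hJ (by decide)
  · exact absurd hJ (by decide)
  · exact absurd hJ (by decide)
  · exact absurd hJ (by decide)
  · exact absurd hJ (by decide)
  · exact absurd hJ (by decide)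
  · exact poly_of_cellOK xCell_13_13
  · exact poly_of_cellOK xCell_13_14
  · exact poly_of_cellOK xCell_13_15
  · exact poly_of_cellOK xCell_13_16
  · exact poly_of_cellOK xCell_13_17
  · exact poly_of_cellOK xCell_13_18

theorem xRow_14 : ∀ J : Fin 19, (14 : Fin 19) ≤ J → XCellPoly 14 J := by
  intro J hJ
  fin_cases J
  · exact absurd hJ (by decide)
  · exact absurd hJ (by decide)
  · exact absurd hJ (by decide)
  · exact absurd hJ (by decide)
  · exact absurd hJ (by decide)
  · exact absurd hJ (by decide)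
  · exact absurd hJ (by decide)
  · exact absurd hJ (by decide)
  · exact absurd hJ (by decide)
  · exact absurd hJ (by decide)
  · exact absurd hJ (by decide)
  · exact absurd hJ (by decide)
  · exact absurd hJ (by decide)
  · exact absurd hJ (by decide)
  · exact poly_of_cellOK xCell_14_14
  · exact poly_of_cellOK xCell_14_15
  · exact poly_of_cellOK xCell_14_16
  · exact poly_of_cellOK xCell_14_17
  · exact poly_of_cellOK xCell_14_18

theorem xRow_15 : ∀ J : Fin 19, (15 : Fin 19) ≤ J → XCellPoly 15 J := by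
  intro J hJ
  fin_cases J
  · exact absurd hJ (by decide)
  · exact absurd hJ (by decide)
  · exact absurd hJ (by decide)
  · exact absurd hJ (by decide)
  · exact absurd hJ (by decide)
  · exact absurd hJ (by decide)
  · exact absurd hJ (by decide)
  · exact absurd hJ (by decide)
  · exact absurd hJ (by decide)
  · exact absurd hJ (by decide)
  · exact absurd hJ (by decide)
  · exact absurd hJ (by decide)
  · exact absurd hJ (by decide)
  · exact absurd hJ (by decide)
  · exact absurd hJ (by decide)
  · exact poly_of_cellOK xCell_15_15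
  · exact poly_of_cellOK xCell_15_16
  · exact poly_of_cellOK xCell_15_17
  · exact poly_of_cellOK xCell_15_18

theorem xRow_16 : ∀ J : Fin 19, (16 : Fin 19) ≤ J → XCellPoly 16 J := by
  intro J hJ
  fin_cases J
  · exact absurd hJ (by decide)
  · exact absurd hJ (by decide)
  · exact absurd hJ (by decide)
  · exact absurd hJ (by decide)
  · exact absurd hJ (by decide)
  · exact absurd hJ (by decide)
  · exact absurd hJ (by decide)
  · exact absurd hJ (by decide)
  · exact absurd hJ (by decide)
  · exact absurd hJ (by decide)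
  · exact absurd hJ (by decide)
  · exact absurd hJ (by decide)
  · exact absurd hJ (by decide)
  · exact absurd hJ (by decide)
  · exact absurd hJ (by decide)
  · exact absurd hJ (by decide)
  · exact poly_of_cellOK xCell_16_16
  · exact poly_of_cellOK xCell_16_17
  · exact poly_of_cellOK xCell_16_18

theorem xRow_17 : ∀ J : Fin 19, (17 : Fin 19) ≤ J → XCellPoly 17 J := by
  intro J hJ
  fin_cases J
  · exact absurd hJ (by decide)
  · exact absurd hJ (by decide)
  · exact absurd hJ (by decide)
  · exact absurd hJ (by decide)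
  · exact absurd hJ (by decide)
  · exact absurd hJ (by decide)
  · exact absurd hJ (by decide)
  · exact absurd hJ (by decide)
  · exact absurd hJ (by decide)
  · exact absurd hJ (by decide)
  · exact absurd hJ (by decide)
  · exact absurd hJ (by decide)
  · exact absurd hJ (by decide)
  · exact absurd hJ (by decide)
  · exact absurd hJ (by decide)
  · exact absurd hJ (by decide)
  · exact absurd hJ (by decide)
  · exact poly_of_cellOK xCell_17_17
  · exact poly_of_cellOK xCell_17_18

theorem xRow_18 : ∀ J : Fin 19, (18 : Fin 19) ≤ J → XCellPoly 18 J := by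
  intro J hJ
  fin_cases J
  · exact absurd hJ (by decide)
  · exact absurd hJ (by decide)
  · exact absurd hJ (by decide)
  · exact absurd hJ (by decide)
  · exact absurd hJ (by decide)
  · exact absurd hJ (by decide)
  · exact absurd hJ (by decide)
  · exact absurd hJ (by decide)
  · exact absurd hJ (by decide)
  · exact absurd hJ (by decide)
  · exact absurd hJ (by decide)
  · exact absurd hJ (by decide)
  · exact absurd hJ (by decide)
  · exact absurd hJ (by decide)
  · exact absurd hJ (by decide)
  · exact absurd hJ (by decide)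
  · exact absurd hJ (by decide)
  · exact absurd hJ (by decide)
  · exact poly_of_cellOK xCell_18_18

theorem xCells (I J : Fin 19) (hJ : I ≤ J) : XCellPoly I J := by
  fin_cases I
  · exact xRow_0 J hJ
  · exact xRow_1 J hJ
  · exact xRow_2 J hJ
  · exact xRow_3 J hJ
  · exact xRow_4 J hJ
  · exact xRow_5 J hJ
  · exact xRow_6 J hJ
  · exact xRow_7 J hJ
  · exact xRow_8 J hJ
  · exact xRow_9 J hJ
  · exact xRow_10 J hJ
  · exact xRow_11 J hJ
  · exact xRow_12 J hJ
  · exact xRow_13 J hJ
  · exact xRow_14 J hJ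
  · exact xRow_15 J hJ
  · exact xRow_16 J hJ
  · exact xRow_17 J hJ
  · exact xRow_18 J hJ

theorem xSlack_cells (I J : Fin 19) {r r' : Fin 4 → ℝ} (hr : IsPost4 r) (hr' : IsPost4 r')
    (hs : sq4 r ∈ Set.Icc (xLo I : ℝ) (xHi I : ℝ))
    (ht : sq4 r' ∈ Set.Icc (xLo J : ℝ) (xHi J : ℝ)) :
    0 ≤ xSlack xG xEpsQ (fun n => xPsiQ n) (fun n => xKQ I n) (fun n => xKQ J n)
      (fun n => xPQ I J n) (sq4 r) (cube4 r) (quart4 r) (sq4 r') (cube4 r') (quart4 r') := by
  rcases le_total I J with h | h
  · exact xSlack_of_cell (xCells I J h) hr hr' hs ht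
  · rw [xSlack_swap, xPQ_symm]
    exact xSlack_of_cell (xCells J I h) hr' hr ht hs

/-- Bisection trees for the sign of the multiplier. -/
def xPsiTree : Fin 5 → Cut := ![(.leaf), (.leaf), (.leaf), (.cut 0 (.leaf) (.leaf)), (.leaf)]

theorem xPsi_check : ((List.finRange 5).all fun a =>
    check 1 (rPsi xPsiQ (rS (xPart a).1 (.v 0)) (rC (xPart a).1 (.v 0))
      (rE (xPart a).1 (.v 0))).ex [(xPart a).2] (xPsiTree a)) = true := by decide +kernel

theorem xPsiQ_nonneg (r : Fin 4 → ℝ) (hr : IsPost4 r) :
    0 ≤ psiFn (fun n => (xPsiQ n : ℝ)) r := by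
  have key : ∀ s c e : ℝ, xPsi (fun n => (xPsiQ n : ℝ)) s c e =
      xPsi (fun n => (xPsiQ n : ℝ)) s 0 0 + ((xPsiQ 3 : ℝ) + xPsiQ 4 * s) * c +
        (xPsiQ 5 : ℝ) * e := by
    intro s c e; simp only [xPsi]; ring
  rw [psiFn, key]
  refine affine_twoLevel (s := sq4 r) (fun v hv htl hsv => ?_) hr rfl
  rw [← key, ← hsv]
  obtain ⟨i, x, hx, es, ec, ee⟩ := exists_fam hv htl
  rw [es, ec, ee]
  obtain ⟨a, rfl, hxa⟩ := exists_part hx
  have hchk := List.all_eq_true.1 xPsi_check a (List.mem_finRange a)
  have h := ex_sound (nonneg_of_check _ _ _ hchk (pt [x]) ⟨by simpa [pt] using hxa, trivial⟩)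
  obtain ⟨a1, a2, a3, -, -⟩ := eval_fam (xPart a).1 (.v 0) (pt [x])
  have e0 : pt [x] 0 = x := by simp [pt]
  simp only [XCheck.eval_v, e0] at a1 a2 a3
  simp only [rPsi, XCheck.eval_add, XCheck.eval_mul, XCheck.eval_pow, eval_cq, a1, a2, a3] at h
  simpa only [xPsi] using h

/-- The subadditivity inequality, given the majorants. -/
theorem hX_of_majorants
    (maj : ∀ (I : Fin 19) (r : Fin 4 → ℝ), IsPost4 r → (xLo I : ℝ) ≤ sq4 r →
      sq4 r ≤ (xHi I : ℝ) →
      classFn (xG : ℝ) r ≤
        classMajorant (xG : ℝ) (fun n => (xKQ I n : ℝ)) (sq4 r) (cube4 r) (quart4 r))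
    (r r' : Fin 4 → ℝ) (hr : IsPost4 r) (hr' : IsPost4 r') :
    avg24 sq4 r r' ≤ sq4 r + sq4 r' -
      psiFn (fun n => (xPsiQ n : ℝ)) r' * classFn (xG : ℝ) r -
      psiFn (fun n => (xPsiQ n : ℝ)) r * classFn (xG : ℝ) r' -
      0 * (classFn (xG : ℝ) r * classFn (xG : ℝ) r') -
      (xEpsQ : ℝ) * sq4 r ^ 2 * sq4 r' := by
  refine hX_of_slack (by norm_num [xEpsQ]) xPsiQ_nonneg (fun v v' hv hv' => ?_) r r' hr hr'
  obtain ⟨I, hl, hh⟩ :=
    exists_xInterval (sq4_nonneg v) (sq4_le_one v hv.nonneg hv.sum_eq)
  obtain ⟨J, hl', hh'⟩ :=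
    exists_xInterval (sq4_nonneg v') (sq4_le_one v' hv'.nonneg hv'.sum_eq)
  exact ⟨_, _, _, invMinorant_xPQ I J, maj I v hv hl hh, maj J v' hv' hl' hh',
    xSlack_cells I J hv hv' ⟨hl, hh⟩ ⟨hl', hh'⟩⟩

end Vale.Agent.P154.Ferro4
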