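import Vale.Agent.P154.Ferro4.Glue

/-!
P154, four states: objects of the subadditivity certificate. With `w = Z - 1` and
`B = e₂(a) / 6` one has `Z s(a / Z) = Z - B / Z`; a cubic lower bound of `1 / (1 + w)` makes the
permutation average bilinear in the invariants `(1, s, c, e, s², s c)` of the two sides, and a
pair polynomial above `√((1 + x) (1 + y))` gives a majorant of `T` that is affine in `(c, e)`.
-/

namespace Vale.Agent.P154.Ferro4

open Channel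

noncomputable section

/-- Fourth order deviation `e`. -/
def quart4 (r : Fin 4 → ℝ) : ℝ := (∑ i, (r i - 1) ^ 4) / 84

/-- The sum of products of pairs, over six. -/
def pairs4 (a : Fin 4 → ℝ) : ℝ :=
  (a 0 * a 1 + a 0 * a 2 + a 0 * a 3 + a 1 * a 2 + a 1 * a 3 + a 2 * a 3) / 6

/-- Average of `B w ^ k` over the relative permutation. -/
def avgBW (k : ℕ) (r r' : Fin 4 → ℝ) : ℝ :=
  (∑ σ : Equiv.Perm (Fin 4), pairs4 (fun i => r i * r' (σ i)) *
    (mass4 (fun i => r i * r' (σ i)) - 1) ^ k) / 24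

/-- Closed form of `avgBW 0`. -/
def mom0 (s t : ℝ) : ℝ := (1 - s) * (1 - t)

/-- Closed form of `avgBW 1`. -/
def mom1 (s c t d : ℝ) : ℝ := 4 * (s - c) * (t - d)

/-- Closed form of `avgBW 2`. -/
def mom2 (s c e t d f : ℝ) : ℝ :=
  3 * s * t - 3 * s * t ^ 2 - 3 * s ^ 2 * t + 8 * c * d - 14 * c * f - 14 * e * d +
    6 * c * t ^ 2 + 6 * s ^ 2 * d + 98 * e * f - 84 * e * t ^ 2 - 84 * s ^ 2 * f +
    81 * s ^ 2 * t ^ 2

/-- Closed form of `avgBW 3`. -/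
def mom3 (s c e t d f : ℝ) : ℝ :=
  6 * c * d - 6 * c * (t * d) - 6 * (s * c) * d + 245 / 2 * e * f -
    189 / 2 * (e * t ^ 2 + s ^ 2 * f) - 28 * (e * (t * d) + s * c * f) +
    189 / 2 * s ^ 2 * t ^ 2 + 34 * (s * c) * (t * d)

/-- A polynomial `p₀ + p₁ w + p₂ w² + p₃ w³` below `1 / (1 + w)` on `[-1, 3]`. -/
def InvMinorant (p : Fin 4 → ℝ) : Prop :=
  ∀ w : ℝ, -1 ≤ w → w ≤ 3 → (1 + w) * (p 0 + p 1 * w + p 2 * w ^ 2 + p 3 * w ^ 3) ≤ 1

/-- The resulting lower bound for the average of `B / Z`. -/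
def invBound (p : Fin 4 → ℝ) (s c e t d f : ℝ) : ℝ :=
  p 0 * mom0 s t + p 1 * mom1 s c t d + p 2 * mom2 s c e t d f + p 3 * mom3 s c e t d f

/-- A symmetric polynomial of degree five in a pair of deviations. -/
def pairPoly (k : Fin 12 → ℝ) (x y : ℝ) : ℝ :=
  k 0 + k 1 * (x + y) + k 2 * (x * y) + k 3 * (x ^ 2 + y ^ 2) + k 4 * (x ^ 3 + y ^ 3) +
    k 5 * (x * y * (x + y)) + k 6 * (x ^ 4 + y ^ 4) + k 7 * (x * y * (x ^ 2 + y ^ 2)) +
    k 8 * (x ^ 2 * y ^ 2) + k 9 * (x ^ 5 + y ^ 5) + k 10 * (x * y * (x ^ 3 + y ^ 3)) +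
    k 11 * (x ^ 2 * y ^ 2 * (x + y))

/-- The mean of `pairPoly k` over the six pairs, in the invariants. -/
def pairPolyMean (k : Fin 12 → ℝ) (s c e : ℝ) : ℝ :=
  k 0 + (6 * k 3 - k 2) * s + (12 * k 4 - 4 * k 5) * c + (42 * k 6 - 14 * k 7 - 7 * k 8) * e +
    12 * k 8 * s ^ 2 + (120 * k 9 - 40 * k 10 + 8 * k 11) * (s * c)

/-- The majorant of `classFn g` given by a pair polynomial. -/
def classMajorant (g : ℝ) (k : Fin 12 → ℝ) (s c e : ℝ) : ℝ :=
  s - (1 - g) + g * (1 - 3 * s + 2 * c) / (1 - s) + (1 - 2 * g) * pairPolyMean k s c e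

end

end Vale.Agent.P154.Ferro4
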