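import Vale.Agent.P154.Ferro4.XCheck
import Vale.Agent.P154.Ferro4.XAssembly

/-!
P154, four states: a kernel check that the multiplier of the subadditivity certificate is
nonnegative. It is affine in `(c, e)` on a slice, so the four families suffice.
-/

namespace Vale.Agent.P154.Ferro4

open Channel PolyCheck XReduce XCheck

/-- The four one-variable checks; `T i` is the tree of family `i`. -/
def psiOK (psi : Fin 7 → ℚ) (T : Fin 4 → Cut) : Bool :=
  let one := fun i : Fin 4 => check 1 (rPsi psi (rS i (.v 0)) (rC i (.v 0)) (rE i (.v 0))).ex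
    [famBox i] (T i)
  one 0 && one 1 && one 2 && one 3

theorem psiFn_nonneg_of_psiOK {psi : Fin 7 → ℚ} {T : Fin 4 → Cut} (hc : psiOK psi T = true)
    (r : Fin 4 → ℝ) (hr : IsPost4 r) : 0 ≤ psiFn (fun n => (psi n : ℝ)) r := by
  have key : ∀ s c e : ℝ, xPsi (fun n => (psi n : ℝ)) s c e =
      xPsi (fun n => (psi n : ℝ)) s 0 0 + ((psi 3 : ℝ) + psi 4 * s) * c + (psi 5 : ℝ) * e := by
    intro s c e; simp only [xPsi]; ring
  rw [psiFn, key]
  refine affine_twoLevel (s := sq4 r) (fun v hv htl hsv => ?_) hr rfl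
  rw [← key, ← hsv]
  obtain ⟨i, x, hx, es, ec, ee⟩ := exists_fam hv htl
  rw [es, ec, ee]
  have hchk : check 1 (rPsi psi (rS i (.v 0)) (rC i (.v 0)) (rE i (.v 0))).ex [famBox i] (T i) =
      true := by
    simp only [psiOK, Bool.and_eq_true] at hc
    obtain ⟨⟨⟨h0, h1⟩, h2⟩, h3⟩ := hc
    fin_cases i <;> assumption
  have h := ex_sound (nonneg_of_check _ _ _ hchk (pt [x]) ⟨by simpa [pt] using hx, trivial⟩)
  obtain ⟨a1, a2, a3, -, -⟩ := eval_fam i (.v 0) (pt [x])
  have e0 : pt [x] 0 = x := by simp [pt]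
  simp only [XCheck.eval_v, e0] at a1 a2 a3
  simp only [rPsi, XCheck.eval_add, XCheck.eval_mul, XCheck.eval_pow, eval_cq, a1, a2, a3] at h
  simpa only [xPsi] using h

end Vale.Agent.P154.Ferro4
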